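import Crest.Agent.N228.A.Defs

/-! # Row 228, part A* (helper11): budget and masses -/

set_option autoImplicit false
set_option linter.dupNamespace false
open Set

noncomputable section

namespace Crest.Agent.N228.A

open Crest.Agent.N222.A

variable {Z : Type} {A : Alg Z}

theorem Bd.nil (T : Pt A) {c : ℝ} (hc : 0 ≤ c) : Bd T [] c := fun _ hh => by
  simpa using mul_nonneg hc (T.nonneg hh)

theorem Bd.mono {T : Pt A} {vs : List (Z → ℝ)} {c c' : ℝ} (h : Bd T vs c) (hc : c ≤ c') :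
    Bd T vs c' := fun f hf => (h f hf).trans (mul_le_mul_of_nonneg_right hc (T.nonneg hf))

/-- the budget is inductive -/
theorem Bd.step {T T' : Pt A} {vs : List (Z → ℝ)} {v : Z → ℝ} {c k : ℝ} (h : Bd T vs c)
    (hc : 1 ≤ c) (hk : 0 ≤ k) (hvs : ∀ u ∈ vs, A.Sm u) (hv : A.Sm v)
    (e : ∀ f g, A.Sm f → A.Sm g →
      T'.Γ f g = k * (T.Γ f g - T.Γ v f * T.Γ v g / (1 + T.Γ v v))) :
    Bd T' (v :: vs) (k * c) := by
  intro g hg
  have t0 := T.nonneg hv
  have t1 : 0 < 1 + T.Γ v v := by linarith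
  set b : ℝ := T.Γ v g / (1 + T.Γ v v) with hb
  have sg : A.Sm fun z => g z - b * v z := Alg.sub hg (Alg.smul b hv)
  have e1 : ∀ u, A.Sm u → T'.Γ u g = k * T.Γ u fun z => g z - b * v z := fun u hu => by
    rw [e u g hu hg, T.sub_right hg (Alg.smul b hv) hu, T.smul_right b hv hu, T.symm hv hu, hb]
    ring
  have e2 : T.Γ (fun z => g z - b * v z) (fun z => g z - b * v z)
      = T.Γ g g - 2 * b * T.Γ v g + b ^ 2 * T.Γ v v := by
    rw [T.sub_left hg (Alg.smul b hv) sg, T.smul_left b hv sg, T.sub_right hg (Alg.smul b hv) hg,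
      T.sub_right hg (Alg.smul b hv) hv, T.smul_right b hv hg, T.smul_right b hv hv,
      T.symm hg hv]
    ring
  have e3 : T.Γ v g = b * (1 + T.Γ v v) := by rw [hb]; field_simp
  have e4 : T'.Γ v g = k * b := by rw [e v g hv hg, hb]; field_simp; ring
  have e5 : T'.Γ g g = k * (T.Γ g g - b ^ 2 * (1 + T.Γ v v)) := by
    rw [e g g hg hg, mul_div_assoc, ← hb, e3]; ring
  have h1 : (vs.map fun u => T'.Γ u g ^ 2).sum
      = k ^ 2 * (vs.map fun u => (T.Γ u fun z => g z - b * v z) ^ 2).sum := by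
    rw [← List.sum_map_mul_left]
    exact congrArg List.sum (List.map_congr_left fun u hu => by rw [e1 u (hvs u hu)]; ring)
  have h2 := mul_le_mul_of_nonneg_left (h _ sg) (sq_nonneg k)
  have h3 := mul_le_mul_of_nonneg_left hc (mul_nonneg (sq_nonneg k) (sq_nonneg b))
  rw [List.map_cons, List.sum_cons, h1, e4, e5]
  rw [e2, e3] at h2
  nlinarith

/-- the metric after a step -/
theorem step_le {T T' : Pt A} {v f : Z → ℝ} {k : ℝ} (hk : 0 ≤ k) (hv : A.Sm v)
    (e : T'.Γ f f = k * (T.Γ f f - T.Γ v f * T.Γ v f / (1 + T.Γ v v))) :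
    T'.Γ f f ≤ k * T.Γ f f := by
  have := T.nonneg hv
  have h2 : 0 ≤ T.Γ v f * T.Γ v f / (1 + T.Γ v v) := div_nonneg (mul_self_nonneg _) (by linarith)
  rw [e]; exact mul_le_mul_of_nonneg_left (by linarith) hk

/-- scaling of the Fisher information -/
theorem fi_scale {T T' : Pt A} {G : Type} [Fintype G] {M : G → Z → ℝ} {I k : ℝ} (hM : T.Fi M I)
    (hp : T'.p = T.p) (hk : 0 ≤ k) (hle : ∀ g, T'.Γ (M g) (M g) ≤ k * T.Γ (M g) (M g)) :
    T'.Fi M (k * I) := by
  obtain ⟨j, hj, hs⟩ := hM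
  refine ⟨fun g => k * j g, fun g => ⟨mul_nonneg hk (hj g).1, ?_⟩, ?_⟩
  · rw [hp, mul_assoc]; exact (hle g).trans (mul_le_mul_of_nonneg_left (hj g).2 hk)
  · rw [← Finset.mul_sum]; exact mul_le_mul_of_nonneg_left hs hk

theorem sm_upd {G : Type} [DecidableEq G] {M : G → Z → ℝ} (h : ∀ g, A.Sm (M g)) (g : G)
    {v : Z → ℝ} (hv : A.Sm v) (g' : G) : A.Sm (upd M g v g') := by
  refine A.add (h g') ?_
  by_cases hg : g' = g
  · simpa only [if_pos hg] using Alg.div_const (Alg.pow hv 2) 4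
  · simpa only [if_neg hg] using A.const 0

theorem le_upd {G : Type} [DecidableEq G] (M : G → Z → ℝ) (g : G) (v : Z → ℝ) (g' : G) (x : Z) :
    M g' x ≤ upd M g v g' x := by
  unfold upd; split_ifs
  · linarith [sq_nonneg (v x)]
  · linarith

/-- the Fisher information after a step -/
theorem fi_upd {G : Type} [Fintype G] [DecidableEq G] {M : G → Z → ℝ} {T : Pt A} {I : ℝ}
    (h : T.Fi M I) (s : ∀ g, A.Sm (M g)) (n : ∀ g, 0 ≤ M g T.p) (g : G) {v : Z → ℝ}
    (hv : A.Sm v) : T.Fi (upd M g v) (T.Γ v v + I) := by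
  have s1 : ∀ g', A.Sm fun z => if g' = g then v z ^ 2 / 4 else 0 := fun g' => by
    by_cases hg : g' = g
    · simpa only [if_pos hg] using Alg.div_const (Alg.pow hv 2) 4
    · simpa only [if_neg hg] using A.const 0
  have n1 : ∀ g' z, 0 ≤ if g' = g then v z ^ 2 / 4 else 0 := fun g' z => by
    split_ifs <;> positivity
  have f1 : T.Fi (fun g' z => if g' = g then v z ^ 2 / 4 else 0) (T.Γ v v) := by
    refine ⟨fun g' => if g' = g then T.Γ v v else 0, fun g' => ?_, by simp⟩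
    by_cases hg : g' = g
    · simp only [if_pos hg]
      refine ⟨T.nonneg hv, le_of_eq ?_⟩
      rw [T.chain_self (φ := fun t => t ^ 2 / 4) hv (Alg.div_const (Alg.pow hv 2) 4)
        ((hasDerivAt_pow 2 (v T.p)).div_const 4)]
      simp; ring
    · simp only [if_neg hg]
      exact ⟨le_rfl, by rw [T.const_left 0 (A.const 0)]; simp⟩
  have := h.add f1 s s1 n fun g' => n1 g' _
  rw [add_comm] at this
  exact this

variable {n c : ℝ} {W : Wd n} {G : Type} [Fintype G]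

theorem Wd.Le.refl (W : Wd n) (st : W.St) : W.Le st st := fun _ _ _ _ => le_rfl

theorem Wd.Le.trans {a b c : W.St} (h : W.Le a b) (h' : W.Le b c) : W.Le a c :=
  fun x hx f hf => (h' x hx f hf).trans (h x hx f hf)

theorem Ms.bud {st : W.St} {M : G → W.Z → ℝ} {vs : List (W.Z → ℝ)} (h : Ms W c st M vs)
    (hc : 0 ≤ c) {x : W.Z} (hx : x ∈ W.L) : (W.pt st x).bud vs ≤ n * c :=
  W.trace st x vs c h.vs_sm hc (h.bd x hx)

theorem Ms.fi {st : W.St} {M : G → W.Z → ℝ} {vs : List (W.Z → ℝ)} (h : Ms W c st M vs)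
    (hc : 0 ≤ c) {x : W.Z} (hx : x ∈ W.L) : (W.pt st x).Fi M (n * c) :=
  (h.fis _).mono (h.bud hc hx)

theorem Ms.zero {st : W.St} {M : G → W.Z → ℝ} {vs : List (W.Z → ℝ)} (h : Ms W c st M vs) :
    Ms W c st (fun (_ : G) _ => 0) vs where
  sm _ := W.A.const 0
  nn _ _ := le_rfl
  vs_sm := h.vs_sm
  fis T := ⟨fun _ => 0, fun _ => ⟨le_rfl, by rw [T.const_left 0 (W.A.const 0)]; simp⟩,
    by simpa using T.bud_nonneg h.vs_sm⟩
  bd := h.bd

/-- a step without conformal factor -/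
theorem Ms.upd [DecidableEq G] {st st' : W.St} {M : G → W.Z → ℝ} {vs : List (W.Z → ℝ)}
    (h : Ms W c st M vs) (hc : 1 ≤ c) (g : G) {v : W.Z → ℝ} (hv : W.A.Sm v)
    (e : ∀ x ∈ W.L, ∀ f h, W.A.Sm f → W.A.Sm h → (W.pt st' x).Γ f h = 1 *
      ((W.pt st x).Γ f h - (W.pt st x).Γ v f * (W.pt st x).Γ v h / (1 + (W.pt st x).Γ v v))) :
    Ms W c st' (upd M g v) (v :: vs) where
  sm := sm_upd h.sm g hv
  nn g' x := (h.nn g' x).trans (le_upd M g v g' x)
  vs_sm u hu := by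
    rcases List.mem_cons.1 hu with rfl | hu
    · exact hv
    · exact h.vs_sm u hu
  fis T := by rw [T.bud_cons]; exact fi_upd (h.fis T) h.sm (fun g => h.nn g _) g hv
  bd x hx := by simpa using (h.bd x hx).step hc zero_le_one h.vs_sm hv (e x hx)

end Crest.Agent.N228.A

end
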