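import Crest.Agent.N228.A.Boost0
import Crest.Agent.N222.A.Iter

/-! # Row 228, part A*: `boost : StageStmt → BoostStmt` (helper98) -/

set_option autoImplicit false
set_option linter.dupNamespace false
open Set

noncomputable section

namespace Crest.Agent.N228.A

open Crest.Agent.N222.A hiding StageStmt

namespace Bo

theorem exists_small (a : ℕ → ℝ) (ha : ∀ i, 0 < a i) {b : ℝ} (hb : 0 < b) (J : ℕ) :
    ∃ τ, 0 < τ ∧ τ ≤ b ∧ ∀ i < J, τ ≤ a i := by
  induction J with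
  | zero => exact ⟨b, hb, le_rfl, by simp⟩
  | succ J ih =>
    obtain ⟨τ, h1, h2, h3⟩ := ih
    refine ⟨min τ (a J), lt_min h1 (ha J), (min_le_left _ _).trans h2, fun i hi => ?_⟩
    rcases Nat.lt_succ_iff_lt_or_eq.1 hi with h | rfl
    · exact (min_le_left _ _).trans (h3 i h)
    · exact min_le_right _ _

/-- the numerics of a main stage -/
theorem num {G : Type} [Fintype G] {θ M M' σ : G → ℝ} {nn y N F r : ℝ} (hnn : 0 < nn) (hy : 0 < y)
    (hy' : y ≤ 1 / 1000) (h0 : ∀ g, 0 ≤ θ g) (h1 : ∀ g, θ g ≤ 1) (hN : N = ∑ g, M g)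
    (hF : F = ∑ g, θ g * M g) (hr : r = (N + nn / 100)⁻¹)
    (hσ : ∀ g, 0 ≤ σ g ∧ σ g ≤ M g * r) (hnear : ∀ g, σ g = M g * r ∨ θ g = 1) (b2 : nn ≤ N)
    (b3 : F ≤ (1 / 20 - 16 * y) * N) (a2 : ∑ g, |M' g - M g - 4 * nn * σ g| ≤ 2 * y * (4 * nn)) :
    4 * nn ≤ ∑ g, M' g ∧ ∑ g, θ g * M' g ≤ (1 / 20 - 16 * (3 / 4 * y)) * ∑ g, M' g := by
  obtain ⟨c1, c2⟩ := It.sums h0 h1 a2
  have Np : 0 < N + nn / 100 := by linarith
  have r0 : 0 < r := hr ▸ inv_pos.2 Np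
  have N0 : 0 < N := hnn.trans_le b2
  obtain ⟨α, hα⟩ : ∃ α, α = ∑ g, θ g * (M g * r - σ g) := ⟨_, rfl⟩
  have α0 : 0 ≤ α := hα ▸ Finset.sum_nonneg fun g _ => mul_nonneg (h0 g) (sub_nonneg.2 (hσ g).2)
  have e1 : ∑ g, σ g = N * r - α := by
    rw [hN, hα, Finset.sum_mul, ← Finset.sum_sub_distrib]
    refine Finset.sum_congr rfl fun g _ => ?_
    rcases hnear g with e | e <;> rw [e] <;> ring
  have e2 : ∑ g, θ g * σ g = F * r - α := by
    rw [hα, hF, Finset.sum_mul, ← Finset.sum_sub_distrib]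
    exact Finset.sum_congr rfl fun g _ => by ring
  have e3 : 0 ≤ F * r - α := e2 ▸ Finset.sum_nonneg fun g _ => mul_nonneg (h0 g) (hσ g).1
  have e4 : 100 / 101 ≤ N * r := by
    rw [hr, ← div_eq_mul_inv, le_div_iff₀ Np]
    linarith
  have e5 : F * r ≤ (1 / 20 - 16 * y) * (N * r) := by
    rw [← mul_assoc]; exact mul_le_mul_of_nonneg_right b3 r0.le
  have e6 : 0 ≤ y * (N * r) := by positivity
  have e7 : 94 / 100 ≤ N * r - α := by linarith
  have e8 : F * r - α ≤ (1 / 20 - 16 * y) * (N * r - α) := by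
    have := mul_nonneg hy.le α0
    linarith
  rw [e1, ← hN] at c1
  rw [e2, ← hF] at c2
  have ynn : 0 < y * nn := by positivity
  have e9 : y * nn ≤ 1 / 1000 * nn := mul_le_mul_of_nonneg_right hy' hnn.le
  have f1 := mul_le_mul_of_nonneg_left e7 hnn.le
  have f2 : 4 * nn ≤ ∑ g, M' g := by linarith
  refine ⟨f2, ?_⟩
  have f3 := mul_le_mul_of_nonneg_left e8 hnn.le
  have f4 := mul_le_mul_of_nonneg_left c1 (show 0 ≤ 1 / 20 - 16 * y by linarith)
  have f5 := mul_le_mul_of_nonneg_left f2 hy.le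
  have f6 : 0 ≤ y * (y * nn) := by positivity
  linarith

section cutoff

variable {Z : Type} {A : Alg Z} (T : Pt A) {f : Z → ℝ}

theorem gam_cut (hf : A.Sm f) (b : ℝ) : T.Γ (fun z => cut (b - f z)) (fun z => cut (b - f z)) =
    deriv cut (b - f T.p) ^ 2 * T.Γ f f := by
  have h2 : HasDerivAt (fun t : ℝ => b - t) (-1) (f T.p) := by
    simpa using (hasDerivAt_id (f T.p)).const_sub b
  rw [T.chain_self (φ := fun t => cut (b - t)) hf (Alg.cut (Alg.const_sub b hf))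
    (HasDerivAt.comp (h₂ := cut) (h := fun t : ℝ => b - t) _ (hasDerivAt_cut _) h2)]
  ring

theorem gam_cut_le (hf : A.Sm f) (b : ℝ) {τ : ℝ} (h : T.Γ f f ≤ τ) :
    T.Γ (fun z => cut (b - f z)) (fun z => cut (b - f z)) ≤ cc ^ 2 * τ := by
  rw [gam_cut T hf]
  exact mul_le_mul (deriv_cut_sq_le _) h (T.nonneg hf) (sq_nonneg _)

end cutoff

/-- the invariant of the main stages -/
def Inv {n : ℝ} (W : Wd n) {G : Type} [Fintype G] (d : G → W.Z → ℝ) (s n' nn y Φ : ℝ) (st : W.St)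
    (M : G → W.Z → ℝ) : Prop :=
  ∀ x ∈ W.L, s / 2 + 2 * etaS (3 * n') nn y ≤ W.E st x ∧ (W.om x ≤ -2 →
    Φ + 2 * etaS (3 * n') nn y ≤ W.E st x ∨
      (nn ≤ tot M x ∧ ∑ g, cut (d g x - 1) * M g x ≤ (1 / 20 - 16 * y) * tot M x))

theorem iter (h : StageStmt) {n k : ℝ} {W : Wd n} {G : Type} [Fintype G] [DecidableEq G]
    {st0 st : W.St} {χ d M : G → W.Z → ℝ} {δ : G → G → ℝ} {vs : List (W.Z → ℝ)}
    {K s nn y Φ τ : ℝ} (hn : 1 ≤ n) (hk : 1 ≤ k) (hs : 0 < s) (hnn : 0 < nn) (hy : 0 < y)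
    (hy' : y ≤ 1 / 1000) (hΦ : 0 ≤ Φ) (hτ : 0 < τ)
    (ini : Ini W G (W.L ∩ {x | W.om x ≤ 0}) st0 χ d δ K)
    (hom : ∀ x ∈ W.L, (W.pt st0 x).Γ W.om W.om ≤ τ)
    (t1 : cw * τ ≤ etaS (3 * (n * k)) nn y / (2 * (100 * C1 * (3 * (n * k)) / nn) * (4 * nn)))
    (t2 : 8 * (cc ^ 2 * τ) ≤ 100 * C1 * (n * k) / nn)
    (le : W.Le st0 st) (hM : Ms W k st M vs) (inv : Inv W d s (n * k) nn y Φ st M) :
    ∃ st' M' vs', W.R st st' ∧ W.Le st st' ∧ Ms W k st' M' vs' ∧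
      Inv W d s (n * k) (4 * nn) (3 / 4 * y) Φ st' M' := by
  have cc1 := one_le_cc
  have C0 := C1_pos
  have C8 : 1 ≤ C1 := by unfold C1; nlinarith [sq_nonneg cc]
  have hn' : 1 ≤ n * k := one_le_mul_of_one_le_of_one_le hn hk
  have c0 : 0 < nn / 100 := by positivity
  set ι : ℝ := 100 * C1 * (3 * (n * k)) / nn with hι
  have ι0 : 0 < ι := by positivity
  have η0 : 0 < etaS (3 * (n * k)) nn y := by unfold etaS eta; positivity
  have hη : etaS (3 * (n * k)) (4 * nn) (3 / 4 * y) = 4 / 9 * etaS (3 * (n * k)) nn y := by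
    rw [etaS_eq _ _ hnn, etaS_eq _ _ (by positivity)]
    field_simp
    ring
  obtain ⟨σ, S1, S2⟩ := src' ini hM (by linarith) hn' le c0
  have N0 : ∀ z, 0 ≤ tot M z := fun z => Finset.sum_nonneg fun g _ => hM.nn g z
  have sS : ∀ z, ∑ g, σ g z ≤ 1 := fun z => by
    refine (Finset.sum_le_sum fun g _ => ((S1 g).2 z).2).trans ?_
    rw [← Finset.sum_mul, ← div_eq_mul_inv, div_le_one (by linarith [N0 z])]
    exact le_add_of_nonneg_right c0.le
  set ζ : W.Z → ℝ := fun z => cut (-1 - W.om z) with hζ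
  have sζ : W.A.Sm ζ := Alg.cut (Alg.const_sub _ W.om_sm)
  have ζ1 : ∀ z, ζ z ^ 2 ≤ 1 := fun z => pow_le_one₀ (cut_nonneg _) (cut_le_one _)
  have hom' : ∀ x ∈ W.L, (W.pt st x).Γ W.om W.om ≤ τ := fun x hx =>
    (le x hx _ W.om_sm).trans (hom x hx)
  have hF : ∀ x ∈ W.L, (W.pt st x).Fi (fun g z => ζ z ^ 2 * σ g z) ι := by
    intro x hx
    rcases le_total (W.om x) 0 with h0 | h0
    · have f1 := ((S2 x ⟨hx, h0⟩).1.mul_sq (fun g => (S1 g).1) (fun g => ((S1 g).2 _).1)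
        (w := fun _ => ζ) (fun _ => sζ) zero_le_one (fun _ => ζ1 _) (B := cc ^ 2 * τ)
        (by positivity) fun _ _ => gam_cut_le _ W.om_sm _ (hom' x hx))
      refine f1.mono ?_
      have a1 : C1 * (n * k) / (tot M x + nn / 100) ≤ C1 * (n * k) / (nn / 100) :=
        div_le_div_of_nonneg_left (by positivity) c0 (by linarith [N0 x])
      have a2 : C1 * (n * k) / (nn / 100) = 100 * C1 * (n * k) / nn := by field_simp
      have a3 : ι = 3 * (100 * C1 * (n * k) / nn) := by rw [hι]; ring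
      have a4 := mul_le_mul_of_nonneg_left (sS (W.pt st x).p) (show 0 ≤ 8 * (cc ^ 2 * τ) by positivity)
      linarith
    · refine ⟨fun _ => 0, fun g => ⟨le_rfl, ?_⟩, by simpa using ι0.le⟩
      have z0 : ζ (W.pt st x).p = 0 := by rw [W.pt_p]; exact cut_zero (by linarith)
      have h1 := (W.pt st x).mul_self_le (Alg.pow sζ 2) (S1 g).1
      have h2 := (W.pt st x).chain_self (φ := fun t => t ^ 2) sζ (Alg.pow sζ 2)
        (by simpa using hasDerivAt_pow 2 (ζ (W.pt st x).p))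
      rw [h2, z0] at h1
      simpa using h1
  obtain ⟨j, hj⟩ : ∃ j : W.Z → G → ℝ, ∀ x ∈ W.L, ∑ g, j x g ≤ ι ∧ ∀ g, 0 ≤ j x g ∧
      (W.pt st x).Γ (fun z => ζ z ^ 2 * σ g z) (fun z => ζ z ^ 2 * σ g z) ≤
        j x g * (ζ x ^ 2 * σ g x) := by
    have : ∀ x, ∃ j : G → ℝ, x ∈ W.L → ∑ g, j g ≤ ι ∧ ∀ g, 0 ≤ j g ∧
        (W.pt st x).Γ (fun z => ζ z ^ 2 * σ g z) (fun z => ζ z ^ 2 * σ g z) ≤
          j g * (ζ x ^ 2 * σ g x) := fun x => by
      by_cases hx : x ∈ W.L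
      · obtain ⟨j, h1, h2⟩ := hF x hx
        rw [W.pt_p] at h1
        exact ⟨j, fun _ => ⟨h2, h1⟩⟩
      · exact ⟨0, fun h => (hx h).elim⟩
    choose j hj using this
    exact ⟨j, hj⟩
  obtain ⟨st', M', vs', r, le', hM', H⟩ := h n k W G st M vs ι (4 * nn) y
    (Φ + 4 * etaS (3 * (n * k)) nn y) (etaS (3 * (n * k)) nn y / 9) (fun g z => ζ z ^ 2 * σ g z) j
    hn hk hM ι0 (by positivity) hy (by linarith) (by
      have e : ι * (4 * nn) = 1200 * (C1 * (n * k)) := by rw [hι]; field_simp; ring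
      have a1 : 1 * (n * k) ≤ C1 * (n * k) := mul_le_mul_of_nonneg_right C8 (by linarith)
      rw [e]; linarith)
    (by change etaS (3 * (n * k)) nn y ≤ _; linarith) (by positivity)
    (fun x hx => (mul_le_mul_of_nonneg_left (hom' x hx) (by unfold cw; positivity)).trans t1)
    (fun g => ⟨W.A.mul (Alg.pow sζ 2) (S1 g).1, fun z => ⟨mul_nonneg (sq_nonneg _) ((S1 g).2 z).1,
      mul_le_one₀ (ζ1 z) ((S1 g).2 z).1 ((Finset.single_le_sum (fun g _ => ((S1 g).2 z).1)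
        (Finset.mem_univ g)).trans (sS z)), fun h1 => by
          rw [show ζ z = 0 from cut_zero (by linarith)]; simp⟩⟩)
    (fun x hx => ⟨by
      rw [← Finset.mul_sum]
      exact mul_le_one₀ (ζ1 x) (Finset.sum_nonneg fun g _ => ((S1 g).2 x).1) (sS x), hj x hx⟩)
  refine ⟨st', M', vs', r, le', hM', fun x hx => ?_⟩
  have h1 := H x hx
  change W.E st x - etaS (3 * (n * k)) nn y - _ ≤ _ ∧
    (_ ∨ W.E st x + _ - 2 * etaS (3 * (n * k)) nn y - _ ≤ _) at h1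
  obtain ⟨a1, a2⟩ := h1
  obtain ⟨b1, b2⟩ := inv x hx
  rw [hη]
  refine ⟨by linarith, fun h2 => ?_⟩
  rcases b2 h2 with b2 | ⟨b2, b3⟩
  · exact Or.inl (by linarith)
  rcases a2 with a2 | a2
  swap
  · exact Or.inl (by linarith)
  right
  have z1 : ζ x = 1 := cut_one (by linarith)
  simp only [z1, one_pow, one_mul] at a2
  have yN := mul_nonneg hy.le (N0 x)
  have hnear := (S2 x ⟨hx, show W.om x ≤ 0 by linarith⟩).2 (by linarith [N0 x])
  exact num (θ := fun g => cut (d g x - 1)) hnn hy hy' (fun _ => cut_nonneg _)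
    (fun _ => cut_le_one _) rfl rfl rfl (fun g => (S1 g).2 x)
    (fun g => (lt_or_ge (d g x) (1 + 1)).imp (hnear g) fun e => cut_one (by linarith)) b2 b3 a2

/-- the initial masses -/
theorem start {n k T dl : ℝ} {W : Wd n} {G : Type} [Fintype G] {st : W.St} {X : G → W.Z → ℝ}
    (hT : 0 < T) (hdl : 0 < dl) (hdl1 : dl ≤ 1)
    (hX : ∀ g, W.A.Sm (X g) ∧ ∀ x, 0 ≤ X g x ∧ X g x ≤ 1)
    (hF : ∀ x ∈ W.L, (W.pt st x).Fi X (k / T)) : ∃ M vs, Ms W k st M vs ∧
      ∀ g x, T * X g x - dl * (T + 2) ≤ M g x ∧ (X g x = 0 → M g x = 0) := by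
  have p0 : ∀ g z, 0 < T * X g z + dl ^ 2 := fun g z => by
    have := ((hX g).2 z).1
    positivity
  have s0 : ∀ g, W.A.Sm fun z => T * X g z + dl ^ 2 := fun g =>
    Alg.add_const (Alg.smul T (hX g).1) _
  set f : G → W.Z → ℝ := fun g z => 2 * (√(T * X g z + dl ^ 2) - dl) with hf
  have sf : ∀ g, W.A.Sm (f g) := fun g => Alg.smul 2 (Alg.sub_const (Alg.sqrt (s0 g) (p0 g)) dl)
  have sum_l : ∀ F : (W.Z → ℝ) → ℝ, ((Finset.univ.toList.map f).map F).sum = ∑ g, F (f g) :=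
    fun F => by rw [List.map_map, Finset.sum_map_toList]; rfl
  refine ⟨fun g z => f g z ^ 2 / 4, Finset.univ.toList.map f,
    ⟨fun g => Alg.div_const (Alg.pow (sf g) 2) 4, fun g x => by positivity, fun v hv => ?_,
      fun Q => ⟨fun g => Q.Γ (f g) (f g), fun g => ⟨Q.nonneg (sf g), le_of_eq ?_⟩,
        (sum_l fun v => Q.Γ v v).ge⟩, fun x hx u hu => ?_⟩, fun g x => ⟨?_, fun h => ?_⟩⟩
  · obtain ⟨g, -, rfl⟩ := List.mem_map.1 hv
    exact sf g
  · rw [Q.chain_self (φ := fun t => t ^ 2 / 4) (sf g) (Alg.div_const (Alg.pow (sf g) 2) 4)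
      ((hasDerivAt_pow 2 (f g Q.p)).div_const 4)]
    simp; ring
  · obtain ⟨j, hj, hs⟩ := hF x hx
    have u0 := (W.pt st x).nonneg hu
    rw [sum_l fun v => (W.pt st x).Γ v u ^ 2]
    have h1 : ∀ g, (W.pt st x).Γ (f g) (f g) ≤ T * j g := fun g => by
      have q0 := p0 g (W.pt st x).p
      have hd : HasDerivAt (fun t : ℝ => 2 * (√(T * t + dl ^ 2) - dl))
          (2 * (T * 1 / (2 * √(T * X g (W.pt st x).p + dl ^ 2)))) (X g (W.pt st x).p) :=
        ((((((hasDerivAt_id _).const_mul T).add_const (dl ^ 2)).sqrt q0.ne').sub_const dl).const_mul 2)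
      rw [(W.pt st x).chain_self (φ := fun t => 2 * (√(T * t + dl ^ 2) - dl)) (hX g).1 (sf g) hd]
      have e : (2 * (T * 1 / (2 * √(T * X g (W.pt st x).p + dl ^ 2)))) ^ 2 =
          T ^ 2 / (T * X g (W.pt st x).p + dl ^ 2) := by
        have := Real.sqrt_pos.2 q0
        rw [← Real.sq_sqrt q0.le, Real.sqrt_sq this.le]
        field_simp
      rw [e, div_mul_eq_mul_div, div_le_iff₀ q0]
      nlinarith [mul_le_mul_of_nonneg_left (hj g).2 (sq_nonneg T),
        mul_nonneg (mul_nonneg hT.le (hj g).1) (sq_nonneg dl)]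
    calc ∑ g, (W.pt st x).Γ (f g) u ^ 2 ≤ ∑ g, T * j g * (W.pt st x).Γ u u :=
          Finset.sum_le_sum fun g _ =>
            ((W.pt st x).cs (sf g) hu).trans (mul_le_mul_of_nonneg_right (h1 g) u0)
      _ = T * (∑ g, j g) * (W.pt st x).Γ u u := by rw [← Finset.sum_mul, ← Finset.mul_sum]
      _ ≤ T * (k / T) * (W.pt st x).Γ u u := by gcongr
      _ = _ := by field_simp
  · have h1 := Real.sq_sqrt (p0 g x).le
    have h2 := mul_le_mul_of_nonneg_left ((hX g).2 x).2 hT.le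
    have h3 : 2 * √(T * X g x + dl ^ 2) ≤ T + 2 := by
      nlinarith [sq_nonneg (√(T * X g x + dl ^ 2) - 1)]
    simp only [hf]
    nlinarith [mul_le_mul_of_nonneg_left h3 hdl.le]
  · simp [hf, h, Real.sqrt_sq hdl.le]

end Bo

open Bo

theorem boost (hS : StageStmt) : BoostStmt := by
  intro n k s hn hk hs
  have hn' : 1 ≤ n * k := one_le_mul_of_one_le_of_one_le hn hk
  have cc0 : 0 < cc := zero_lt_one.trans_le one_le_cc
  have C0 := C1_pos
  set B : ℝ := 4 * (51 * cc * (100 * C1 * (3 * (n * k))) / (1 / 1000)) ^ 2 with hB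
  have B0 : 0 ≤ B := by positivity
  set N0 : ℝ := 16 * B / s + 1 with hN0
  have N0p : 0 < N0 := by positivity
  have hη : 16 * etaS (3 * (n * k)) N0 (1 / 1000) ≤ s := by
    rw [etaS_eq _ _ N0p, ← hB, ← mul_div_assoc, div_le_iff₀ N0p, hN0, mul_add,
      mul_div_cancel₀ _ hs.ne']
    linarith
  refine ⟨2 * N0, by positivity, fun c1 ρ hc1 hρ => ?_⟩
  have ρ0 : 0 < ρ := by linarith
  have kT : 0 ≤ k / (2 * N0) := by positivity
  obtain ⟨I1, C3, I0, C30, HO⟩ := out' (n * k) (1 + k / (2 * N0) + c1) N0 hn' (by linarith) N0p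
  refine ⟨2 * I1 + 1, fun K0 Λ D hK hΛ => ?_⟩
  set Φ : ℝ := 2 * Λ * I1 + s with hΦ
  have Φ0 : 0 ≤ Φ := by positivity
  obtain ⟨J, hJ⟩ := pow_unbounded_of_one_lt (16 * Λ * C3 / (s * N0)) (by norm_num : (1 : ℝ) < 4)
  have cw0 : 0 < cw := by unfold cw; positivity
  obtain ⟨τ, τ0, τ1, τ2⟩ := exists_small (fun i => min
    (etaS (3 * (n * k)) (4 ^ i * N0) ((3 / 4) ^ i * (1 / 1000)) /
      (2 * (100 * C1 * (3 * (n * k)) / (4 ^ i * N0)) * (4 * (4 ^ i * N0))) / cw)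
    (100 * C1 * (n * k) / (4 ^ i * N0) / (8 * cc ^ 2)))
    (fun i => lt_min (by unfold etaS eta; positivity) (by positivity))
    (b := min (s / (16 * (Λ + 1) * cc ^ 2)) (1 / (2 * cc ^ 2))) (by positivity) J
  have τ3 : 2 * Λ * (cc ^ 2 * τ) ≤ s / 8 := by
    have := (le_div_iff₀ (by positivity)).1 (τ1.trans (min_le_left _ _))
    nlinarith [mul_pos τ0 (pow_pos cc0 2)]
  have τ4 : 2 * (cc ^ 2 * τ) ≤ 1 := by
    have := (le_div_iff₀ (by positivity)).1 (τ1.trans (min_le_right _ _))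
    linarith
  refine ⟨τ, τ0, fun W G _ _ st χ d X δ hD h hX hX' => ?_⟩
  have sd : ∀ g, W.A.Sm fun z => ρ⁻¹ * d g z := fun g => Alg.smul _ (h.sm g).2.1
  have gd : ∀ x ∈ W.L, ∀ g, (W.pt st x).Γ (fun z => ρ⁻¹ * d g z) (fun z => ρ⁻¹ * d g z) ≤ c1 :=
    fun x hx g => by
      rw [Pt.smul_left _ _ (h.sm g).2.1 (sd g), Pt.smul_right _ _ (h.sm g).2.1 (h.sm g).2.1]
      have a0 := (W.pt st x).nonneg (h.sm g).2.1
      have a1 : ρ⁻¹ ≤ 1 := inv_le_one_of_one_le₀ hρ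
      have a2 : 0 ≤ ρ⁻¹ := by positivity
      exact (mul_le_of_le_one_left (mul_nonneg a2 a0) a1).trans
        ((mul_le_of_le_one_left a0 a1).trans (h.lip x hx g))
  have tri : ∀ x ∈ W.L, ∀ g g', ρ⁻¹ * d g x - ρ⁻¹ * d g' x ≤ ρ⁻¹ * δ g g' ∧
      ρ⁻¹ * δ g g' ≤ ρ⁻¹ * d g x + ρ⁻¹ * d g' x := fun x hx g g' => by
    rw [← mul_sub, ← mul_add]
    exact ⟨mul_le_mul_of_nonneg_left (h.tri x hx g g').1 (by positivity),
      mul_le_mul_of_nonneg_left (h.tri x hx g g').2 (by positivity)⟩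
  have d1 : ∀ t : ℝ, t ≤ ρ → ρ⁻¹ * t ≤ 1 := fun t ht => by rwa [inv_mul_le_iff₀ ρ0, mul_one]
  have i1 : Ini W G (W.L ∩ {x | W.om x ≤ 0}) st χ (fun g z => ρ⁻¹ * d g z)
      (fun g g' => ρ⁻¹ * δ g g') (K0 + c1) :=
    ⟨inter_subset_left, fun g => ⟨(h.sm g).1, sd g, (h.sm g).2.2⟩, fun x hx => by
      obtain ⟨a1, a2, a3⟩ := h.par x hx.1 hx.2
      exact ⟨a1, a2.mono (by linarith), fun g => ⟨by linarith [gd x hx.1 g],
        fun e => d1 _ ((a3 g e).trans hρ)⟩, tri x hx.1⟩⟩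
  have X1 : ∀ x ∈ W.L, W.om x ≤ -2 → ∑ g, X g x = 1 := fun x hx h2 => by
    rw [(hX' x hx).1, cut_one (by linarith), one_pow]
  have i2 : Ini W G (W.L ∩ {x | W.om x ≤ -2}) st X (fun g z => ρ⁻¹ * d g z)
      (fun g g' => ρ⁻¹ * δ g g') (1 + k / (2 * N0) + c1) :=
    ⟨inter_subset_left, fun g => ⟨(hX g).1, sd g, fun x => ⟨((hX g).2 x).1, ((hX g).2 x).2.1⟩⟩,
      fun x hx => ⟨X1 x hx.1 hx.2, (hX' x hx.1).2.1.mono (by linarith),
        fun g => ⟨by linarith [gd x hx.1 g], fun e => d1 _ ((hX' x hx.1).2.2 g e)⟩, tri x hx.1⟩⟩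
  have key : ∀ i ≤ J, ∃ st' M vs, W.R st st' ∧ W.Le st st' ∧ Ms W k st' M vs ∧
      Inv W (fun g z => ρ⁻¹ * d g z) s (n * k) (4 ^ i * N0) ((3 / 4) ^ i * (1 / 1000)) Φ st' M := by
    intro i
    induction i with
    | zero =>
      intro _
      have q0 : (0 : ℝ) < (D + 1) * (2 * N0 + 2) := by positivity
      obtain ⟨M, vs, hM, hM'⟩ := start (k := k) (T := 2 * N0) (dl := N0 / ((D + 1) * (2 * N0 + 2)))
        (st := st) (X := X) (by positivity) (by positivity)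
        (by rw [div_le_one q0]; nlinarith [Nat.cast_nonneg (α := ℝ) D])
        (fun g => ⟨(hX g).1, fun x => ⟨((hX g).2 x).1, ((hX g).2 x).2.1⟩⟩)
        fun x hx => (hX' x hx).2.1
      refine ⟨st, M, vs, W.R_refl st, Wd.Le.refl W st, hM, fun x hx => ?_⟩
      simp only [pow_zero, one_mul]
      have η0 := etaS_nonneg (n' := 3 * (n * k)) (1 / 1000) N0p
      refine ⟨by linarith [h.E x hx], fun h2 => Or.inr ?_⟩
      have a1 : N0 ≤ tot M x := by
        have b1 := Finset.sum_le_sum fun g (_ : g ∈ Finset.univ) => (hM' g x).1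
        rw [Finset.sum_sub_distrib, ← Finset.mul_sum, X1 x hx h2, Finset.sum_const,
          Finset.card_univ, nsmul_eq_mul] at b1
        have b2 : (Fintype.card G : ℝ) ≤ D + 1 := by exact_mod_cast hD.trans (Nat.le_succ D)
        have b3 : (D + 1) * (N0 / ((D + 1) * (2 * N0 + 2)) * (2 * N0 + 2)) = N0 := by field_simp
        have b4 := mul_le_mul_of_nonneg_right b2
          (show 0 ≤ N0 / ((D + 1) * (2 * N0 + 2)) * (2 * N0 + 2) by positivity)
        unfold tot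
        linarith
      refine ⟨a1, (Finset.sum_eq_zero fun g _ => ?_).trans_le (by nlinarith)⟩
      rcases ((hX g).2 x).1.eq_or_lt with e | e
      · rw [(hM' g x).2 e.symm, mul_zero]
      · rw [cut_zero (by linarith [d1 _ ((hX' x hx).2.2 g e)]), zero_mul]
    | succ i ih =>
      intro hi
      obtain ⟨st1, M, vs, r1, le1, hM, inv⟩ := ih (by omega)
      have h1 : (3 / 4 : ℝ) ^ i ≤ 1 := pow_le_one₀ (by norm_num) (by norm_num)
      have t := τ2 i (by omega)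
      obtain ⟨st2, M', vs', r2, le2, hM', inv'⟩ := Bo.iter hS hn hk hs (by positivity)
        (by positivity) (by linarith) Φ0 τ0 i1 h.om
        (by rw [mul_comm]; exact (le_div_iff₀ cw0).1 (t.trans (min_le_left _ _)))
        (by linarith [(le_div_iff₀ (by positivity)).1 (t.trans (min_le_right _ _))]) le1 hM inv
      refine ⟨st2, M', vs', W.R_trans r1 r2, le1.trans le2, hM', ?_⟩
      rw [pow_succ', pow_succ', mul_assoc, mul_assoc]
      exact inv'
  obtain ⟨st', M, vs, r, le, hM, inv⟩ := key J le_rfl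
  have h4 : (1 : ℝ) ≤ 4 ^ J := one_le_pow₀ (by norm_num)
  have nnp : 0 < 4 ^ J * N0 := by positivity
  obtain ⟨P, hP, HP⟩ := HO n k W G _ st st' X _ M _ vs (4 ^ J * N0) rfl (by linarith) i2 hM le
    (by nlinarith)
  set ξ : W.Z → ℝ := fun z => cut (-2 - W.om z) with hξ
  have sξ : W.A.Sm ξ := Alg.cut (Alg.const_sub _ W.om_sm)
  refine ⟨st', fun g z => ξ z * P g z, r, le, fun g => ⟨W.A.mul sξ (hP g).1, fun x =>
    ⟨mul_nonneg (cut_nonneg _) ((hP g).2 x), fun e => ?_⟩⟩, fun x hx => ?_⟩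
  · by_contra hc
    exact e (mul_eq_zero_of_left (cut_zero (by linarith [not_le.1 hc])) _)
  have η0 := etaS_nonneg (n' := 3 * (n * k)) ((3 / 4) ^ J * (1 / 1000)) nnp
  obtain ⟨b1, b2⟩ := inv x hx
  have hm := fun g => (W.pt st' x).mul_self_le sξ (hP g).1
  simp only [W.pt_p] at hm
  rcases le_total (W.om x) (-2) with h2 | h2
  · obtain ⟨e1, e2, I, ⟨j, hj, hj'⟩, f2, f3⟩ := HP x ⟨hx, h2⟩
    rw [W.pt_p] at hj
    have P1 : ∀ g, P g x ≤ 1 := fun g =>
      (Finset.single_le_sum (fun g _ => (hP g).2 x) (Finset.mem_univ g)).trans_eq e1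
    have g1 := gam_cut_le (W.pt st' x) W.om_sm (-2) ((le x hx _ W.om_sm).trans (h.om x hx))
    have g2 : ∑ g, (W.pt st' x).Γ (fun z => ξ z * P g z) (fun z => ξ z * P g z) ≤
        2 * I + 2 * (cc ^ 2 * τ) := by
      have : ∀ g, (W.pt st' x).Γ (fun z => ξ z * P g z) (fun z => ξ z * P g z) ≤
          2 * j g + 2 * (cc ^ 2 * τ) * P g x := fun g => by
        have a1 : ξ x ^ 2 ≤ 1 := pow_le_one₀ (cut_nonneg _) (cut_le_one _)
        have a2 := mul_le_of_le_one_left ((W.pt st' x).nonneg (hP g).1) a1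
        have a3 := mul_le_of_le_one_right (hj g).1 (P1 g)
        have a4 : P g x ^ 2 ≤ P g x := by nlinarith [(hP g).2 x, P1 g]
        have a5 := mul_le_mul a4 g1 ((W.pt st' x).nonneg sξ) ((hP g).2 x)
        linarith [hm g, (hj g).2]
      refine (Finset.sum_le_sum fun g _ => this g).trans ?_
      rw [Finset.sum_add_distrib, ← Finset.mul_sum, ← Finset.mul_sum, e1]
      linarith
    have g3 := mul_le_mul_of_nonneg_left g2 hΛ
    refine ⟨by rw [← Finset.mul_sum, e1, mul_one]; exact cut_le_one _, fun h3 => by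
      rw [← Finset.mul_sum, e1, mul_one]; exact cut_one (by linarith), fun g e => ?_,
      by linarith, ?_⟩
    · have := e2 g (pos_of_mul_pos_right e (cut_nonneg _))
      rw [inv_mul_le_iff₀ ρ0] at this
      linarith
    · rcases b2 h2 with b | b
      · have := mul_le_mul_of_nonneg_left f2 hΛ
        linarith
      · have y0 : 0 ≤ 16 * ((3 / 4 : ℝ) ^ J * (1 / 1000)) * tot M x :=
          mul_nonneg (by positivity) (nnp.le.trans b.1)
        have h3 := mul_le_mul_of_nonneg_left (f3 b.1 (by linarith [b.2])) hΛ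
        have h5 : Λ * (C3 / (4 ^ J * N0)) ≤ s / 16 := by
          rw [div_lt_iff₀ (by positivity)] at hJ
          rw [← mul_div_assoc, div_le_iff₀ nnp]
          linarith
        linarith
  · have z0 : ξ x = 0 := cut_zero (by linarith)
    have g1 : (W.pt st' x).Γ ξ ξ = 0 := by
      rw [gam_cut _ W.om_sm, W.pt_p, cut_deriv_zero (Or.inl (by linarith))]; simp
    have g2 : ∑ g, (W.pt st' x).Γ (fun z => ξ z * P g z) (fun z => ξ z * P g z) ≤ 0 :=
      Finset.sum_nonpos fun g _ => by simpa [z0, g1] using hm g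
    have g3 := mul_le_mul_of_nonneg_left g2 hΛ
    exact ⟨by simp [z0], fun h3 => by linarith, fun g e => by simp [z0] at e, by linarith,
      by linarith⟩

end Crest.Agent.N228.A

end
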