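import Crest.Agent.N228.A.Basic
import Crest.Agent.N222.A.Src
import Crest.Agent.N222.A.Out

/-! # Row 228, part A*: the sources and the output of row 222 through a formal world (helper98) -/

set_option autoImplicit false
set_option linter.dupNamespace false
open Set Filter

noncomputable section

namespace Crest.Agent.N228.A.Bo

open Crest.Agent.N222.A

/-- formal states -/
structure FSt {Z : Type} (A : Alg Z) (S : Set Z) (n' : ℝ) : Type 1 where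
  pt : S → Pt A
  pt_p : ∀ π, (pt π).p = π
  E : S → ℝ
  vs : List (Z → ℝ)
  vs_sm : ∀ v ∈ vs, A.Sm v
  budget : ∀ π, (pt π).bud vs ≤ n'

/-- the initial data of a formal world -/
structure Ini {n : ℝ} (W : Wd n) (G : Type) [Fintype G] (S : Set W.Z) (st0 : W.St)
    (χ d : G → W.Z → ℝ) (δ : G → G → ℝ) (K : ℝ) : Prop where
  sub : S ⊆ W.L
  sm : ∀ g, W.A.Sm (χ g) ∧ W.A.Sm (d g) ∧ ∀ x, 0 ≤ χ g x ∧ χ g x ≤ 1
  init : ∀ x ∈ S, ∑ g, χ g x = 1 ∧ (W.pt st0 x).Fi χ K ∧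
    (∀ g, (W.pt st0 x).Γ (d g) (d g) ≤ K ∧ (0 < χ g x → d g x ≤ 1)) ∧
    ∀ g g', d g x - d g' x ≤ δ g g' ∧ δ g g' ≤ d g x + d g' x

variable {n : ℝ} {W : Wd n} {G : Type} [Fintype G] [DecidableEq G] {S : Set W.Z} {st0 : W.St}
  {χ d : G → W.Z → ℝ} {δ : G → G → ℝ} {K : ℝ}

/-- the formal world -/
def toW (h : Ini W G S st0 χ d δ K) {n' : ℝ} (hn : 0 ≤ n') : World n' 0 K where
  Z := W.Z
  A := W.A
  G := G
  Pi := S
  L := ⊤
  ev := Subtype.val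
  O _ := univ
  Su _ _ := True
  St := FSt W.A S n'
  pt := FSt.pt
  pt_p := FSt.pt_p
  E := FSt.E
  vs := FSt.vs
  vs_sm := FSt.vs_sm
  su_of _ _ _ := trivial
  su_out _ _ _ _ h := (h (mem_univ _)).elim
  budget st := Eventually.of_forall st.budget
  χ := χ
  d := d
  δ g g' _ := δ g g'
  χ_sm g := (h.sm g).1
  d_sm g := (h.sm g).2.1
  δ_sm _ _ := W.A.const _
  χ_su _ := trivial
  χ_mem g := (h.sm g).2.2
  st0 := ⟨fun π => W.pt st0 π, fun π => W.pt_p st0 π, fun _ => 0, [], by simp,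
    fun _ => by simpa [Pt.bud] using hn⟩
  init := Eventually.of_forall fun π => by
    obtain ⟨h1, h2, h3, h4⟩ := h.init π π.2
    exact ⟨le_rfl, h1, h2, fun g _ => h3 g, fun g g' _ _ =>
      ⟨Pt.const_left _ _ (W.A.const _), h4 g g'⟩⟩
  oracle st g Q σ a abar u0 ε _ _ _ _ hσ _ _ hε := by
    refine ⟨fun _ => 0, ⟨st.pt, st.pt_p, fun π => st.E π + gen (u0 + 0)
      (√(1 + (st.pt π).Γ (fun _ => 0) fun _ => 0)) (beta Q σ (fun _ => 0) u0 π)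
      ((st.pt π).Γ (fun _ => 0) (beta Q σ (fun _ => 0) u0) /
        √(1 + (st.pt π).Γ (fun _ => 0) fun _ => 0)) (a π)
      ((st.pt π).Γ (fun _ => 0) a / √(1 + (st.pt π).Γ (fun _ => 0) fun _ => 0)),
      (fun _ => 0) :: st.vs, fun v hv => ?_, fun π => ?_⟩, W.A.const 0, trivial,
      fun z => ⟨le_rfl, by nlinarith [(hσ z).1, (hσ z).2]⟩, rfl, fun π f k hf _ => ?_,
      Eventually.of_forall fun π => ⟨fun h => (h (mem_univ _)).elim, fun _ => sub_le_self _ hε.le⟩⟩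
    · rcases List.mem_cons.1 hv with rfl | hv
      · exact W.A.const 0
      · exact st.vs_sm v hv
    · rw [Pt.bud_cons, Pt.const_left _ _ (W.A.const 0), zero_add]
      exact st.budget π
    · rw [Pt.const_left _ _ hf]
      simp

variable {c : ℝ} {st : W.St} {M : G → W.Z → ℝ} {vs : List (W.Z → ℝ)}

/-- a state of the formal world -/
def toSt (h : Ini W G S st0 χ d δ K) (hM : Ms W c st M vs) (hc : 0 ≤ c) (hn : 0 ≤ n * c) :
    (toW h hn).St :=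
  ⟨fun π => W.pt st π, fun π => W.pt_p st π, fun _ => 0, vs, hM.vs_sm,
    fun π => hM.bud hc (h.sub π.2)⟩

theorem ok (h : Ini W G S st0 χ d δ K) (hM : Ms W c st M vs) (hc : 0 ≤ c) (hn : 0 ≤ n * c)
    (le : W.Le st0 st) : (toW h hn).Ok (toSt h hM hc hn) M :=
  ⟨⟨hM.sm, fun _ => trivial, hM.nn, hM.fis⟩, fun (π : S) f hf => le π.1 (h.sub π.2) f hf⟩

/-- the pruned sources -/
theorem src' (h : Ini W G S st0 χ d δ K) (hM : Ms W c st M vs) (hc : 0 ≤ c) (hn : 1 ≤ n * c)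
    (le : W.Le st0 st) {e : ℝ} (he : 0 < e) : ∃ σ : G → W.Z → ℝ,
    (∀ g, W.A.Sm (σ g) ∧ ∀ z, 0 ≤ σ g z ∧ σ g z ≤ M g z * (tot M z + e)⁻¹) ∧
    ∀ x ∈ S, (W.pt st x).Fi σ (C1 * (n * c) / (tot M x + e)) ∧
      (∑ g, cut (d g x - 1) * M g x ≤ (tot M x + e) / 10 →
        ∀ g, d g x < 1 + 1 → σ g x = M g x * (tot M x + e)⁻¹) := by
  have h0 : 0 ≤ n * c := zero_le_one.trans hn
  obtain ⟨h1, h2⟩ := src _ _ _ (toW h h0) (toSt h hM hc h0) M 1 e hn he (ok h hM hc h0 le)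
  refine ⟨(toW h h0).src 1 e M, fun g => ⟨(h1 g).1, (h1 g).2.2⟩, fun x hx => ?_⟩
  have h3 := eventually_top.1 h2 ⟨x, hx⟩
  exact ⟨h3.1, fun h4 => (h3.2.2.2 h4).1⟩

/-- the output -/
theorem out' (n' K N0 : ℝ) (hn : 1 ≤ n') (hK : 1 ≤ K) (hN : 0 < N0) : ∃ I1 C3 : ℝ, 0 ≤ I1 ∧
    0 < C3 ∧ ∀ (n c : ℝ) (W : Wd n) (G : Type) [Fintype G] [DecidableEq G] (S : Set W.Z)
      (st0 st : W.St) (χ d M : G → W.Z → ℝ) (δ : G → G → ℝ) (vs : List (W.Z → ℝ)) (nn : ℝ),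
      n * c = n' → 0 ≤ c → Ini W G S st0 χ d δ K → Ms W c st M vs → W.Le st0 st → N0 ≤ nn →
      ∃ P : G → W.Z → ℝ, (∀ g, W.A.Sm (P g) ∧ ∀ z, 0 ≤ P g z) ∧
        ∀ x ∈ S, ∑ g, P g x = 1 ∧ (∀ g, 0 < P g x → d g x ≤ 3 * 1 + 4) ∧
          ∃ I, (W.pt st x).Fi P I ∧ I ≤ I1 ∧
            (nn ≤ tot M x → ∑ g, cut (d g x - 1) * M g x ≤ tot M x / 20 → I ≤ C3 / nn) := by
  obtain ⟨I1, C3, h1, h2, H⟩ := out src n' K N0 hn hK hN
  refine ⟨I1, C3, h1, h2, ?_⟩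
  rintro n c W G _ _ S st0 st χ d M δ vs nn rfl hc h hM le hnn
  have h0 : 0 ≤ n * c := zero_le_one.trans hn
  obtain ⟨P, hP, HP⟩ := H 0 (toW h h0) (toSt h hM hc h0) M 1 nn le_rfl hnn (ok h hM hc h0 le)
  exact ⟨P, fun g => ⟨(hP g).1, (hP g).2.2⟩, fun x hx => eventually_top.1 HP ⟨x, hx⟩⟩

end Crest.Agent.N228.A.Bo

end
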