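import Crest.Agent.N222.A.Basic

/-!
# Row 228, part A* (helper11): the abstract bookkeeping.  FROZEN definitions and statements

`Wd n` : states, a wall variable `om`, two oracles (`pstep` : Jang step with a conformal factor,
`buf` : a band becomes wide and the metric is expanded behind it).
Layout in `om` : core `≤ -3`, cut-offs in `[-3, 1]`, sources vanish on `1 ≤ om`, walls in `[1, 5]`,
the steps vanish on `5 ≤ om`; the walls of `buf` are beyond `5`.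
`RunStmt` : the output.  `RunStmt ⇐ MergeStmt, BoostStmt`; `MergeStmt ⇐ GLStmt`;
`BoostStmt ⇐ StageStmt`.
-/

set_option autoImplicit false
set_option linter.dupNamespace false
open Set

noncomputable section

namespace Crest.Agent.N228.A

open Crest.Agent.N222.A

/-- the gain of the conformal factor `exp (- z v² / 4)` -/
def zg (n z U W v a : ℝ) : ℝ :=
  z * (1 - 1 / W ^ 2) - z * |a| * (U ^ 2 / 2) * (1 - 1 / W ^ 2) - n * z ^ 2 * (v ^ 2 / 4)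

/-- room for a wall -/
def cw : ℝ := 40000 * cc ^ 2

/-- the price of a band -/
def cb : ℝ := 10000 * cc ^ 2

/-- the budget in inductive form -/
def Bd {Z : Type} {A : Alg Z} (T : Pt A) (vs : List (Z → ℝ)) (c : ℝ) : Prop :=
  ∀ h, A.Sm h → (vs.map fun v => T.Γ v h ^ 2).sum ≤ c * T.Γ h h

/-- The abstract setting. -/
structure Wd (n : ℝ) where
  Z : Type
  A : Alg Z
  /-- the points at which inequalities are tracked -/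
  L : Set Z
  om : Z → ℝ
  om_sm : A.Sm om
  St : Type 1
  pt : St → Z → Pt A
  pt_p : ∀ st x, (pt st x).p = x
  E : St → Z → ℝ
  /-- whatever the instance wants to remember (nothing changes far out) -/
  R : St → St → Prop
  R_refl : ∀ st, R st st
  R_trans : ∀ {a b c : St}, R a b → R b c → R a c
  trace : ∀ st x (vs : List (Z → ℝ)) (c : ℝ), (∀ v ∈ vs, A.Sm v) → 0 ≤ c → Bd (pt st x) vs c →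
    (pt st x).bud vs ≤ n * c
  pstep : ∀ (st : St) (Q σ a : Z → ℝ) (κ z abar u0 ε : ℝ), A.Sm Q → A.Sm σ → A.Sm a → 0 < κ →
    (∀ x, κ ≤ Q x) → 0 ≤ z → (∀ x, 0 ≤ σ x ∧ σ x ≤ abar) → (∀ x, 1 ≤ om x → σ x = 0 ∧ a x ≤ 0) →
    0 < u0 → 0 < ε → (∀ x ∈ L, cw * (pt st x).Γ om om ≤ κ) →
    ∃ (v : Z → ℝ) (st' : St), R st st' ∧ A.Sm v ∧
      (∀ x, 0 ≤ v x ∧ (u0 + v x) ^ 2 ≤ u0 ^ 2 + 4 * abar) ∧ (∀ x, 5 ≤ om x → v x = 0) ∧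
      ∀ x ∈ L, (∀ f h, A.Sm f → A.Sm h → (pt st' x).Γ f h = Real.exp (z * v x ^ 2 / 2) *
          ((pt st x).Γ f h - (pt st x).Γ v f * (pt st x).Γ v h / (1 + (pt st x).Γ v v))) ∧
        ∀ j, 0 ≤ j → (pt st x).Γ Q Q ≤ Q x ^ 3 / 81 → (pt st x).Γ σ σ ≤ j * σ x →
          Real.exp (z * v x ^ 2 / 2) * (E st x
            + slow (u0 + v x) (√(1 + (pt st x).Γ v v)) (Q x) (σ x)
              ((u0 + v x) ^ 2 / 4 - u0 ^ 2 / 4 - σ x) j (a x) ((pt st x).Γ v a)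
            + zg n z (u0 + v x) (√(1 + (pt st x).Γ v v)) (v x) (a x) - ε) ≤ E st' x
  buf : ∀ (st : St) (θ : Z → ℝ) (Γm lam ε : ℝ), A.Sm θ → 0 ≤ Γm → 1 ≤ lam → 0 < ε →
    (∀ x, 5 ≤ om x → θ x ≤ 1 / 2) → (∀ x ∈ L, 1 / 2 ≤ θ x → θ x ≤ 1 → (pt st x).Γ θ θ ≤ Γm) →
    ∃ (w Ω : Z → ℝ) (st' : St), R st st' ∧ A.Sm w ∧ ∀ x ∈ L,
      (1 ≤ θ x → 4 ≤ w x) ∧ (θ x ≤ 1 / 2 → w x ≤ 0) ∧ lam⁻¹ ≤ Ω x ∧ Ω x ≤ 1 ∧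
      (1 ≤ w x → Ω x = lam⁻¹) ∧ (∀ f, A.Sm f → (pt st' x).Γ f f ≤ Ω x * (pt st x).Γ f f) ∧
      (pt st' x).Γ w w ≤ ε ∧ (θ x ≤ 1 / 2 → E st x - ε ≤ E st' x) ∧
      Ω x * (E st x - ε - cb * Γm) ≤ E st' x

/-- total mass -/
def tot {Z G : Type} [Fintype G] (P : G → Z → ℝ) (x : Z) : ℝ := ∑ g, P g x

/-- far mass -/
def far {Z G : Type} [Fintype G] (r0 Lr : ℝ) (d P : G → Z → ℝ) (x : Z) : ℝ :=
  ∑ g, cut ((d g x - r0) / Lr) * P g x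

/-- **GENERATION LEMMA**: masses grow from a tiny multiple of `ϖ² χ` to `T ϖ²`; `exp l` is the
conformal factor. -/
def GLStmt : Prop := ∃ c : ℝ, 1 ≤ c ∧ ∀ n T η δ W2 Lr γ r0 : ℝ, 1 ≤ n → 0 < T → 0 < η → 0 < δ →
  4 * c * δ ≤ 1 → 0 ≤ W2 → 0 < Lr → 0 ≤ γ → c * n * δ ^ 2 ≤ η * T →
  c * W2 ^ 2 * T ^ 2 * γ ≤ η * Lr ^ 2 * δ ^ 3 → ∀ (K0 c1 : ℝ) (D : ℕ), 0 ≤ K0 → 0 ≤ c1 →
  ∃ lm Gm : ℝ, 0 ≤ lm ∧ 0 ≤ Gm ∧ ∀ Φ : ℝ, ∃ τ : ℝ, 0 < τ ∧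
  ∀ (W : Wd n) (G : Type) [Fintype G] [DecidableEq G] (st : W.St) (χ d : G → W.Z → ℝ)
    (ϖ : W.Z → ℝ), Fintype.card G ≤ D →
    (∀ g, W.A.Sm (χ g) ∧ W.A.Sm (d g) ∧ ∀ x, 0 ≤ χ g x ∧ χ g x ≤ 1) → W.A.Sm ϖ →
    (∀ x, 0 ≤ ϖ x ∧ ϖ x ≤ 1 ∧ (ϖ x ≠ 0 → W.om x ≤ 0)) →
    (∀ x ∈ W.L, 2 * η ≤ W.E st x ∧ (W.pt st x).Γ W.om W.om ≤ τ ∧ (W.pt st x).Γ ϖ ϖ ≤ τ ∧
      (∀ g, (W.pt st x).Γ (d g) (d g) ≤ c1) ∧ (ϖ x ≠ 0 → ∑ g, χ g x = 1 ∧ (W.pt st x).Fi χ K0 ∧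
        ∀ g, (W.pt st x).Γ (d g) (d g) ≤ γ ∧ (0 < χ g x → d g x ≤ r0))) →
    ∃ (st' : W.St) (P : G → W.Z → ℝ) (l : W.Z → ℝ), W.R st st' ∧ W.A.Sm l ∧
      (∀ g, W.A.Sm (P g) ∧ ∀ x, 0 ≤ P g x ∧ P g x ≤ T) ∧
      (∀ x, 0 ≤ l x ∧ l x ≤ lm ∧ (5 ≤ W.om x → l x = 0 ∧ ∀ g, P g x = 0)) ∧
      ∀ x ∈ W.L, (∀ f, W.A.Sm f → (W.pt st' x).Γ f f ≤ Real.exp (l x) * (W.pt st x).Γ f f) ∧
        (W.pt st' x).Fi P ((n + 1) * Real.exp (l x)) ∧ (W.pt st' x).Γ l l ≤ Gm ∧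
        W.E st x - η + W2 * (far r0 Lr d P x / T) ≤ W.E st' x ∧
        (3 / 2 * c * δ ≤ l x ∨ 1 / 800 ≤ (tot P x / T - ϖ x ^ 2) ^ 2 → Φ ≤ W.E st' x)

/-- the data of a run: a partition of unity `χ`, distances `d`, distances `δ` of the labels -/
structure Dat {n : ℝ} (W : Wd n) (G : Type) [Fintype G] (st : W.St) (χ d : G → W.Z → ℝ)
    (δ : G → G → ℝ) (s c1 K0 τ : ℝ) : Prop where
  sm : ∀ g, W.A.Sm (χ g) ∧ W.A.Sm (d g) ∧ ∀ x, 0 ≤ χ g x ∧ χ g x ≤ 1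
  E : ∀ x ∈ W.L, s ≤ W.E st x
  om : ∀ x ∈ W.L, (W.pt st x).Γ W.om W.om ≤ τ
  lip : ∀ x ∈ W.L, ∀ g, (W.pt st x).Γ (d g) (d g) ≤ c1
  tri : ∀ x ∈ W.L, ∀ g g', d g x - d g' x ≤ δ g g' ∧ δ g g' ≤ d g x + d g' x
  par : ∀ x ∈ W.L, W.om x ≤ 0 → ∑ g, χ g x = 1 ∧ (W.pt st x).Fi χ K0 ∧ ∀ g, 0 < χ g x → d g x ≤ 1

/-- **all generations**: a partition with universal Fisher information and range -/
def MergeStmt : Prop := ∀ n : ℝ, 1 ≤ n → ∃ k : ℝ, 1 ≤ k ∧ ∀ T s c1 : ℝ, 0 < T → 0 < s → 0 ≤ c1 →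
  ∃ ρ : ℝ, 1 ≤ ρ ∧ ∀ (K0 : ℝ) (D : ℕ), 0 ≤ K0 → ∃ τ : ℝ, 0 < τ ∧
  ∀ (W : Wd n) (G : Type) [Fintype G] [DecidableEq G] (st : W.St) (χ d : G → W.Z → ℝ)
    (δ : G → G → ℝ), Fintype.card G ≤ D → Dat W G st χ d δ s c1 K0 τ →
    ∃ (st' : W.St) (X : G → W.Z → ℝ), W.R st st' ∧
      (∀ g, W.A.Sm (X g) ∧ ∀ x, 0 ≤ X g x ∧ X g x ≤ 1 ∧ (X g x ≠ 0 → W.om x ≤ -1)) ∧
      ∀ x ∈ W.L, (∀ f, W.A.Sm f → (W.pt st' x).Γ f f ≤ 2 * (W.pt st x).Γ f f) ∧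
        s / 2 ≤ W.E st' x ∧ ∑ g, X g x = cut (-1 - W.om x) ^ 2 ∧ (W.pt st' x).Fi X (k / T) ∧
        ∀ g, 0 < X g x → d g x ≤ ρ

/-- admissible masses with their budget -/
structure Ms {n : ℝ} (W : Wd n) {G : Type} [Fintype G] (c : ℝ) (st : W.St) (M : G → W.Z → ℝ)
    (vs : List (W.Z → ℝ)) : Prop where
  sm : ∀ g, W.A.Sm (M g)
  nn : ∀ g x, 0 ≤ M g x
  vs_sm : ∀ v ∈ vs, W.A.Sm v
  fis : ∀ T : Pt W.A, T.Fi M (T.bud vs)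
  bd : ∀ x ∈ W.L, Bd (W.pt st x) vs c

/-- the metric only grows -/
def Wd.Le {n : ℝ} (W : Wd n) (st st' : W.St) : Prop :=
  ∀ x ∈ W.L, ∀ f, W.A.Sm f → (W.pt st' x).Γ f f ≤ (W.pt st x).Γ f f

/-- **STAGE** (`N222.A.StageStmt` in the new setting, `n' = n c`) -/
def StageStmt : Prop := ∀ (n c : ℝ) (W : Wd n) (G : Type) [Fintype G] [DecidableEq G] (st : W.St)
  (M : G → W.Z → ℝ) (vs : List (W.Z → ℝ)) (ι T y Φ δ : ℝ) (σ : G → W.Z → ℝ) (j : W.Z → G → ℝ),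
  1 ≤ n → 1 ≤ c → Ms W c st M vs → 0 < ι → 0 < T → 0 < y → y ≤ 1 / 2 → 2 * (n * c) ≤ ι * T →
  eta ι T y ≤ Φ → 0 < δ → (∀ x ∈ W.L, cw * (W.pt st x).Γ W.om W.om ≤ eta ι T y / (2 * ι * T)) →
  (∀ g, W.A.Sm (σ g) ∧ ∀ x, 0 ≤ σ g x ∧ σ g x ≤ 1 ∧ (1 ≤ W.om x → σ g x = 0)) →
  (∀ x ∈ W.L, ∑ g, σ g x ≤ 1 ∧ ∑ g, j x g ≤ ι ∧
    ∀ g, 0 ≤ j x g ∧ (W.pt st x).Γ (σ g) (σ g) ≤ j x g * σ g x) →
  ∃ st' M' vs', W.R st st' ∧ W.Le st st' ∧ Ms W c st' M' vs' ∧ ∀ x ∈ W.L,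
    W.E st x - eta ι T y - δ ≤ W.E st' x ∧
    (∑ g, |M' g x - M g x - T * σ g x| ≤ 2 * y * T ∨ W.E st x + Φ - 2 * eta ι T y - δ ≤ W.E st' x)

/-- the output of a run -/
def Out {n : ℝ} (W : Wd n) {G : Type} [Fintype G] (st' : W.St) (P d : G → W.Z → ℝ)
    (s ρ I1 Λ : ℝ) : Prop :=
  (∀ g, W.A.Sm (P g) ∧ ∀ x, 0 ≤ P g x ∧ (P g x ≠ 0 → W.om x ≤ -2)) ∧
  ∀ x ∈ W.L, ∑ g, P g x ≤ 1 ∧ (W.om x ≤ -3 → ∑ g, P g x = 1) ∧ (∀ g, 0 < P g x → d g x ≤ ρ) ∧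
    ∑ g, (W.pt st' x).Γ (P g) (P g) ≤ I1 ∧
    s + Λ * ∑ g, (W.pt st' x).Γ (P g) (P g) ≤ W.E st' x

/-- **BOOST**: from Fisher information `k / T` to an arbitrary factor `Λ` -/
def BoostStmt : Prop := ∀ n k s : ℝ, 1 ≤ n → 1 ≤ k → 0 < s → ∃ T : ℝ, 0 < T ∧ ∀ c1 ρ : ℝ, 0 ≤ c1 →
  1 ≤ ρ → ∃ I1 : ℝ, ∀ (K0 Λ : ℝ) (D : ℕ), 0 ≤ K0 → 0 ≤ Λ → ∃ τ : ℝ, 0 < τ ∧
  ∀ (W : Wd n) (G : Type) [Fintype G] [DecidableEq G] (st : W.St) (χ d X : G → W.Z → ℝ)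
    (δ : G → G → ℝ), Fintype.card G ≤ D → Dat W G st χ d δ s c1 K0 τ →
    (∀ g, W.A.Sm (X g) ∧ ∀ x, 0 ≤ X g x ∧ X g x ≤ 1 ∧ (X g x ≠ 0 → W.om x ≤ -1)) →
    (∀ x ∈ W.L, ∑ g, X g x = cut (-1 - W.om x) ^ 2 ∧ (W.pt st x).Fi X (k / T) ∧
      ∀ g, 0 < X g x → d g x ≤ ρ) →
    ∃ (st' : W.St) (P : G → W.Z → ℝ), W.R st st' ∧ W.Le st st' ∧
      Out W st' P d (s / 4) (7 * ρ) I1 Λ

/-- **PART A\*** -/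
def RunStmt : Prop := ∀ n s c1 : ℝ, 1 ≤ n → 0 < s → 0 ≤ c1 → ∃ ρ I1 : ℝ,
  ∀ (K0 Λ : ℝ) (D : ℕ), 0 ≤ K0 → 0 ≤ Λ → ∃ τ : ℝ, 0 < τ ∧
  ∀ (W : Wd n) (G : Type) [Fintype G] [DecidableEq G] (st : W.St) (χ d : G → W.Z → ℝ)
    (δ : G → G → ℝ), Fintype.card G ≤ D → Dat W G st χ d δ s c1 K0 τ →
    ∃ (st' : W.St) (P : G → W.Z → ℝ), W.R st st' ∧
      (∀ x ∈ W.L, ∀ f, W.A.Sm f → (W.pt st' x).Γ f f ≤ 2 * (W.pt st x).Γ f f) ∧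
      Out W st' P d (s / 8) ρ I1 Λ

theorem run_of (hM : MergeStmt) (hB : BoostStmt) : RunStmt := by
  intro n s c1 hn hs hc
  obtain ⟨k, hk, H⟩ := hM n hn
  obtain ⟨T, hT, H'⟩ := hB n k (s / 2) hn hk (half_pos hs)
  obtain ⟨ρ, hρ, H⟩ := H T s c1 hT hs hc
  obtain ⟨I1, H'⟩ := H' (2 * c1) ρ (by positivity) hρ
  refine ⟨7 * ρ, I1, fun K0 Λ D hK hΛ => ?_⟩
  obtain ⟨τ, hτ, H⟩ := H K0 D hK
  obtain ⟨τ', hτ', H'⟩ := H' (2 * K0) Λ D (by positivity) hΛ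
  refine ⟨min τ (τ' / 2), by positivity, fun W G _ _ st χ d δ hD h => ?_⟩
  obtain ⟨st1, X, r1, hX, h1⟩ := H W G st χ d δ hD
    ⟨h.sm, h.E, fun x hx => (h.om x hx).trans (min_le_left _ _), h.lip, h.tri, h.par⟩
  obtain ⟨st2, P, r2, le, h2⟩ := H' W G st1 χ d X δ hD
    ⟨h.sm, fun x hx => (h1 x hx).2.1, fun x hx => by
      linarith [(h1 x hx).1 _ W.om_sm, h.om x hx, min_le_right τ (τ' / 2)],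
      fun x hx g => by linarith [(h1 x hx).1 _ (h.sm g).2.1, h.lip x hx g], h.tri,
      fun x hx h0 => ⟨(h.par x hx h0).1, by
        obtain ⟨j, hj, hs⟩ := (h.par x hx h0).2.1
        refine ⟨fun g => 2 * j g, fun g => ⟨by linarith [(hj g).1], ?_⟩, by
          rw [← Finset.mul_sum]; linarith⟩
        have := (hj g).2
        rw [W.pt_p] at this ⊢
        linarith [(h1 x hx).1 _ (h.sm g).1], (h.par x hx h0).2.2⟩⟩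
    hX fun x hx => (h1 x hx).2.2
  refine ⟨st2, P, W.R_trans r1 r2, fun x hx f hf => (le x hx f hf).trans ((h1 x hx).1 f hf), ?_⟩
  rwa [show s / 8 = s / 2 / 4 by ring]

end Crest.Agent.N228.A

end
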