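import Crest.Agent.N228.A.GL4

/-! # Row 228, part A*: the generation lemma `GL` (helper89) -/

set_option autoImplicit false
set_option linter.dupNamespace false
open Filter Set Topology

noncomputable section

namespace Crest.Agent.N228.A.GL

open Crest.Agent.N222.A

theorem rho_num {h : ℝ} (h0 : 0 ≤ h) (h1 : h ≤ 1 / 50) :
    (1 + h) ^ 5 - (1 + h) ≤ 5 * ((1 + h) - 1) := by
  have a2 : h ^ 2 ≤ h / 50 := by nlinarith
  have a3 : h ^ 3 ≤ h ^ 2 := pow_le_pow_of_le_one h0 (by linarith) (by norm_num)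
  have a4 : h ^ 4 ≤ h ^ 2 := pow_le_pow_of_le_one h0 (by linarith) (by norm_num)
  have a5 : h ^ 5 ≤ h ^ 2 := pow_le_pow_of_le_one h0 (by linarith) (by norm_num)
  linarith

theorem gam_far {Z : Type} {A : Alg Z} (T : Pt A) {d : Z → ℝ} (hd : A.Sm d) (r L : ℝ) {c : ℝ}
    (h : T.Γ d d ≤ c) : T.Γ (fun x => cut ((d x - r) / L)) (fun x => cut ((d x - r) / L)) ≤
      cc ^ 2 * c / L ^ 2 := by
  have s := Alg.div_const (Alg.sub_const hd r) L
  refine (gam_cut_le T s).trans ?_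
  rw [T.chain_self (φ := fun t => (t - r) / L) hd s
    (((hasDerivAt_id _).sub_const r).div_const L), mul_div_assoc]
  refine mul_le_mul_of_nonneg_left ?_ (sq_nonneg _)
  exact (mul_le_mul_of_nonneg_left h (sq_nonneg _)).trans_eq (by ring)

/-- the choice of the number of rounds -/
theorem exists_R (M : ℝ) {p : ℝ → Prop} (h : ∀ᶠ u in 𝓝 (0 : ℝ), p u) :
    ∃ R : ℕ, 0 < R ∧ p (M / R) :=
  (((eventually_gt_atTop 0).and ((tendsto_const_div_atTop_nhds_zero_nat M).eventually h))).exists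

theorem exists_nu {M h : ℝ} {R : ℕ} (h0 : 0 < h) (h1 : h ≤ 1) (hR : h * R = M) :
    ∃ ν : ℕ → ℝ, (∀ r, 0 < ν r) ∧ (∀ r, (1 + h) * ν r = ν (r + 1)) ∧ (∀ r ≤ R + 1, ν r ≤ 1) ∧
      (∀ r, 1 ≤ 2 * Real.exp M * ν r) ∧ ν 1 * M ≤ 1 ∧ ν (R + 1) = 1 := by
  have pR : 1 + M ≤ (1 + h) ^ R := by
    have := one_add_mul_le_pow (a := h) (by linarith) R
    linarith
  have pB : (1 + h) ^ (R + 1) ≤ 2 * Real.exp M := by
    have a1 : (1 + h) ^ R ≤ Real.exp M := by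
      rw [← hR, mul_comm, Real.exp_nat_mul]
      exact pow_le_pow_left₀ (by linarith) (by rw [add_comm]; exact Real.add_one_le_exp h) R
    rw [pow_succ, mul_comm]
    exact mul_le_mul (by linarith) a1 (by positivity) (by norm_num)
  have ρ1 : 1 ≤ 1 + h := by linarith
  generalize 1 + h = ρ at *
  have ρ0 : 0 < ρ := by linarith
  refine ⟨fun r => ρ ^ r / ρ ^ (R + 1), fun r => by positivity, fun r => ?_,
    fun r hr => (div_le_one (by positivity)).2 (pow_le_pow_right₀ ρ1 hr), fun r => ?_, ?_,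
    div_self (by positivity)⟩
  · simp only [pow_succ' ρ r]; ring
  · rw [← mul_div_assoc, le_div_iff₀ (by positivity), one_mul]
    exact pB.trans (le_mul_of_one_le_right (by positivity) (one_le_pow₀ ρ1))
  · rw [div_mul_eq_mul_div, div_le_one (by positivity), pow_one, pow_succ']
    exact mul_le_mul_of_nonneg_left (by linarith) ρ0.le

theorem start_num {T η δ K0 I ρ ν μ : ℝ} (hT : 0 < T) (hη : 0 < η) (hδ : 0 < δ) (hδ1 : δ ≤ 1)
    (hK : 0 ≤ K0) (hν : 0 < ν) (hρ : 0 < ρ) (hρ2 : ρ ^ 2 ≤ 2) (e : ρ * ν = μ) (μ1 : μ ≤ 1)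
    (hM : μ * (32 * (K0 + 1) / η + 8 * T * (K0 + 1)) ≤ 1) (hI : I ≤ T * μ ^ 5 * (8 * (K0 + 1))) :
    I ≤ 1 ∧ δ / (T * ν ^ 2) / 4 * I ≤ η / 8 := by
  have μ0 : 0 < μ := e ▸ mul_pos hρ hν
  have μ5 : ∀ k, 1 ≤ k → μ ^ k ≤ μ := fun k hk => by
    simpa using pow_le_pow_of_le_one μ0.le μ1 hk
  have b1 : 0 ≤ μ * (32 * (K0 + 1) / η) := by positivity
  have b2 : 0 ≤ μ * (8 * T * (K0 + 1)) := by positivity
  constructor
  · linarith [mul_le_mul_of_nonneg_right (μ5 5 (by norm_num))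
      (show 0 ≤ 8 * T * (K0 + 1) by positivity)]
  · have a1 := mul_le_mul_of_nonneg_left hI (show 0 ≤ δ / (T * ν ^ 2) / 4 by positivity)
    have a2 : δ / (T * ν ^ 2) / 4 * (T * μ ^ 5 * (8 * (K0 + 1)))
        = δ * ρ ^ 2 * μ ^ 3 * (2 * (K0 + 1)) := by
      rw [← e]; field_simp; norm_num
    have a3 : δ * ρ ^ 2 * μ ^ 3 ≤ 1 * 2 * μ :=
      mul_le_mul (mul_le_mul hδ1 hρ2 (by positivity) zero_le_one)
        (μ5 3 (by norm_num)) (by positivity) (by norm_num)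
    have a4 := mul_le_mul_of_nonneg_right a3 (show 0 ≤ 2 * (K0 + 1) by positivity)
    have a5 : μ * (32 * (K0 + 1) / η) ≤ 1 := by linarith
    rw [← mul_div_assoc, div_le_one hη] at a5
    linarith

theorem num_H4 {Wo il D M h ε η e0 R : ℝ} (hW : 0 ≤ Wo * il) (D0 : 0 ≤ D) (R0 : 0 < R)
    (ε0 : 0 ≤ ε) (ε6 : ε ≤ 6 * h) (hR : h * R = M) (he0 : e0 = η / (4 * R * (D + 1)))
    (r6 : 2304 * Wo * il * (2 * D + 1) * (D + 1) * M * h ≤ η) :
    4 * Wo * il * ε ^ 2 * (2 * D + 1) ≤ e0 / 4 := by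
  have a1 := mul_le_mul_of_nonneg_left (pow_le_pow_left₀ ε0 ε6 2)
    (show 0 ≤ 4 * (Wo * il) * (2 * D + 1) by positivity)
  have a2 : 4 * Wo * il * (2 * D + 1) * (6 * h) ^ 2 ≤ e0 / 4 := by
    rw [he0, div_div, le_div_iff₀ (by positivity)]
    rw [← hR] at r6
    linarith
  linarith

theorem num_n {c n δ η T : ℝ} (hc : 1 ≤ c) (hn : 1 ≤ n) (hT : 0 < T)
    (h : 10 ^ 7 * c * n * δ ^ 2 ≤ η * T) : n * δ ^ 2 / T ≤ η / 672 := by
  rw [div_le_div_iff₀ hT (by norm_num)]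
  nlinarith [mul_nonneg (zero_le_one.trans hn) (sq_nonneg δ)]

theorem num_F {c W2 T γ η Lr δ : ℝ} (hc : 0 ≤ c) (hγ : 0 ≤ γ) (hL : 0 < Lr) (hδ : 0 < δ)
    (h : 10 ^ 7 * c * W2 ^ 2 * T ^ 2 * γ ≤ η * Lr ^ 2 * δ ^ 3) :
    8192 * W2 ^ 2 * T ^ 2 * (c * γ / Lr ^ 2) / δ ^ 3 ≤ η / 672 := by
  have e : 8192 * W2 ^ 2 * T ^ 2 * (c * γ / Lr ^ 2) / δ ^ 3
      = 8192 * c * W2 ^ 2 * T ^ 2 * γ / (Lr ^ 2 * δ ^ 3) := by field_simp
  have : 0 ≤ c * W2 ^ 2 * T ^ 2 * γ := by positivity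
  rw [e, div_le_div_iff₀ (by positivity) (by norm_num)]
  linarith

end Crest.Agent.N228.A.GL

namespace Crest.Agent.N228.A

open Crest.Agent.N222.A Crest.Agent.N228.A.GL

/-- **GENERATION LEMMA** -/
theorem gl : GLStmt := by
  have c1' := one_le_cc
  have c2 : 1 ≤ cc ^ 2 := one_le_pow₀ c1'
  refine ⟨10 ^ 7 * cc ^ 2, by linarith,
    fun n T η δ W2 Lr γ r0 hn hT hη hδ hδc hW2 hLr hγ hnδ hγ' K0 c1 D hK hc1 => ?_⟩
  have D0 : (0 : ℝ) ≤ D := Nat.cast_nonneg D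
  have hδ1 : δ ≤ 1 / 100 := by nlinarith only [hδc, c2, hδ]
  obtain ⟨M, hM⟩ : ∃ M, M = 32 * (K0 + 1) / η + 8 * T * (K0 + 1) := ⟨_, rfl⟩
  have M0 : 0 < M := by rw [hM]; positivity
  obtain ⟨B0, hB0⟩ : ∃ B0, B0 = 2 * Real.exp M := ⟨_, rfl⟩
  obtain ⟨X, hX⟩ : ∃ X, X = Real.exp (2 * δ * (6 * D)) := ⟨_, rfl⟩
  have X0 : 0 < X := hX ▸ Real.exp_pos _
  refine ⟨2 * δ * (6 * D), (2 * δ) ^ 2 * (B0 ^ 4 / T * (n * X) * (6 * D)), by positivity,
    by positivity, fun Φ => ?_⟩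
  obtain ⟨Fa, hFa⟩ : ∃ Fa, Fa = cc ^ 2 * γ / Lr ^ 2 := ⟨_, rfl⟩
  obtain ⟨Fb, hFb⟩ : ∃ Fb, Fb = cc ^ 2 * c1 / Lr ^ 2 := ⟨_, rfl⟩
  have Fa0 : 0 ≤ Fa := by rw [hFa]; positivity
  have Fb0 : 0 ≤ Fb := by rw [hFb]; positivity
  obtain ⟨cm, hcm⟩ : ∃ cm, cm = η / 224 + 8192 * W2 ^ 2 * T ^ 2 * Fb / δ ^ 3 := ⟨_, rfl⟩
  have cm1 : η / 224 ≤ cm := hcm ▸ le_add_of_nonneg_right (by positivity)
  have cm0 : 0 < cm := by linarith
  obtain ⟨lam, hlam⟩ : ∃ lam, lam = min 1 (η / (112 * cm)) := ⟨_, rfl⟩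
  have lam0 : 0 < lam := hlam ▸ lt_min one_pos (by positivity)
  have lam2 : 112 * cm * lam ≤ η := by
    rw [mul_comm, ← le_div_iff₀ (by positivity), hlam]; exact min_le_right _ _
  obtain ⟨Wo, hWo⟩ : ∃ Wo, Wo = 4 * cm * X + 1600 * |Φ| := ⟨_, rfl⟩
  have Wo0 : 0 < Wo := by rw [hWo]; positivity
  obtain ⟨Lm, hLm⟩ : ∃ Lm, Lm = 128 * Wo * lam⁻¹ * B0 ^ 8 / (δ * T) := ⟨_, rfl⟩
  obtain ⟨am, ham⟩ : ∃ am, am = Lm * T * (2 * D + 1) + 16 * W2 * B0 ^ 3 / δ := ⟨_, rfl⟩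
  have Lm0 : 0 ≤ Lm := by rw [hLm]; positivity
  have am0 : 0 ≤ am := by rw [ham, hB0]; positivity
  obtain ⟨R, R0, r1, r2, r3, r4, r5, r6⟩ := exists_R M
    ((small1 1 (show (0 : ℝ) < 1 / 50 by norm_num)).and ((small1 (6 * D) lam0).and
    ((small1 (am ^ 2 * (5 * T) * 6) (show 0 < δ / T / 8 by positivity)).and
    ((small1 (am * (5 * T) * 6) (show (0 : ℝ) < 1 / 8 by norm_num)).and
    ((small1 (Lm * (5 * T) * 6) (show 0 < δ / T / 4 by positivity)).and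
    (small1 (2304 * Wo * lam⁻¹ * (2 * D + 1) * (D + 1) * M) hη))))))
  have R1 : (0 : ℝ) < R := Nat.cast_pos.2 R0
  obtain ⟨h, hh⟩ : ∃ h, h = M / R := ⟨_, rfl⟩
  have h0 : 0 < h := by rw [hh]; positivity
  have hR : h * R = M := by rw [hh]; field_simp
  rw [← hh] at r1 r2 r3 r4 r5 r6
  have ρ5 := rho_num h0.le (by linarith)
  have ε6 : (1 + h) ^ 5 - 1 ≤ 6 * h := by linarith
  have ε0 : 0 ≤ (1 + h) ^ 5 - 1 := sub_nonneg.2 (one_le_pow₀ (by linarith))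
  obtain ⟨e0, he0⟩ : ∃ e0, e0 = η / (4 * R * (D + 1)) := ⟨_, rfl⟩
  have e00 : 0 < e0 := by rw [he0]; positivity
  have e01 : R * (e0 * D) ≤ η / 4 := by
    have : R * (e0 * (D + 1)) = η / 4 := by rw [he0]; field_simp
    linarith only [this, mul_pos R1 e00]
  let K : GC η δ D := ⟨T, W2, Wo, lam, lam⁻¹, 1 + h, e0, cm, hT, hη, hδ1, hW2, Wo0, lam0,
    hlam ▸ min_le_left _ _, mul_inv_cancel₀ lam0.ne', by linarith, ρ5, by linarith, cm1, lam2,
    by rw [← hX, hWo]; linarith [abs_nonneg Φ],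
    by linarith [mul_le_mul_of_nonneg_right ε6 D0]⟩
  obtain ⟨ρ, hρ⟩ : ∃ ρ, ρ = 1 + h := ⟨_, rfl⟩
  have eρ : K.ρ = ρ := hρ.symm
  have ρ1 : 1 < ρ := by linarith only [hρ, h0]
  have ρ0 : 0 < ρ := by linarith only [ρ1]
  obtain ⟨ν, ν0, νs, ν1, νB, μM, νR⟩ := exists_nu h0 (by linarith only [r1]) hR
  rw [← hρ] at νs
  rw [← hB0] at νB
  obtain ⟨t0, ht0⟩ : ∃ t0, t0 = T * ν 1 ^ 5 := ⟨_, rfl⟩
  have t00 : 0 ≤ t0 := by have := ν0 1; rw [ht0]; positivity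
  obtain ⟨τ, τ0, τ1, T1, T2, T3, T4⟩ := exists_pos
    ((small1 1 one_pos).and ((small1 (cw * X) (show 0 < δ / T / 32 by positivity)).and
    ((small1 (δ * B0 ^ 2 * cc ^ 2 * X) e00).and
    ((small1 (128 * (Lm * T) ^ 2 / (δ / T)) (show 0 < η / 672 / T by positivity)).and
    (small1 (K.Lf (ν 0) * (t0 ^ 2 * 8)) (show 0 < η / 8 by positivity))))))
  refine ⟨τ, τ0, fun W G _ _ st χ d ϖ hD hs sϖ hϖ hL => ?_⟩
  have ϖ2 : ∀ x, ϖ x ^ 2 ≤ 1 := fun x => pow_le_one₀ (hϖ x).1 (hϖ x).2.1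
  obtain ⟨P0, sP, hP, hP'⟩ := exists_P0 t00 (fun g => (hs g).1) (fun g x => ((hs g).2.2 x).1) sϖ ϖ2
  have hP2 := fun x (hx : x ∈ W.L) => hP' (W.pt st x) K0 τ hK (hL x hx).2.2.1 (by
    rw [W.pt_p]; exact fun h => ⟨((hL x hx).2.2.2.2 h).1, ((hL x hx).2.2.2.2 h).2.1⟩)
  have hc : Ctx W δ D τ (Fa + Fb) st P0 (fun g x => cut ((d g x - r0) / Lr)) ϖ
      fun x => if ϖ x = 0 then Fb else Fa :=
    ⟨by linarith, hδ.le, τ0.le, Nat.cast_le.2 hD, sP, fun g x => (hP g x).1,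
      fun g => Alg.cut (Alg.div_const (Alg.sub_const (hs g).2.1 r0) Lr),
      fun g x => ⟨cut_nonneg _, cut_le_one _⟩, sϖ, hϖ, fun x hx => ⟨(hL x hx).2.1,
        (hL x hx).2.2.1, by split_ifs <;> assumption, by split_ifs <;> linarith, fun g => by
        split_ifs with h0
        · exact hFb ▸ gam_far _ (hs g).2.1 _ _ ((hL x hx).2.2.2.1 g)
        · exact hFa ▸ gam_far _ (hs g).2.1 _ _ (((hL x hx).2.2.2.2 h0).2.2 g).1⟩⟩
  obtain ⟨I1, I2⟩ := start_num (I := t0 * (8 * K0 + 8 * τ)) hT hη hδ (by linarith only [hδ1]) hK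
    (ν0 0) ρ0 ((pow_le_pow_right₀ ρ1.le (by norm_num)).trans (eρ ▸ K.hρ2)) (νs 0) (ν1 1 (by omega))
    (hM ▸ μM) (ht0 ▸ mul_le_mul_of_nonneg_left (by linarith only [τ1]) (ht0 ▸ t00))
  have key : ∀ r : ℕ, r ≤ R → ∃ st' P S vs J, OInv W K (B0 ^ 4 / T) st P0
      (fun g x => cut ((d g x - r0) / Lr)) ϖ (ν r) (r * (e0 * D)) st' P S vs J := by
    intro r
    induction r with
    | zero =>
      intro _
      obtain ⟨J, hJ⟩ := ostart (Bw := B0 ^ 4 / T) hc K hδ (ν0 0) (I := t0 * (8 * K0 + 8 * τ))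
        (fun g x => by rw [eρ, νs]; exact ht0 ▸ (hP g x).2.1)
        (fun g x h => (hP g x).2.2 (Or.inl h)) (fun x hx => ⟨by
          have := (hP2 x hx).1
          rw [W.pt_p, ht0] at this
          rw [eρ, νs]; exact this, (hP2 x hx).2.1, by
          have a1 : 0 ≤ K.Lf (ν 0) := by
            have := K.il1
            have := ν0 0
            exact div_nonneg (mul_nonneg (by positivity) (by linarith [ν1 0 (by omega)]))
              (by rw [eρ]; positivity)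
          linarith only [mul_le_mul_of_nonneg_left (hP2 x hx).2.2 a1, T4], fun g => by
          by_cases h0 : ϖ x = 0
          · rw [(hP g x).2.2 (Or.inl h0), mul_zero]
          · rcases ((hs g).2.2 x).1.eq_or_lt with h1 | h1
            · rw [(hP g x).2.2 (Or.inr h1.symm), mul_zero]
            · rw [cut_zero (div_nonpos_of_nonpos_of_nonneg (sub_nonpos.2
                ((((hL x hx).2.2.2.2 h0).2.2 g).2 h1)) hLr.le), zero_mul]⟩) I2
      exact ⟨_, _, _, _, J, by simpa using hJ⟩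
    | succ r ih =>
      intro hr
      obtain ⟨st', P, S, vs, J, h'⟩ := ih (by omega)
      obtain ⟨C, hC⟩ := exists_fit (n := n) (τ := τ) (Fm := Fa + Fb) K (Fa := Fa) (Fb := Fb) hδ D0
        τ0.le (eρ ▸ ρ1) e00 (ν0 r) (νB r) (by rw [eρ, νs]; exact ν1 _ (by omega)) rfl hLm ham
        ((mul_le_mul_of_nonneg_left ε6 (by positivity)).trans (by rw [← mul_assoc]; exact r3))
        ((mul_le_mul_of_nonneg_left ε6 (by positivity)).trans (by rw [← mul_assoc]; exact r4))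
        ((mul_le_mul_of_nonneg_left ε6 (by positivity)).trans (by rw [← mul_assoc]; exact r5))
        (num_H4 (by positivity) D0 R1 ε0 ε6 hR he0 r6) (hX ▸ T1) (hX ▸ T2) T3 (num_n c2 hn hT hnδ)
        Fa0 Fb0 (hFa ▸ num_F (sq_nonneg _) hγ hLr hδ hγ') hcm.ge
      have hk : (r + 1 : ℕ) * (e0 * D) ≤ η / 4 :=
        (mul_le_mul_of_nonneg_right (Nat.cast_le.2 hr) (by positivity)).trans e01
      have := oround hc K hδ hC (ν0 r) (by rw [eρ, νs, νs]; exact ν1 _ (by omega)) (fun _ => rfl)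
        (fun x hx => (hL x hx).1) (by push_cast at hk; change _ + e0 * D ≤ _; linarith only [hk]) h'
      rw [eρ, νs] at this
      push_cast
      rw [add_mul, one_mul]
      exact this
  obtain ⟨st', P, S, vs, J, h'⟩ := key R le_rfl
  have e1 : K.ρ * ν R = 1 := by rw [eρ, νs, νR]
  have hS : ∀ x, S x ≤ 6 * D := fun x => by simpa only [e1, mul_one] using h'.hS x
  have hb := h'.base
  refine ⟨st', P, fun x => 2 * δ * S x, hb.R, Alg.smul _ hb.smS, fun g => ⟨hb.smP g, fun x =>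
    ⟨(hP g x).1.trans (hb.ge g x), by simpa only [e1, one_pow, mul_one] using h'.hP g x⟩⟩,
    fun x => ⟨mul_nonneg (by positivity) (hb.nnS x), mul_le_mul_of_nonneg_left (hS x)
      (by positivity), fun hx => ⟨by simp only [(hb.out x hx).1, mul_zero], (hb.out x hx).2⟩⟩,
    fun x hx => ?_⟩
  have bud := W.trace st' x vs _ hb.vs_sm (Real.exp_pos _).le (hb.bd x hx)
  obtain ⟨r, q1, q2, q3⟩ := oend hc K hδ e1 e01 h' hx
  have r0' : 0 ≤ r := (sq_nonneg _).trans q1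
  have w1 : 0 ≤ Wo * r := by positivity
  have m0 : 0 ≤ W2 * (far r0 Lr d P x / T) := mul_nonneg hW2 (div_nonneg (Finset.sum_nonneg
    fun g _ => mul_nonneg (cut_nonneg _) ((hP g x).1.trans (hb.ge g x))) hT.le)
  change _ - _ + Wo * r / 2 + W2 * (far r0 Lr d P x / T) ≤ _ at q3
  refine ⟨hb.le x hx, ?_, ?_, by linarith only [q3, w1, hη], fun hr => ?_⟩
  · have f1 := (fi_scale (T' := W.pt st' x) ((hP2 x hx).2.1.mono I1) (by rw [W.pt_p, W.pt_p])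
      (Real.exp_pos _).le fun g => hb.le x hx _ (sP g)).add (hb.fisP _) sP
      (fun g => Alg.sub (hb.smP g) (sP g)) (fun g => (hP g _).1) fun g => sub_nonneg.2 (hb.ge g _)
    simp only [add_sub_cancel] at f1
    exact f1.mono (by linarith only [bud])
  · rw [gam_smul _ _ hb.smS]
    refine mul_le_mul_of_nonneg_left ((hb.fisS _).trans ?_) (sq_nonneg _)
    have a1 : Real.exp (2 * δ * S x) ≤ X :=
      hX ▸ Real.exp_le_exp.2 (mul_le_mul_of_nonneg_left (hS x) (by positivity))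
    exact mul_le_mul (mul_le_mul_of_nonneg_left (bud.trans (mul_le_mul_of_nonneg_left a1
      (by linarith))) (by positivity)) (hS _) (hb.nnS _) (by positivity)
  · have a1 : 1 / 800 ≤ r := by
      rcases hr with hr | hr
      · have : 3 / 2 * (10 ^ 7 * cc ^ 2) ≤ 2 * S x := by
          refine le_of_mul_le_mul_right ?_ hδ
          linarith only [hr]
        linarith only [this, q2, c2]
      · exact hr.trans q1
    have a2 := mul_le_mul_of_nonneg_left a1 Wo0.le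
    have a3 : 0 ≤ 4 * cm * X := by positivity
    linarith only [le_abs_self Φ, (hL x hx).1, a2, a3, hWo, q3, m0, hη]

end Crest.Agent.N228.A

end
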