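import Crest.Agent.N228.A.Basic

/-! # Row 228, part A*: real inequalities for the growth lemma `GL` (helper89) -/

set_option autoImplicit false
set_option linter.dupNamespace false
open Filter Set

noncomputable section

namespace Crest.Agent.N228.A.GL

open Crest.Agent.N222.A

theorem amgm {x a b : ℝ} (ha : 0 ≤ a) (hb : 0 ≤ b) (h : x ^ 2 ≤ 4 * a * b) : x ≤ a + b :=
  (le_abs_self _).trans (abs_le_of_sq_le_sq (by nlinarith [sq_nonneg (a - b)]) (by positivity))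

theorem p1 {U W o c z a am Um : ℝ} (hW : 1 ≤ W) (U0 : 0 < U) (o1 : o ≤ 1) (hc : c = 1 - o ^ 2)
    (c0 : 0 ≤ c) (hz : 0 < z) (hUm : U ^ 2 ≤ Um) (ha : |a| ≤ am) (h1 : am ^ 2 * Um ≤ z / 8) :
    |a| * c ^ 2 ≤ z * c / 8 + c * (1 - o) ^ 2 * (2 * W + 1) / U ^ 2 := by
  have Um0 : 0 < Um := (pow_pos U0 2).trans_le hUm
  have a1 : c / 2 ≤ 1 - o := by rw [hc]; nlinarith
  have a2 : c * (c / 2) ^ 2 * 3 / Um ≤ c * (1 - o) ^ 2 * (2 * W + 1) / U ^ 2 := by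
    refine div_le_div₀ (by positivity) ?_ (by positivity) hUm
    exact mul_le_mul (mul_le_mul_of_nonneg_left (pow_le_pow_left₀ (by positivity) a1 2) c0)
      (by linarith) (by norm_num) (by positivity)
  have a3 : (|a| * c ^ 2) ^ 2 ≤ 4 * (z * c / 8) * (c * (c / 2) ^ 2 * 3 / Um) := by
    have e : 4 * (z * c / 8) * (c * (c / 2) ^ 2 * 3 / Um) = 3 * z / 8 / Um * c ^ 4 := by
      field_simp; ring
    have b1 : |a| ^ 2 ≤ 3 * z / 8 / Um := by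
      rw [le_div_iff₀ Um0]
      linarith [mul_le_mul_of_nonneg_right (pow_le_pow_left₀ (abs_nonneg a) ha 2) Um0.le]
    rw [e, mul_pow, ← pow_mul]
    exact mul_le_mul_of_nonneg_right b1 (by positivity)
  linarith [amgm (by positivity) (by positivity) a3]

theorem p2 {o c z κ a am Um u0 v σ r : ℝ} (o0 : 0 < o) (o1 : o ≤ 1) (hc : c = 1 - o ^ 2)
    (hz : 0 < z) (hκ : κ = z / 32) (hu : 0 < u0) (hv : 0 ≤ v) (v2 : v ^ 2 ≤ Um) (ha : |a| ≤ am)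
    (h2 : am * Um ≤ 1 / 8) (er : r = v ^ 2 / 4 - σ + u0 * v / 2) (r1 : |r| ≤ Um / 4) :
    -(2 * a * κ * (v ^ 2 / 4 - σ)) - am * κ * u0 * (1 + Um) - z * c / 16
      ≤ -(2 * a * κ * r * o) := by
  have κ0 : 0 < κ := by rw [hκ]; positivity
  have am0 : 0 ≤ am := (abs_nonneg a).trans ha
  have a1 : a * r ≥ -1 := by
    have : |a * r| ≤ 1 := by
      rw [abs_mul]
      linarith [mul_le_mul ha r1 (abs_nonneg _) am0]
    exact (abs_le.1 this).1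
  have a2 : 1 - o ≤ c := by rw [hc]; nlinarith
  have b1 : -c ≤ a * r * (1 - o) := by
    linarith [mul_le_mul_of_nonneg_right a1 (sub_nonneg.2 o1)]
  have a3 := mul_le_mul_of_nonneg_left b1 κ0.le
  have a4 : a * v ≤ am * (1 + Um) := by
    have b1 : v ≤ 1 + Um := by nlinarith
    exact (mul_le_mul_of_nonneg_right ((le_abs_self a).trans ha) hv).trans
      (mul_le_mul_of_nonneg_left b1 am0)
  have a5 := mul_le_mul_of_nonneg_left a4 (mul_pos κ0 hu).le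
  have e : 2 * a * κ * r = 2 * a * κ * (v ^ 2 / 4 - σ) + κ * u0 * (a * v) := by rw [er]; ring
  have e' : 2 * κ * c = z * c / 16 := by rw [hκ]; ring
  have e'' : 2 * a * κ * r * o = 2 * a * κ * r - 2 * (κ * (a * r * (1 - o))) := by ring
  linarith

theorem p3 {o L u0 v gN : ℝ} (c0 : 0 ≤ 1 - o ^ 2) (hL : 0 ≤ L) :
    L * ((v * gN - gN ^ 2) * o ^ 2) - L * u0 ^ 2 / 4 ≤ (u0 + v) * (L * gN) * o ^ 2 := by
  have a1 : (v * gN - gN ^ 2) * o ^ 2 - u0 ^ 2 / 4 ≤ (u0 + v) * gN * o ^ 2 := by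
    nlinarith [mul_nonneg (sq_nonneg (gN + u0 / 2)) (sq_nonneg o), mul_nonneg (sq_nonneg u0) c0]
  linarith [mul_le_mul_of_nonneg_left a1 hL]

theorem p4 {o c tv z u0 v g3 G3 : ℝ} (c0 : 0 ≤ c) (o2 : o ^ 2 ≤ 1) (tc : tv * o ^ 2 = c)
    (hz : 0 < z) (hG : 0 ≤ G3) (hg : g3 ^ 2 ≤ tv * G3) :
    (u0 + v) * g3 * o ^ 2 ≤ z * c / 8 + 4 * v ^ 2 * G3 / z + 4 * u0 ^ 2 * G3 / z := by
  have a1 : ((u0 + v) * g3 * o ^ 2) ^ 2 ≤ 4 * (z * c / 8) * (2 * (u0 + v) ^ 2 * G3 / z) := by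
    have e : 4 * (z * c / 8) * (2 * (u0 + v) ^ 2 * G3 / z) = (u0 + v) ^ 2 * (c * G3) := by
      field_simp; ring
    have b1 : g3 ^ 2 * o ^ 2 ≤ c * G3 := by
      rw [← tc]; linarith [mul_le_mul_of_nonneg_right hg (sq_nonneg o)]
    have b2 : g3 ^ 2 * o ^ 2 * o ^ 2 ≤ c * G3 :=
      (mul_le_of_le_one_right (by positivity) o2).trans b1
    rw [e]
    linarith [mul_le_mul_of_nonneg_left b2 (sq_nonneg (u0 + v))]
  have a2 := amgm (by positivity) (by positivity) a1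
  have a3 : 2 * (u0 + v) ^ 2 * G3 / z ≤ 4 * v ^ 2 * G3 / z + 4 * u0 ^ 2 * G3 / z := by
    rw [← add_div]
    refine div_le_div_of_nonneg_right ?_ hz.le
    linarith [mul_nonneg (sq_nonneg (u0 - v)) hG]
  linarith

/-- The gain of one step.  `tv = |dv|²`, `gN = ⟨dv, dN⟩`, `g3 = ⟨dv, da₃⟩`. -/
theorem net {W tv n z κ σ j a L gN g3 G3 u0 v am Um : ℝ} (hW : 1 ≤ W) (hW2 : W ^ 2 = 1 + tv)
    (hz : 0 < z) (hκ : κ = z / 32) (hu : 0 < u0) (hv : 0 ≤ v) (hUm : (u0 + v) ^ 2 ≤ Um)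
    (hσ : 0 ≤ σ) (hσ1 : 4 * σ ≤ Um) (ha : |a| ≤ am) (h1 : am ^ 2 * Um ≤ z / 8)
    (h2 : am * Um ≤ 1 / 8) (hL : 0 ≤ L) (h3 : L * Um ≤ z / 4) (hG : 0 ≤ G3)
    (hg : g3 ^ 2 ≤ tv * G3) :
    z / 4 * (1 - 1 / W ^ 2) + L * ((v * gN - gN ^ 2) / W ^ 2 + v ^ 2 / 4 * (1 - 1 / W ^ 2))
      - κ * j - 2 * a * κ * (v ^ 2 / 4 - σ) - (n * z ^ 2 + 16 * G3 / z) * (v ^ 2 / 4)
      - (L * u0 ^ 2 / 4 + am * κ * u0 * (1 + Um) + 4 * u0 ^ 2 * G3 / z) ≤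
    slow (u0 + v) W κ σ ((u0 + v) ^ 2 / 4 - u0 ^ 2 / 4 - σ) j a (-L * gN + g3)
      + zg n z (u0 + v) W v a := by
  have W0 : 0 < W := by linarith
  have U0 : 0 < u0 + v := by linarith
  have κ0 : 0 < κ := by rw [hκ]; positivity
  have a0 := abs_nonneg a
  have am0 : 0 ≤ am := a0.trans ha
  obtain ⟨o, ho⟩ : ∃ o, o = 1 / W := ⟨_, rfl⟩
  have o0 : 0 < o := by rw [ho]; positivity
  have o1 : o ≤ 1 := by rw [ho]; exact (div_le_one W0).2 hW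
  have o2 : o ^ 2 ≤ 1 := pow_le_one₀ o0.le o1
  have oW : o * W = 1 := by rw [ho]; field_simp
  have e2 : 1 / W ^ 2 = o ^ 2 := by rw [ho]; field_simp
  obtain ⟨c, hc⟩ : ∃ c, c = 1 - o ^ 2 := ⟨_, rfl⟩
  have c0 : 0 ≤ c := by linarith
  have tc : tv * o ^ 2 = c := by
    have : tv = W ^ 2 - 1 := by linarith
    rw [this, hc]; linear_combination (o * W + 1) * oW
  have d1 : ∀ x : ℝ, x / W = x * o := fun x => by rw [ho]; field_simp
  have d2 : ∀ x : ℝ, x / W ^ 2 = x * o ^ 2 := fun x => by rw [← e2]; field_simp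
  obtain ⟨r, hr⟩ : ∃ r, r = (u0 + v) ^ 2 / 4 - u0 ^ 2 / 4 - σ := ⟨_, rfl⟩
  have er : r = v ^ 2 / 4 - σ + u0 * v / 2 := by rw [hr]; ring
  have uv := mul_nonneg hu.le hv
  have v2 : v ^ 2 ≤ Um := by nlinarith [sq_nonneg u0]
  have r1 : |r| ≤ Um / 4 :=
    abs_le.2 ⟨by linarith [sq_nonneg v], by linarith [sq_nonneg u0]⟩
  have q1 := p1 hW U0 o1 hc c0 hz hUm ha h1
  have q2 := p2 o0 o1 hc hz hκ hu hv v2 ha h2 er r1
  have q3 := p3 (o := o) (u0 := u0) (v := v) (gN := gN) (by linarith) hL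
  have q4 := p4 (u0 := u0) (v := v) c0 o2 tc hz hG hg
  have q5 : a ^ 2 * (u0 + v) ^ 2 * c ≤ z / 8 * c := by
    have : a ^ 2 ≤ am ^ 2 := by rw [← sq_abs]; exact pow_le_pow_left₀ a0 ha 2
    exact mul_le_mul_of_nonneg_right
      ((mul_le_mul this hUm (sq_nonneg _) (sq_nonneg _)).trans h1) c0
  have q6 : |a| * (u0 + v) ^ 2 * (z * c) ≤ 1 / 8 * (z * c) :=
    mul_le_mul_of_nonneg_right ((mul_le_mul ha hUm (sq_nonneg _) am0).trans h2) (by positivity)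
  have q7 : L * v ^ 2 * c ≤ z / 4 * c :=
    mul_le_mul_of_nonneg_right ((mul_le_mul_of_nonneg_left v2 hL).trans h3) c0
  have n1 : 0 ≤ 3 / 8 * κ * c := by positivity
  have n2 : 0 ≤ 7 / 8 * κ ^ 2 * r ^ 2 / ((u0 + v) ^ 2 / 4) := by positivity
  have n3 : 0 ≤ κ * σ * (1 - o) / ((u0 + v) ^ 2 / 4) :=
    div_nonneg (mul_nonneg (by positivity) (by linarith)) (by positivity)
  have zc : 0 ≤ z * c := by positivity
  have e3 : 16 * G3 / z * (v ^ 2 / 4) = 4 * v ^ 2 * G3 / z := by ring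
  unfold slow zg
  rw [← hr, e2, ← ho, ← hc, d1, d2, d2]
  linarith

/-- the telescoping of the square of the deviation -/
theorem tele {k t x Y d ε D : ℝ} (hl : 0 ≤ k) (ht : 0 < t) (hx : |x - Y| ≤ ε * D)
    (hd : |d| ≤ ε * t) :
    k * t * ((Y + d / t) ^ 2 - Y ^ 2) ≤ 2 * k * x * d + k * t * ε ^ 2 * (2 * D + 1) := by
  have e : k * t * ((Y + d / t) ^ 2 - Y ^ 2) = k * (2 * Y * d + d ^ 2 / t) := by
    field_simp; ring
  have h1 : -((x - Y) * d) ≤ ε * D * (ε * t) :=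
    (neg_le_abs _).trans (by
      rw [abs_mul]; exact mul_le_mul hx hd (abs_nonneg _) ((abs_nonneg _).trans hx))
  have h2 : d ^ 2 / t ≤ ε ^ 2 * t := by
    rw [div_le_iff₀ ht]
    have : d ^ 2 ≤ (ε * t) ^ 2 := by rw [← sq_abs]; exact pow_le_pow_left₀ (abs_nonneg _) hd 2
    linarith
  have h3 : 2 * Y * d + d ^ 2 / t ≤ 2 * x * d + t * ε ^ 2 * (2 * D + 1) := by linarith
  rw [e]
  linarith [mul_le_mul_of_nonneg_left h3 hl]

/-- the cost `c S exp (2 δ S)` -/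
def cost (c δ S : ℝ) : ℝ := c * S * Real.exp (2 * δ * S)

theorem cost_step {c δ S d : ℝ} (hc : 0 ≤ c) (hδ : 0 ≤ δ) (hS : 0 ≤ S) (hd : 0 ≤ d) :
    cost c δ S + c * d * Real.exp (2 * δ * S) ≤ cost c δ (S + d) := by
  have h1 : Real.exp (2 * δ * S) ≤ Real.exp (2 * δ * (S + d)) :=
    Real.exp_le_exp.2 (by nlinarith)
  have h2 := mul_le_mul_of_nonneg_left h1 (show 0 ≤ c * (S + d) by positivity)
  unfold cost; linarith

theorem exp_le_two {x : ℝ} (h : x ≤ 3 / 5) : Real.exp x ≤ 2 := by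
  have h1 : (3 : ℝ) / 5 ≤ Real.log 2 := by linarith [Real.log_two_gt_d9]
  exact (Real.exp_le_exp.2 (h.trans h1)).trans_eq (Real.exp_log two_pos)

/-- the cost is paid by `η / 4` or by half of the gain `R` -/
theorem cost_le {c η δ S R Wo Sm α : ℝ} (hc : 0 ≤ c) (hδ : 0 ≤ δ) (hδ1 : δ ≤ 1 / 100) (hS : 0 ≤ S)
    (hSm : S ≤ Sm) (hα : α ≤ 14) (hη0 : 0 ≤ η) (hη : 16 * c * α ≤ η) (hW : 0 < Wo)
    (hW1 : 4 * c * Real.exp (2 * δ * Sm) ≤ Wo) (hR : 0 ≤ R) (h : S ≤ α + R / Wo) :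
    cost c δ S ≤ η / 4 + R / 2 := by
  unfold cost
  rcases le_total S (2 * α) with h1 | h1
  · have h2 : Real.exp (2 * δ * S) ≤ 2 := exp_le_two (by nlinarith)
    have h3 : S * Real.exp (2 * δ * S) ≤ 2 * α * 2 :=
      mul_le_mul h1 h2 (Real.exp_pos _).le (by linarith)
    linarith [mul_le_mul_of_nonneg_left h3 hc]
  · have h2 : S * Wo ≤ 2 * R := by
      have a1 : S / 2 ≤ R / Wo := by linarith
      rw [le_div_iff₀ hW] at a1; linarith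
    have h3 : 4 * c * Real.exp (2 * δ * S) ≤ Wo :=
      (mul_le_mul_of_nonneg_left (Real.exp_le_exp.2 (by nlinarith)) (by positivity)).trans hW1
    linarith [mul_le_mul_of_nonneg_left h3 hS]

/-- the end of a round -/
theorem round_sq {w ε : ℝ} (e e' : ℝ) (hw : 0 ≤ w) (hε : 0 ≤ ε) :
    w * (1 + ε) * e' ^ 2 ≤ w * ε * e ^ 2 + w * ((1 + ε) * e' - ε * e) ^ 2 := by
  have : 0 ≤ w * (ε * (1 + ε) * (e - e') ^ 2) := by positivity
  linarith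

end Crest.Agent.N228.A.GL

end
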