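import Crest.Agent.N228.A.GL0
import Crest.Agent.N222.A.Stage0

/-! # Row 228, part A*: the basic invariant of `GL` and the calculus of one step (helper89) -/

set_option autoImplicit false
set_option linter.dupNamespace false
open Filter Set

noncomputable section

namespace Crest.Agent.N228.A.GL

open Crest.Agent.N222.A

section Pt

variable {Z : Type} {A : Alg Z} {T T' : Pt A} {v N : Z → ℝ} {k : ℝ}

theorem sm_q (hv : A.Sm v) : A.Sm fun x => v x ^ 2 / 4 := Alg.div_const (Alg.pow hv 2) 4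

theorem gam_q (T : Pt A) (hv : A.Sm v) {h : Z → ℝ} (hh : A.Sm h) :
    T.Γ (fun x => v x ^ 2 / 4) h = v T.p / 2 * T.Γ v h := by
  rw [T.chain (φ := fun t => t ^ 2 / 4) hv (sm_q hv) hh ((hasDerivAt_pow 2 (v T.p)).div_const 4)]
  congr 1
  simp; ring

theorem gam_qq (T : Pt A) (hv : A.Sm v) :
    T.Γ (fun x => v x ^ 2 / 4) (fun x => v x ^ 2 / 4) = T.Γ v v * (v T.p ^ 2 / 4) := by
  rw [gam_q T hv (sm_q hv), T.symm hv (sm_q hv), gam_q T hv hv]; ring

theorem gam_new (hv : A.Sm v) (hN : A.Sm N)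
    (e : ∀ f h, A.Sm f → A.Sm h →
      T'.Γ f h = k * (T.Γ f h - T.Γ v f * T.Γ v h / (1 + T.Γ v v))) :
    T'.Γ (fun x => N x + v x ^ 2 / 4) (fun x => N x + v x ^ 2 / 4) =
      k * (T.Γ N N + ((v T.p * T.Γ v N - T.Γ v N ^ 2) / (1 + T.Γ v v)
        + v T.p ^ 2 / 4 * (1 - 1 / (1 + T.Γ v v)))) := by
  have t1 : 0 < 1 + T.Γ v v := by linarith [T.nonneg hv]
  have s := A.add hN (sm_q hv)
  rw [e _ _ s s, T.add_self hN (sm_q hv), gam_qq T hv, T.add_right hN (sm_q hv) hv,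
    T.symm hN (sm_q hv), T.symm hv (sm_q hv), gam_q T hv hN, gam_q T hv hv]
  field_simp
  ring

theorem gam_vv (hv : A.Sm v)
    (e : ∀ f h, A.Sm f → A.Sm h →
      T'.Γ f h = k * (T.Γ f h - T.Γ v f * T.Γ v h / (1 + T.Γ v v))) :
    T'.Γ v v = k * (1 - 1 / (1 + T.Γ v v)) := by
  have t1 : 0 < 1 + T.Γ v v := by linarith [T.nonneg hv]
  rw [e _ _ hv hv]; field_simp; ring

theorem gam_sq_le (T : Pt A) {f : Z → ℝ} (hf : A.Sm f) (h1 : f T.p ^ 2 ≤ 1) :
    T.Γ (fun x => f x ^ 2) (fun x => f x ^ 2) ≤ 4 * T.Γ f f := by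
  rw [T.chain_self (φ := fun t => t ^ 2) hf (Alg.pow hf 2)
    (by simpa using hasDerivAt_pow 2 (f T.p))]
  nlinarith [T.nonneg hf]

theorem gam_cut_le (T : Pt A) {f : Z → ℝ} (hf : A.Sm f) :
    T.Γ (fun x => cut (f x)) (fun x => cut (f x)) ≤ cc ^ 2 * T.Γ f f := by
  rw [T.chain_self (φ := cut) hf (Alg.cut hf) (hasDerivAt_cut _)]
  exact mul_le_mul_of_nonneg_right (deriv_cut_sq_le _) (T.nonneg hf)

theorem gam_smul (T : Pt A) (c : ℝ) {f : Z → ℝ} (hf : A.Sm f) :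
    T.Γ (fun x => c * f x) (fun x => c * f x) = c ^ 2 * T.Γ f f := by
  rw [T.smul_left c hf (Alg.smul c hf), T.smul_right c hf hf]; ring

theorem gam_sub_le (T : Pt A) {f h : Z → ℝ} (hf : A.Sm f) (hh : A.Sm h) :
    T.Γ (fun x => f x - h x) (fun x => f x - h x) ≤ 2 * T.Γ f f + 2 * T.Γ h h := by
  have := T.quad hf hh 1 1
  rw [T.sub_left hf hh (Alg.sub hf hh), T.sub_right hf hh hf, T.sub_right hf hh hh, T.symm hh hf]
  linarith

theorem gam_one_sub (T : Pt A) {f : Z → ℝ} (hf : A.Sm f) :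
    T.Γ (fun x => 1 - f x) (fun x => 1 - f x) = T.Γ f f := by
  have s := Alg.const_sub 1 hf
  rw [T.sub_left (A.const 1) hf s, T.const_left 1 s, T.sub_right (A.const 1) hf hf,
    T.const_right 1 hf]
  ring

/-- Fisher information of `ζ ² P` -/
theorem fi_cut (T : Pt A) {ζ P : Z → ℝ} (hζ : A.Sm ζ) (hP : A.Sm P) {J B : ℝ}
    (h1 : ζ T.p ^ 2 ≤ 1) (J0 : 0 ≤ J) (P0 : 0 ≤ P T.p) (hJ : T.Γ P P ≤ J * P T.p)
    (hB : T.Γ ζ ζ ≤ B) :
    T.Γ (fun x => ζ x ^ 2 * P x) (fun x => ζ x ^ 2 * P x) ≤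
      (2 * J + 8 * B * P T.p) * (ζ T.p ^ 2 * P T.p) := by
  have a1 := T.mul_self_le (Alg.pow hζ 2) hP
  have a2 := T.chain_self (φ := fun t => t ^ 2) hζ (Alg.pow hζ 2)
    (by simpa using hasDerivAt_pow 2 (ζ T.p))
  have a3 := mul_le_mul_of_nonneg_left hJ (sq_nonneg (ζ T.p ^ 2))
  have a4 := mul_le_mul_of_nonneg_left hB (mul_nonneg (sq_nonneg (ζ T.p)) (sq_nonneg (P T.p)))
  have a5 := mul_le_mul_of_nonneg_left h1
    (mul_nonneg (sq_nonneg (ζ T.p)) (mul_nonneg J0 P0))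
  rw [a2] at a1
  linarith

end Pt

variable {n : ℝ} {G : Type} [Fintype G] [DecidableEq G]

theorem tot_upd {Z : Type} (P : G → Z → ℝ) (g : G) (v : Z → ℝ) :
    tot (upd P g v) = fun x => tot P x + v x ^ 2 / 4 := by
  funext x
  simpa [tot] using sum_upd (fun _ => 1) P g v x

omit [Fintype G] in
theorem upd_self {Z : Type} (P : G → Z → ℝ) (g : G) (v : Z → ℝ) :
    upd P g v g = fun x => P g x + v x ^ 2 / 4 := by
  funext x; simp [upd]

omit [Fintype G] in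
theorem upd_ne {Z : Type} (P : G → Z → ℝ) {g g' : G} (h : g' ≠ g) (v : Z → ℝ) :
    upd P g v g' = P g' := by
  funext x; simp [upd, h]

/-- the basic invariant -/
structure Base (W : Wd n) (δ Bw : ℝ) (st0 : W.St) (P0 : G → W.Z → ℝ) (st : W.St)
    (P : G → W.Z → ℝ) (S : W.Z → ℝ) (vs : List (W.Z → ℝ)) : Prop where
  R : W.R st0 st
  smP : ∀ g, W.A.Sm (P g)
  smS : W.A.Sm S
  ge : ∀ g x, P0 g x ≤ P g x
  nnS : ∀ x, 0 ≤ S x
  out : ∀ x, 5 ≤ W.om x → S x = 0 ∧ ∀ g, P g x = 0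
  vs_sm : ∀ v ∈ vs, W.A.Sm v
  fisP : ∀ T : Pt W.A, T.Fi (fun g x => P g x - P0 g x) (T.bud vs)
  fisS : ∀ T : Pt W.A, T.Γ S S ≤ Bw * T.bud vs * S T.p
  le : ∀ x ∈ W.L, ∀ f, W.A.Sm f →
    (W.pt st x).Γ f f ≤ Real.exp (2 * δ * S x) * (W.pt st0 x).Γ f f
  bd : ∀ x ∈ W.L, Bd (W.pt st x) vs (Real.exp (2 * δ * S x))

theorem Base.step {W : Wd n} {δ Bw z w : ℝ} {st0 st st' : W.St} {P0 P : G → W.Z → ℝ}
    {S v : W.Z → ℝ} {vs : List (W.Z → ℝ)} (h : Base W δ Bw st0 P0 st P S vs)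
    (s0 : ∀ g, W.A.Sm (P0 g)) (g : G) (hδ : 0 ≤ δ) (hw0 : 0 ≤ w) (hw : w ≤ Bw) (hz : z ≤ δ * w)
    (hR : W.R st st') (hv : W.A.Sm v) (vo : ∀ x, 5 ≤ W.om x → v x = 0)
    (e : ∀ x ∈ W.L, ∀ f h, W.A.Sm f → W.A.Sm h → (W.pt st' x).Γ f h = Real.exp (z * v x ^ 2 / 2) *
      ((W.pt st x).Γ f h - (W.pt st x).Γ v f * (W.pt st x).Γ v h / (1 + (W.pt st x).Γ v v))) :
    Base W δ Bw st0 P0 st' (upd P g v) (fun x => S x + w * (v x ^ 2 / 4)) (v :: vs) := by
  have hk : ∀ x, Real.exp (z * v x ^ 2 / 2) * Real.exp (2 * δ * S x) ≤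
      Real.exp (2 * δ * (S x + w * (v x ^ 2 / 4))) := fun x => by
    rw [← Real.exp_add]
    exact Real.exp_le_exp.2 (by linarith [mul_le_mul_of_nonneg_right hz (sq_nonneg (v x))])
  have sq : W.A.Sm fun x => w * (v x ^ 2 / 4) := Alg.smul w (sm_q hv)
  refine ⟨W.R_trans h.R hR, sm_upd h.smP g hv, W.A.add h.smS sq,
    fun g' x => (h.ge g' x).trans (le_upd P g v g' x),
    fun x => add_nonneg (h.nnS x) (by positivity), fun x hx => ?_, fun u hu => ?_, fun T => ?_,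
    fun T => ?_, fun x hx f hf => ?_, fun x hx => ?_⟩
  · simp [upd, (h.out x hx).1, (h.out x hx).2, vo x hx]
  · rcases List.mem_cons.1 hu with rfl | hu
    · exact hv
    · exact h.vs_sm u hu
  · have := fi_upd (h.fisP T) (fun g => Alg.sub (h.smP g) (s0 g))
      (fun g => sub_nonneg.2 (h.ge g _)) g hv
    have e' : upd (fun g x => P g x - P0 g x) g v = fun g' x => upd P g v g' x - P0 g' x := by
      funext g' x; simp only [upd]; ring
    rwa [e', ← T.bud_cons] at this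
  · have b0 := T.bud_nonneg h.vs_sm
    have t0 := T.nonneg hv
    have := T.fi_add (j := Bw * T.bud vs) (k := Bw * T.Γ v v) h.smS sq (h.nnS _) (by positivity)
      (mul_nonneg (hw0.trans hw) b0) (mul_nonneg (hw0.trans hw) t0) (h.fisS T) (by
        rw [gam_smul T w (sm_q hv), gam_qq T hv]
        linarith [mul_le_mul_of_nonneg_right hw
          (show 0 ≤ T.Γ v v * (w * (v T.p ^ 2 / 4)) by positivity)])
    rw [T.bud_cons]
    linarith
  · refine (step_le (Real.exp_pos _).le hv (e x hx f f hf hf)).trans ?_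
    refine (mul_le_mul_of_nonneg_left (h.le x hx f hf) (Real.exp_pos _).le).trans ?_
    rw [← mul_assoc]
    exact mul_le_mul_of_nonneg_right (hk x) ((W.pt st0 x).nonneg hf)
  · exact ((h.bd x hx).step (Real.one_le_exp (by have := h.nnS x; positivity))
      (Real.exp_pos _).le h.vs_sm hv (e x hx)).mono (hk x)

/-- the Fisher numbers after a step -/
theorem J_step {Z : Type} {A : Alg Z} {T T' : Pt A} {v : Z → ℝ} {k : ℝ} {P : G → Z → ℝ}
    {J : G → ℝ} (hp : T'.p = T.p) (hk : 0 ≤ k) (hv : A.Sm v) (sP : ∀ g, A.Sm (P g))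
    (P0 : ∀ g, 0 ≤ P g T.p) (hJ : ∀ g, 0 ≤ J g ∧ T.Γ (P g) (P g) ≤ J g * P g T.p)
    (e : ∀ f h, A.Sm f → A.Sm h →
      T'.Γ f h = k * (T.Γ f h - T.Γ v f * T.Γ v h / (1 + T.Γ v v))) (g g' : G) :
    0 ≤ k * (J g' + if g' = g then 1 - 1 / (1 + T.Γ v v) else 0) ∧
      T'.Γ (upd P g v g') (upd P g v g') ≤
        k * (J g' + if g' = g then 1 - 1 / (1 + T.Γ v v) else 0) * upd P g v g' T.p := by
  have t0 := T.nonneg hv
  have c0 : 0 ≤ 1 - 1 / (1 + T.Γ v v) := sub_nonneg.2 ((div_le_one (by linarith)).2 (by linarith))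
  have h1 : T'.Γ (P g') (P g') ≤ k * J g' * P g' T.p := by
    rw [mul_assoc]
    exact (step_le hk hv (e _ _ (sP g') (sP g'))).trans (mul_le_mul_of_nonneg_left (hJ g').2 hk)
  by_cases hg : g' = g
  · subst hg
    rw [if_pos rfl, upd_self]
    refine ⟨mul_nonneg hk (add_nonneg (hJ g').1 c0), ?_⟩
    have := T'.fi_add (j := k * J g') (k := k * (1 - 1 / (1 + T.Γ v v))) (sP g') (sm_q hv)
      (hp ▸ P0 g') (by positivity) (mul_nonneg hk (hJ g').1) (mul_nonneg hk c0) (hp ▸ h1)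
      (by rw [gam_qq T' hv, gam_vv hv e])
    rw [hp] at this
    linarith
  · rw [if_neg hg, upd_ne P hg, add_zero]
    exact ⟨mul_nonneg hk (hJ g').1, h1⟩

/-- the weighted sum of the Fisher numbers after a step -/
theorem sum_J {s : Finset G} {g : G} (hg : g ∉ s) (A A0 k c : ℝ) (J : G → ℝ) :
    ∑ g', (if g' ∈ insert g s then A else A0) * (k * (J g' + if g' = g then c else 0)) =
      k * (∑ g', (if g' ∈ s then A else A0) * J g' - (A0 - A) * J g + A * c) := by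
  rw [Stg.sum_off (fun g' => k * ((if g' ∈ s then A else A0) * J g')) _ g
    (fun g' hg' => by simp [hg']; split_ifs <;> ring), ← Finset.mul_sum]
  simp [hg]; ring

end Crest.Agent.N228.A.GL

end
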