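import Crest.Agent.N228.A.GL1

/-! # Row 228, part A*: one round of `GL` (helper89) -/

set_option autoImplicit false
set_option linter.dupNamespace false
open Filter Set

noncomputable section

namespace Crest.Agent.N228.A.GL

open Crest.Agent.N222.A

/-- the constants of a round -/
structure RC (δ D τ Fm Sm Bw : ℝ) where
  (t z A0 L l2 ε w e0 e1 u0 am Um : ℝ)
  ht : 0 < t
  hz : 0 < z
  hL : 0 ≤ L
  hl2 : 0 ≤ l2
  hε : 0 ≤ ε
  hε1 : ε ≤ 1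
  hu : 0 < u0
  he1 : 0 < e1
  he0 : 0 ≤ e0
  hw0 : 0 ≤ w
  hwB : w ≤ Bw
  hA : z * ε / 16 ≤ A0 - z / 4
  hw : z ≤ δ * w
  hUm : u0 ^ 2 + 4 * (ε * t) ≤ Um
  ham : L * t * (2 * D + 1) + l2 ≤ am
  h1 : am ^ 2 * Um ≤ z / 8
  h2 : am * Um ≤ 1 / 8
  h3 : L * Um ≤ z / 4
  wall : cw * (Real.exp (2 * δ * Sm) * τ) ≤ z / 32
  err : e1 + (L * u0 ^ 2 / 4 + am * (z / 32) * u0 * (1 + Um)
      + 4 * u0 ^ 2 * (Real.exp (2 * δ * Sm) * (8 * (L * t) ^ 2 * τ + 2 * l2 ^ 2 * Fm)) / z)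
    + z / 32 * (ε * (8 * (cc ^ 2 * (Real.exp (2 * δ * Sm) * τ)) * t))
    + L * t * (z / 32) * t * ε ^ 2 * (2 * D + 1) ≤ e0

variable {n : ℝ} {G : Type} [Fintype G] [DecidableEq G]

/-- the fixed data -/
structure Ctx (W : Wd n) (δ D τ Fm : ℝ) (st0 : W.St) (P0 f : G → W.Z → ℝ) (ϖ F : W.Z → ℝ) :
    Prop where
  hn : 0 ≤ n
  hδ : 0 ≤ δ
  hτ : 0 ≤ τ
  hD : (Fintype.card G : ℝ) ≤ D
  s0 : ∀ g, W.A.Sm (P0 g)
  n0 : ∀ g x, 0 ≤ P0 g x
  sf : ∀ g, W.A.Sm (f g)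
  f0 : ∀ g x, 0 ≤ f g x ∧ f g x ≤ 1
  sϖ : W.A.Sm ϖ
  ϖ0 : ∀ x, 0 ≤ ϖ x ∧ ϖ x ≤ 1 ∧ (ϖ x ≠ 0 → W.om x ≤ 0)
  gam : ∀ x ∈ W.L, (W.pt st0 x).Γ W.om W.om ≤ τ ∧ (W.pt st0 x).Γ ϖ ϖ ≤ τ ∧ 0 ≤ F x ∧ F x ≤ Fm ∧
    ∀ g, (W.pt st0 x).Γ (f g) (f g) ≤ F x

/-- the sources -/
def sg {Z : Type} (ε : ℝ) (om : Z → ℝ) (Ps : G → Z → ℝ) (g : G) (x : Z) : ℝ :=
  ε * (cut (1 - om x) ^ 2 * Ps g x)

/-- the deviation of the total mass -/
def Yv {Z : Type} (t : ℝ) (ϖ : Z → ℝ) (σ : G → Z → ℝ) (s : Finset G) (P : G → Z → ℝ) (x : Z) : ℝ :=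
  (tot P x - ∑ g ∈ s, σ g x) / t - ϖ x ^ 2

/-- the far mass -/
def Mv {Z : Type} (f σ : G → Z → ℝ) (s : Finset G) (P : G → Z → ℝ) (x : Z) : ℝ :=
  ∑ g, f g x * P g x - ∑ g ∈ s, f g x * σ g x

omit [Fintype G] [DecidableEq G] in
theorem sg_mem {Z : Type} {ε : ℝ} (hε : 0 ≤ ε) (om : Z → ℝ) {Ps : G → Z → ℝ} {g : G} {x : Z}
    (h : 0 ≤ Ps g x) : 0 ≤ sg ε om Ps g x ∧ sg ε om Ps g x ≤ ε * Ps g x :=
  ⟨mul_nonneg hε (mul_nonneg (sq_nonneg _) h), mul_le_mul_of_nonneg_left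
    (mul_le_of_le_one_left h (pow_le_one₀ (cut_nonneg _) (cut_le_one _))) hε⟩

omit [DecidableEq G] in
theorem sum_le_D {D b : ℝ} (hD : (Fintype.card G : ℝ) ≤ D) (hb : 0 ≤ b) (s : Finset G)
    {a : G → ℝ} (h : ∀ g, a g ≤ b) : ∑ g ∈ s, a g ≤ D * b := by
  refine (Finset.sum_le_card_nsmul s a b fun g _ => h g).trans ?_
  rw [nsmul_eq_mul]
  exact mul_le_mul_of_nonneg_right ((Nat.cast_le.2 (Finset.card_le_univ s)).trans hD) hb

variable {W : Wd n} {δ D τ Fm Sm Bw : ℝ} {st0 : W.St} {P0 f : G → W.Z → ℝ} {ϖ F : W.Z → ℝ}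

/-- the data at the start of a round -/
structure RStart (W : Wd n) (C : RC δ D τ Fm Sm Bw) (ϖ F : W.Z → ℝ) (Ps : G → W.Z → ℝ)
    (Ss B cx : W.Z → ℝ) : Prop where
  sm : ∀ g, W.A.Sm (Ps g)
  mem : ∀ g x, 0 ≤ Ps g x ∧ Ps g x ≤ C.t
  hS : ∀ x, Ss x + C.w * (D * (C.ε * C.t)) ≤ Sm
  rate : ∀ x ∈ W.L, 0 ≤ cx x ∧
    n * C.z ^ 2 + 16 * (8 * (C.L * C.t) ^ 2 * τ + 2 * C.l2 ^ 2 * F x) / C.z ≤ cx x * C.w
  pos : ∀ x ∈ W.L, ∀ Y S : ℝ, 0 ≤ S → S ≤ Sm →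
    S ≤ Ss x - C.w * tot Ps x + C.w * C.t * (Y + ϖ x ^ 2 + C.ε * D) →
    cost (cx x) δ S + C.e0 * D ≤ B x + C.L * C.t * (C.z / 32) * C.t * Y ^ 2

/-- the invariant inside a round -/
structure RInv (W : Wd n) (C : RC δ D τ Fm Sm Bw) (st0 : W.St) (P0 f : G → W.Z → ℝ)
    (ϖ : W.Z → ℝ) (Ps : G → W.Z → ℝ) (Ss B cx : W.Z → ℝ) (s : Finset G) (st : W.St)
    (P : G → W.Z → ℝ) (S : W.Z → ℝ) (vs : List (W.Z → ℝ)) (J : W.Z → G → ℝ) : Prop where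
  base : Base W δ Bw st0 P0 st P S vs
  eq : ∀ g ∉ s, P g = Ps g
  lo : ∀ g x, Ps g x ≤ P g x
  hi : ∀ g x, P g x ≤ Ps g x + C.ε * C.t
  K : ∀ x, S x - C.w * tot P x = Ss x - C.w * tot Ps x
  hJ : ∀ x ∈ W.L, ∀ g, 0 ≤ J x g ∧ (W.pt st x).Γ (P g) (P g) ≤ J x g * P g x
  pot : ∀ x ∈ W.L, B x + C.L * C.t * (C.z / 32) * C.t * Yv C.t ϖ (sg C.ε W.om Ps) s P x ^ 2
      + C.l2 * (C.z / 16) * Mv f (sg C.ε W.om Ps) s P x - cost (cx x) δ (S x) - C.e0 * s.card ≤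
    W.E st x - ∑ g, (if g ∈ s then C.z / 4 else C.A0) * J x g
      - C.L * (W.pt st x).Γ (tot P) (tot P)

variable {C : RC δ D τ Fm Sm Bw} {Ps : G → W.Z → ℝ} {Ss B cx : W.Z → ℝ}

omit [DecidableEq G] in
theorem S_le (hc : Ctx W δ D τ Fm st0 P0 f ϖ F) (hs : RStart W C ϖ F Ps Ss B cx)
    {P : G → W.Z → ℝ} {S : ℝ} {x : W.Z} (hi : ∀ g, P g x ≤ Ps g x + C.ε * C.t)
    (K : S - C.w * tot P x = Ss x - C.w * tot Ps x) : S ≤ Sm := by
  have h1 := sum_le_D hc.hD (mul_nonneg C.hε C.ht.le) Finset.univ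
    (a := fun g => P g x - Ps g x) fun g => by linarith [hi g]
  rw [Finset.sum_sub_distrib] at h1
  have h2 := mul_le_mul_of_nonneg_left h1 C.hw0
  have h3 := hs.hS x
  unfold tot at K
  linarith

omit [DecidableEq G] in
theorem sum_sg (hc : Ctx W δ D τ Fm st0 P0 f ϖ F) (hs : RStart W C ϖ F Ps Ss B cx) (s : Finset G)
    (x : W.Z) : 0 ≤ ∑ g ∈ s, sg C.ε W.om Ps g x ∧
      ∑ g ∈ s, sg C.ε W.om Ps g x ≤ D * (C.ε * C.t) :=
  ⟨Finset.sum_nonneg fun g _ => (sg_mem C.hε _ (hs.mem g x).1).1,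
    sum_le_D hc.hD (mul_nonneg C.hε C.ht.le) s fun g => (sg_mem C.hε _ (hs.mem g x).1).2.trans
      (mul_le_mul_of_nonneg_left (hs.mem g x).2 C.hε)⟩

omit [DecidableEq G] in
/-- the credit is non negative -/
theorem cred_nonneg (hc : Ctx W δ D τ Fm st0 P0 f ϖ F) (hs : RStart W C ϖ F Ps Ss B cx)
    (s : Finset G) {P : G → W.Z → ℝ} {S : ℝ} {x : W.Z} (hx : x ∈ W.L) (S0 : 0 ≤ S)
    (lo : ∀ g, Ps g x ≤ P g x) (hi : ∀ g, P g x ≤ Ps g x + C.ε * C.t)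
    (K : S - C.w * tot P x = Ss x - C.w * tot Ps x) :
    0 ≤ B x + C.L * C.t * (C.z / 32) * C.t * Yv C.t ϖ (sg C.ε W.om Ps) s P x ^ 2
      + C.l2 * (C.z / 16) * Mv f (sg C.ε W.om Ps) s P x - cost (cx x) δ S - C.e0 * s.card := by
  have h1 := hs.pos x hx (Yv C.t ϖ (sg C.ε W.om Ps) s P x) S S0 (S_le hc hs hi K) (by
    have a1 := mul_le_mul_of_nonneg_left (sum_sg hc hs s x).2 C.hw0
    have e : C.t * (Yv C.t ϖ (sg C.ε W.om Ps) s P x + ϖ x ^ 2)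
        = tot P x - ∑ g ∈ s, sg C.ε W.om Ps g x := by
      have := C.ht.ne'
      unfold Yv; field_simp; ring
    have e' := congrArg (C.w * ·) e
    linarith)
  have h2 : 0 ≤ Mv f (sg C.ε W.om Ps) s P x := by
    refine sub_nonneg.2 ((Finset.sum_le_sum_of_subset_of_nonneg (Finset.subset_univ s)
      fun g _ _ => mul_nonneg (hc.f0 g x).1 (sg_mem C.hε _ (hs.mem g x).1).1).trans
      (Finset.sum_le_sum fun g _ => mul_le_mul_of_nonneg_left ?_ (hc.f0 g x).1))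
    exact (sg_mem C.hε _ (hs.mem g x).1).2.trans
      ((mul_le_of_le_one_left (hs.mem g x).1 C.hε1).trans (lo g))
  have h3 : 0 ≤ C.l2 * (C.z / 16) * Mv f (sg C.ε W.om Ps) s P x :=
    mul_nonneg (mul_nonneg C.hl2 (by linarith [C.hz])) h2
  have h4 := mul_le_mul_of_nonneg_left ((Nat.cast_le.2 (Finset.card_le_univ s)).trans hc.hD) C.he0
  linarith

theorem fin_num {k c X E SJ L gN : ℝ} (hk : 1 ≤ k) (c0 : 0 ≤ c) (hE : k * X ≤ E)
    (h : c ≤ X - SJ - L * gN) : c ≤ E - k * SJ - L * (k * gN) := by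
  linarith [le_mul_of_one_le_left c0 hk, mul_le_mul_of_nonneg_left h (zero_le_one.trans hk)]

theorem rinv_step (hc : Ctx W δ D τ Fm st0 P0 f ϖ F) (hs : RStart W C ϖ F Ps Ss B cx)
    {s : Finset G} {st : W.St} {P : G → W.Z → ℝ} {S : W.Z → ℝ} {vs : List (W.Z → ℝ)}
    {J : W.Z → G → ℝ} (h : RInv W C st0 P0 f ϖ Ps Ss B cx s st P S vs J) {g : G} (hg : g ∉ s) :
    ∃ st' P' S' vs' J', RInv W C st0 P0 f ϖ Ps Ss B cx (insert g s) st' P' S' vs' J' := by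
  have ht := C.ht
  have hz := C.hz
  have hL := C.hL
  have hl2 := C.hl2
  have hε := C.hε
  have D0 : 0 ≤ D := (Nat.cast_nonneg _).trans hc.hD
  have sN : W.A.Sm (tot P) := Alg.sum _ fun g _ => h.base.smP g
  have P0' : ∀ g x, 0 ≤ P g x := fun g x => (hs.mem g x).1.trans (h.lo g x)
  have N0 : ∀ x, 0 ≤ tot P x := fun x => Finset.sum_nonneg fun g _ => P0' g x
  have sζ : W.A.Sm fun x => cut (1 - W.om x) := Alg.cut (Alg.const_sub 1 W.om_sm)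
  have sσ0 : W.A.Sm fun x => cut (1 - W.om x) ^ 2 * Ps g x := W.A.mul (Alg.pow sζ 2) (hs.sm g)
  have s31 : W.A.Sm fun x => C.L * C.t * ϖ x ^ 2 := Alg.smul _ (Alg.pow hc.sϖ 2)
  have s32 : W.A.Sm fun x => C.l2 * f g x := Alg.smul _ (hc.sf g)
  have s3 : W.A.Sm fun x => C.L * C.t * ϖ x ^ 2 - C.l2 * f g x := Alg.sub s31 s32
  have eS : ∀ x, Real.exp (2 * δ * S x) ≤ Real.exp (2 * δ * Sm) := fun x =>
    Real.exp_le_exp.2 (mul_le_mul_of_nonneg_left (S_le hc hs (fun g => h.hi g x) (h.K x))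
      (by linarith [hc.hδ]))
  have gom : ∀ x ∈ W.L, (W.pt st x).Γ W.om W.om ≤ Real.exp (2 * δ * Sm) * τ := fun x hx =>
    (h.base.le x hx _ W.om_sm).trans (mul_le_mul (eS x) (hc.gam x hx).1
      ((W.pt st0 x).nonneg W.om_sm) (Real.exp_pos _).le)
  have σm : ∀ x, 0 ≤ sg C.ε W.om Ps g x ∧ sg C.ε W.om Ps g x ≤ C.ε * C.t := fun x =>
    ⟨(sg_mem hε _ (hs.mem g x).1).1, (sg_mem hε _ (hs.mem g x).1).2.trans
      (mul_le_mul_of_nonneg_left (hs.mem g x).2 hε)⟩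
  obtain ⟨v, st', hR, sv, hv, vo, H⟩ := W.pstep st (fun _ => C.z / 32) (sg C.ε W.om Ps g)
    (fun x => -C.L * tot P x + (C.L * C.t * ϖ x ^ 2 - C.l2 * f g x)) (C.z / 32) C.z (C.ε * C.t)
    C.u0 C.e1 (W.A.const _) (Alg.smul _ sσ0) (W.A.add (Alg.smul _ sN) s3) (by positivity)
    (fun _ => le_rfl) hz.le σm (fun x hx => ⟨by simp [sg, cut_zero (sub_nonpos.2 hx)], by
      have h0 : ϖ x = 0 := by
        by_contra h0
        linarith [(hc.ϖ0 x).2.2 h0]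
      have := mul_nonneg hL (N0 x)
      have := mul_nonneg hl2 (hc.f0 g x).1
      rw [h0]; linarith⟩) C.hu C.he1 (fun x hx => by
      refine le_trans (mul_le_mul_of_nonneg_left (gom x hx) ?_) C.wall
      unfold cw; positivity)
  have hu := C.hu
  have q1 : ∀ x, v x ^ 2 / 4 ≤ C.ε * C.t := fun x => by
    nlinarith [(hv x).2, mul_nonneg hu.le (hv x).1]
  have lo' : ∀ g' x, Ps g' x ≤ upd P g v g' x := fun g' x => (h.lo g' x).trans (le_upd P g v g' x)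
  have hi' : ∀ g' x, upd P g v g' x ≤ Ps g' x + C.ε * C.t := fun g' x => by
    by_cases e : g' = g
    · subst e; rw [upd_self, h.eq g' hg]; linarith [q1 x]
    · rw [upd_ne P e]; exact h.hi g' x
  have K' : ∀ x, S x + C.w * (v x ^ 2 / 4) - C.w * tot (upd P g v) x
      = Ss x - C.w * tot Ps x := fun x => by rw [tot_upd, ← h.K x]; ring
  have hb := h.base.step hc.s0 g hc.hδ C.hw0 C.hwB C.hw hR sv vo fun x hx => (H x hx).1
  refine ⟨st', upd P g v, fun x => S x + C.w * (v x ^ 2 / 4), v :: vs,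
    fun x g' => Real.exp (C.z * v x ^ 2 / 2) *
      (J x g' + if g' = g then 1 - 1 / (1 + (W.pt st x).Γ v v) else 0), hb, fun g' hg' => ?_, lo',
    hi', K', fun x hx g' => ?_, fun x hx => ?_⟩
  · rw [Finset.mem_insert, not_or] at hg'
    rw [upd_ne P hg'.1, h.eq g' hg'.2]
  · have := J_step (T := W.pt st x) (T' := W.pt st' x) (J := J x) (by rw [W.pt_p, W.pt_p])
      (Real.exp_pos _).le sv h.base.smP (fun g => P0' g _)
      (fun g => by rw [W.pt_p]; exact h.hJ x hx g) (H x hx).1 g g'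
    rwa [W.pt_p] at this
  have c0 := cred_nonneg hc hs (insert g s) hx (hb.nnS x) (fun g => lo' g x) (fun g => hi' g x)
    (K' x)
  have hp := W.pt_p st x
  have old := h.pot x hx
  obtain ⟨g1, g2, F0, F1, g3⟩ := hc.gam x hx
  have hτ := hc.hτ
  -- the source
  have hj := fi_cut (W.pt st x) sζ (hs.sm g) (J := J x g)
    (B := cc ^ 2 * (Real.exp (2 * δ * Sm) * τ)) (pow_le_one₀ (cut_nonneg _) (cut_le_one _))
    (h.hJ x hx g).1 (hs.mem g _).1 (by rw [hp, ← h.eq g hg]; exact (h.hJ x hx g).2)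
    ((gam_cut_le _ (Alg.const_sub 1 W.om_sm)).trans (by
      rw [gam_one_sub _ W.om_sm]
      exact mul_le_mul_of_nonneg_left (gom x hx) (sq_nonneg _)))
  rw [hp] at hj
  have B0 : 0 ≤ 8 * (cc ^ 2 * (Real.exp (2 * δ * Sm) * τ)) := by positivity
  have J0 := (h.hJ x hx g).1
  have hE := (H x hx).2 (C.ε * (2 * J x g + 8 * (cc ^ 2 * (Real.exp (2 * δ * Sm) * τ)) * Ps g x))
    (by have := (hs.mem g x).1; positivity)
    (by rw [(W.pt st x).const_left _ (W.A.const _)]; positivity) (by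
      have := mul_le_mul_of_nonneg_left hj (sq_nonneg C.ε)
      rw [← gam_smul _ _ sσ0] at this
      exact this.trans_eq (by unfold sg; ring))
  have j1 := mul_le_mul_of_nonneg_left (mul_le_mul_of_nonneg_left
    (mul_le_mul_of_nonneg_left (hs.mem g x).2 B0) hε) (show 0 ≤ C.z / 32 by positivity)
  have j2 := mul_le_mul_of_nonneg_right C.hA J0
  -- the cross term
  have k1 : 1 ≤ Real.exp (2 * δ * S x) :=
    Real.one_le_exp (by have := h.base.nnS x; have := hc.hδ; positivity)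
  have G0 : 0 ≤ 8 * (C.L * C.t) ^ 2 * τ + 2 * C.l2 ^ 2 * F x := by positivity
  have hG : (W.pt st x).Γ (fun x => C.L * C.t * ϖ x ^ 2 - C.l2 * f g x)
      (fun x => C.L * C.t * ϖ x ^ 2 - C.l2 * f g x) ≤
      Real.exp (2 * δ * S x) * (8 * (C.L * C.t) ^ 2 * τ + 2 * C.l2 ^ 2 * F x) := by
    refine (h.base.le x hx _ s3).trans (mul_le_mul_of_nonneg_left ?_ (Real.exp_pos _).le)
    have a1 := gam_sub_le (W.pt st0 x) s31 s32
    rw [gam_smul _ _ (Alg.pow hc.sϖ 2), gam_smul _ _ (hc.sf g)] at a1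
    have a2 := gam_sq_le (W.pt st0 x) hc.sϖ (pow_le_one₀ (hc.ϖ0 _).1 (hc.ϖ0 _).2.1)
    have a3 := mul_le_mul_of_nonneg_left (a2.trans (mul_le_mul_of_nonneg_left g2 (by norm_num)))
      (sq_nonneg (C.L * C.t))
    have a4 := mul_le_mul_of_nonneg_left (g3 g) (sq_nonneg C.l2)
    linarith
  have t0 := (W.pt st x).nonneg sv
  have hcs := ((W.pt st x).cs sv s3).trans (mul_le_mul_of_nonneg_left hG t0)
  have N1 : tot P x ≤ D * (2 * C.t) := sum_le_D hc.hD (by positivity) _ fun g => by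
    linarith [h.hi g x, (hs.mem g x).2, mul_le_of_le_one_left ht.le C.hε1]
  have ϖ2 : ϖ x ^ 2 ≤ 1 := pow_le_one₀ (hc.ϖ0 _).1 (hc.ϖ0 _).2.1
  have ha : |-C.L * tot P x + (C.L * C.t * ϖ x ^ 2 - C.l2 * f g x)| ≤ C.am := by
    have a1 := mul_le_mul_of_nonneg_left N1 hL
    have a2 := mul_le_mul_of_nonneg_left ϖ2 (mul_nonneg hL ht.le)
    have a3 := mul_le_mul_of_nonneg_left (hc.f0 g x).2 hl2
    have a4 := mul_nonneg hL (N0 x)
    have a5 := mul_nonneg (mul_nonneg hL ht.le) (sq_nonneg (ϖ x))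
    have a6 := mul_nonneg hl2 (hc.f0 g x).1
    have a7 := mul_nonneg (mul_nonneg hL ht.le) D0
    have a8 := C.ham
    exact abs_le.2 ⟨by linarith, by linarith⟩
  have hnet := net (n := n) (W := √(1 + (W.pt st x).Γ v v)) (σ := sg C.ε W.om Ps g x)
    (j := C.ε * (2 * J x g + 8 * (cc ^ 2 * (Real.exp (2 * δ * Sm) * τ)) * Ps g x))
    (gN := (W.pt st x).Γ v (tot P)) (Real.one_le_sqrt.2 (by linarith))
    (Real.sq_sqrt (by linarith)) hz rfl hu (hv x).1 ((hv x).2.trans C.hUm) (σm x).1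
    (by linarith [(σm x).2, C.hUm, sq_nonneg C.u0]) ha C.h1 C.h2 hL C.h3 (by positivity) hcs
  rw [Real.sq_sqrt (by linarith)] at hnet
  rw [(W.pt st x).add_right (Alg.smul _ sN) s3 sv, (W.pt st x).smul_right _ sN sv] at hE
  -- the values
  have eY : Yv C.t ϖ (sg C.ε W.om Ps) (insert g s) (upd P g v) x =
      Yv C.t ϖ (sg C.ε W.om Ps) s P x + (v x ^ 2 / 4 - sg C.ε W.om Ps g x) / C.t := by
    unfold Yv; rw [tot_upd, Finset.sum_insert hg]; ring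
  have eM : Mv f (sg C.ε W.om Ps) (insert g s) (upd P g v) x =
      Mv f (sg C.ε W.om Ps) s P x + f g x * (v x ^ 2 / 4 - sg C.ε W.om Ps g x) := by
    unfold Mv; rw [sum_upd (fun g => f g x), Finset.sum_insert hg]; ring
  have htel := tele (k := C.L * C.t * (C.z / 32)) (x := tot P x / C.t - ϖ x ^ 2)
    (Y := Yv C.t ϖ (sg C.ε W.om Ps) s P x) (d := v x ^ 2 / 4 - sg C.ε W.om Ps g x) (ε := C.ε)
    (D := D) (by positivity) ht (by
      have e : tot P x / C.t - ϖ x ^ 2 - Yv C.t ϖ (sg C.ε W.om Ps) s P x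
          = (∑ g ∈ s, sg C.ε W.om Ps g x) / C.t := by unfold Yv; ring
      rw [e, abs_of_nonneg (div_nonneg (sum_sg hc hs s x).1 ht.le), div_le_iff₀ ht]
      linarith [(sum_sg hc hs s x).2])
    (abs_le.2 ⟨by linarith [(σm x).2, sq_nonneg (v x)], by linarith [(σm x).1, q1 x]⟩)
  have ea : 2 * (C.L * C.t * (C.z / 32)) * (tot P x / C.t - ϖ x ^ 2)
      = 2 * (C.L * tot P x - C.L * C.t * ϖ x ^ 2) * (C.z / 32) := by field_simp
  rw [ea] at htel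
  have hcost := cost_step (hs.rate x hx).1 hc.hδ (h.base.nnS x)
    (show 0 ≤ C.w * (v x ^ 2 / 4) from mul_nonneg C.hw0 (by positivity))
  have hrate : (n * C.z ^ 2 + 16 * (Real.exp (2 * δ * S x) *
      (8 * (C.L * C.t) ^ 2 * τ + 2 * C.l2 ^ 2 * F x)) / C.z) * (v x ^ 2 / 4) ≤
      cx x * (C.w * (v x ^ 2 / 4)) * Real.exp (2 * δ * S x) := by
    have a1 := mul_le_mul_of_nonneg_left (hs.rate x hx).2 (Real.exp_pos (2 * δ * S x)).le
    have a2 := le_mul_of_one_le_left (mul_nonneg hc.hn (sq_nonneg C.z)) k1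
    have a3 : n * C.z ^ 2 + 16 * (Real.exp (2 * δ * S x) *
        (8 * (C.L * C.t) ^ 2 * τ + 2 * C.l2 ^ 2 * F x)) / C.z ≤
        Real.exp (2 * δ * S x) * (cx x * C.w) := by
      refine le_trans ?_ a1
      generalize 8 * (C.L * C.t) ^ 2 * τ + 2 * C.l2 ^ 2 * F x = G0
      rw [mul_add, mul_div_assoc, mul_div_assoc, mul_div_assoc]
      linarith
    exact (mul_le_mul_of_nonneg_right a3 (by positivity)).trans_eq (by ring)
  have htiny : 4 * C.u0 ^ 2 * (Real.exp (2 * δ * S x) *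
      (8 * (C.L * C.t) ^ 2 * τ + 2 * C.l2 ^ 2 * F x)) / C.z ≤ 4 * C.u0 ^ 2 *
      (Real.exp (2 * δ * Sm) * (8 * (C.L * C.t) ^ 2 * τ + 2 * C.l2 ^ 2 * Fm)) / C.z := by
    refine div_le_div_of_nonneg_right (mul_le_mul_of_nonneg_left
      (mul_le_mul (eS x) ?_ G0 (Real.exp_pos _).le) (by positivity)) hz.le
    linarith [mul_le_mul_of_nonneg_left F1 (sq_nonneg C.l2)]
  have herr := C.err
  rw [sum_J hg, tot_upd, gam_new sv sN (H x hx).1, hp]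
  rw [Finset.card_insert_of_notMem hg, Nat.cast_add, Nat.cast_one] at c0 ⊢
  rw [eY, eM] at c0 ⊢
  have k2 : 1 ≤ Real.exp (C.z * v x ^ 2 / 2) := Real.one_le_exp (by positivity)
  exact fin_num k2 c0 hE (by linarith)

theorem round (hc : Ctx W δ D τ Fm st0 P0 f ϖ F) (hs : RStart W C ϖ F Ps Ss B cx)
    {st : W.St} {vs : List (W.Z → ℝ)} {J : W.Z → G → ℝ}
    (h : RInv W C st0 P0 f ϖ Ps Ss B cx ∅ st Ps Ss vs J) :
    ∃ st' P' S' vs' J', RInv W C st0 P0 f ϖ Ps Ss B cx Finset.univ st' P' S' vs' J' := by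
  generalize (Finset.univ : Finset G) = s
  induction s using Finset.induction_on with
  | empty => exact ⟨_, _, _, _, _, h⟩
  | insert g s hg ih =>
    obtain ⟨_, _, _, _, _, h'⟩ := ih
    exact rinv_step hc hs h' hg

end Crest.Agent.N228.A.GL

end
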