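import Crest.Agent.N228.A.GL2

/-! # Row 228, part A*: the rounds of `GL` (helper89) -/

set_option autoImplicit false
set_option linter.dupNamespace false
open Filter Set

noncomputable section

namespace Crest.Agent.N228.A.GL

open Crest.Agent.N222.A

/-- the global constants -/
structure GC (η δ D : ℝ) where
  (T W2 Wo lam il ρ e0 cm : ℝ)
  hT : 0 < T
  hη : 0 < η
  hδ1 : δ ≤ 1 / 100
  hW2 : 0 ≤ W2
  hWo : 0 < Wo
  hlam : 0 < lam
  hlam1 : lam ≤ 1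
  hil : lam * il = 1
  hρ : 1 ≤ ρ
  hρ5 : ρ ^ 5 - ρ ≤ 5 * (ρ - 1)
  hρ2 : ρ ^ 5 ≤ 2
  hcm : η / 224 ≤ cm
  hcl : 112 * cm * lam ≤ η
  hWc : 4 * cm * Real.exp (2 * δ * (6 * D)) ≤ Wo
  hεD : (ρ ^ 5 - 1) * D ≤ lam

/-- the coefficient of `|dN|²` -/
def GC.Lf {η δ D : ℝ} (K : GC η δ D) (ν : ℝ) : ℝ :=
  64 * K.Wo * K.il * (2 - ν) / (δ * K.T * K.ρ ^ 5 * ν ^ 8)

/-- the rate of the cost -/
def GC.cx {η δ D : ℝ} (K : GC η δ D) (ϖ : ℝ) : ℝ := if ϖ = 0 then K.cm else η / 224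

theorem GC.il1 {η δ D : ℝ} (K : GC η δ D) : 1 ≤ K.il := by
  have h0 : 0 < K.il := (mul_pos_iff_of_pos_left K.hlam).1 (K.hil ▸ one_pos)
  nlinarith [K.hil, K.hlam1]

theorem GC.abs_le {η δ D : ℝ} (K : GC η δ D) (e : ℝ) : 2 * |e| ≤ 2 * K.lam + K.il * e ^ 2 := by
  have h1 := K.il1
  have h2 : 0 ≤ K.il * (|e| - K.lam) ^ 2 := by positivity
  have h3 : K.il * (|e| - K.lam) ^ 2 = K.il * e ^ 2 - 2 * |e| + K.lam := by
    rw [← sq_abs e]; linear_combination (K.lam - 2 * |e|) * K.hil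
  linarith [K.hlam]

theorem GC.cost_le {η δ D : ℝ} (K : GC η δ D) (hδ : 0 ≤ δ) {ϖ S r : ℝ} (h1 : ϖ ^ 2 ≤ 1)
    (hS : 0 ≤ S) (hSm : S ≤ 6 * D) (hr : 0 ≤ r) (h : S ≤ 7 * ϖ ^ 2 + 7 * K.lam + r) :
    cost (K.cx ϖ) δ S ≤ η / 4 + K.Wo * r / 2 := by
  have hη := K.hη
  have c0 : 0 ≤ K.cx ϖ := by unfold GC.cx; split_ifs <;> linarith [K.hcm]
  have c1 : K.cx ϖ ≤ K.cm := by unfold GC.cx; split_ifs <;> linarith [K.hcm]
  refine GL.cost_le (α := 7 * ϖ ^ 2 + 7 * K.lam) (Wo := K.Wo) c0 hδ K.hδ1 hS hSm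
    (by linarith [K.hlam1]) hη.le ?_ K.hWo ?_ (mul_nonneg K.hWo.le hr) ?_
  · unfold GC.cx
    split_ifs with h0
    · rw [h0]; linarith [K.hcl]
    · nlinarith [K.hlam1]
  · linarith [K.hWc, mul_le_mul_of_nonneg_right c1 (Real.exp_pos (2 * δ * (6 * D))).le]
  · rw [mul_div_cancel_left₀ _ K.hWo.ne']; exact h

variable {n : ℝ} {G : Type} [Fintype G] [DecidableEq G] {W : Wd n} {η δ D τ Fm Bw : ℝ}
  {st0 : W.St} {P0 f : G → W.Z → ℝ} {ϖ F : W.Z → ℝ}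

/-- the invariant between two rounds -/
structure OInv (W : Wd n) (K : GC η δ D) (Bw : ℝ) (st0 : W.St) (P0 f : G → W.Z → ℝ) (ϖ : W.Z → ℝ)
    (ν k : ℝ) (st : W.St) (P : G → W.Z → ℝ) (S : W.Z → ℝ) (vs : List (W.Z → ℝ))
    (J : W.Z → G → ℝ) : Prop where
  base : Base W δ Bw st0 P0 st P S vs
  hP : ∀ g x, P g x ≤ K.T * (K.ρ * ν) ^ 5
  hS : ∀ x, S x ≤ 6 * D * (K.ρ * ν)
  hJ : ∀ x ∈ W.L, ∀ g, 0 ≤ J x g ∧ (W.pt st x).Γ (P g) (P g) ≤ J x g * P g x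
  pot : ∀ x ∈ W.L, ∃ h, 0 ≤ h ∧
    S x - 1 / (K.T * ν ^ 4) * tot P x ≤ 5 * (ϖ x ^ 2 + K.lam) * ν + h ∧
    W.E st0 x - η / 4 - k + K.Wo * h
      + 2 * K.Wo * K.il * (2 - ν) * (tot P x / (K.T * (K.ρ * ν) ^ 5) - ϖ x ^ 2) ^ 2
      + K.W2 * ((∑ g, f g x * P g x) / (K.T * (K.ρ * ν) ^ 5)) - cost (K.cx (ϖ x)) δ (S x) ≤
    W.E st x - δ / (K.T * ν ^ 2) / 4 * ∑ g, J x g - K.Lf ν * (W.pt st x).Γ (tot P) (tot P)

/-- the constants of the round `μ = ρ ν` -/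
structure Fit (n : ℝ) (K : GC η δ D) (C : RC δ D τ Fm (6 * D) Bw) (Fa Fb ν : ℝ) : Prop where
  t : C.t = K.T * (K.ρ * ν) ^ 5
  z : C.z = δ / (K.T * (K.ρ * ν) ^ 2)
  A0 : C.A0 = δ / (K.T * ν ^ 2) / 4
  L : C.L = K.Lf (K.ρ * ν)
  l2 : C.l2 * (C.z / 16) * C.t * K.ρ ^ 5 = K.W2
  ε : C.ε = K.ρ ^ 5 - 1
  w : C.w = 1 / (K.T * (K.ρ * ν) ^ 4)
  e0 : C.e0 = K.e0
  ra : n * C.z ^ 2 + 16 * (8 * (C.L * C.t) ^ 2 * τ + 2 * C.l2 ^ 2 * Fa) / C.z ≤ η / 224 * C.w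
  rb : n * C.z ^ 2 + 16 * (8 * (C.L * C.t) ^ 2 * τ + 2 * C.l2 ^ 2 * Fb) / C.z ≤ K.cm * C.w

theorem GC.Lf_anti (K : GC η δ D) (hδ : 0 < δ) {ν μ : ℝ} (hν : 0 < ν) (h : ν ≤ μ) (h1 : μ ≤ 1) :
    K.Lf μ ≤ K.Lf ν := by
  have := K.hT
  have := K.hWo
  have := K.il1
  have := K.hρ
  unfold GC.Lf
  refine div_le_div₀ (mul_nonneg (by positivity) (by linarith))
    (mul_le_mul_of_nonneg_left (by linarith) (by positivity)) (by positivity) ?_
  exact mul_le_mul_of_nonneg_left (pow_le_pow_left₀ hν.le h 8) (by positivity)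

theorem oround (hc : Ctx W δ D τ Fm st0 P0 f ϖ F) (K : GC η δ D) (hδ : 0 < δ)
    {C : RC δ D τ Fm (6 * D) Bw} {Fa Fb ν k : ℝ} (hC : Fit n K C Fa Fb ν) (hν : 0 < ν)
    (hν1 : K.ρ * (K.ρ * ν) ≤ 1) (hF : ∀ x, F x = if ϖ x = 0 then Fb else Fa)
    (hE : ∀ x ∈ W.L, 2 * η ≤ W.E st0 x) (hk : k + K.e0 * D ≤ η / 4) {st : W.St}
    {P : G → W.Z → ℝ} {S : W.Z → ℝ} {vs : List (W.Z → ℝ)} {J : W.Z → G → ℝ}
    (h : OInv W K Bw st0 P0 f ϖ ν k st P S vs J) :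
    ∃ st' P' S' vs' J', OInv W K Bw st0 P0 f ϖ (K.ρ * ν) (k + K.e0 * D) st' P' S' vs' J' := by
  obtain ⟨μ, hμ⟩ : ∃ μ, μ = K.ρ * ν := ⟨_, rfl⟩
  have hT := K.hT
  have hρ := K.hρ
  have hWo := K.hWo
  have il1 := K.il1
  have hlam := K.hlam
  have hη := K.hη
  have νμ : ν ≤ μ := hμ ▸ le_mul_of_one_le_left hν.le hρ
  have μ0 : 0 < μ := hν.trans_le νμ
  rw [← hμ] at hν1
  have μ1 : μ ≤ 1 := (le_mul_of_one_le_left μ0.le hρ).trans hν1
  have D0 : 0 ≤ D := (Nat.cast_nonneg _).trans hc.hD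
  have ht := C.ht
  have hε := C.hε
  have et : C.t = K.T * μ ^ 5 := hμ ▸ hC.t
  have ew : C.w = 1 / (K.T * μ ^ 4) := hμ ▸ hC.w
  have eε : 1 + C.ε = K.ρ ^ 5 := by rw [hC.ε]; ring
  have wt : C.w * C.t = μ := by rw [ew, et]; field_simp
  have et' : K.T * (K.ρ * μ) ^ 5 = (1 + C.ε) * C.t := by rw [eε, et]; ring
  obtain ⟨w', hw'⟩ : ∃ w', w' = C.L * C.t * (C.z / 32) * C.t := ⟨_, rfl⟩
  have ew' : w' * (1 + C.ε) = 2 * K.Wo * K.il * (2 - μ) := by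
    rw [hw', eε, hC.L, hC.z, et, ← hμ, GC.Lf]; field_simp; ring
  have w0 : 0 ≤ w' := by have := C.hL; have := C.hz; rw [hw']; positivity
  have w1 : K.Wo * K.il ≤ w' := by
    have a1 := mul_le_mul_of_nonneg_left (eε ▸ K.hρ2 : 1 + C.ε ≤ 2) w0
    have a2 := mul_le_mul_of_nonneg_left μ1 (show 0 ≤ 2 * K.Wo * K.il by positivity)
    linarith
  obtain ⟨u, hu⟩ : ∃ u, u = C.l2 * (C.z / 16) := ⟨_, rfl⟩
  have eu : u * ((1 + C.ε) * C.t) = K.W2 := by rw [← hC.l2, hu, eε]; ring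
  have u0 : 0 ≤ u := by have := C.hl2; have := C.hz; rw [hu]; positivity
  have P0' : ∀ g x, 0 ≤ P g x := fun g x => (hc.n0 g x).trans (h.base.ge g x)
  have N0 : ∀ x, 0 ≤ tot P x := fun x => Finset.sum_nonneg fun g _ => P0' g x
  have M0 : ∀ x, 0 ≤ ∑ g, f g x * P g x := fun x =>
    Finset.sum_nonneg fun g _ => mul_nonneg (hc.f0 g x).1 (P0' g x)
  have ϖ2 : ∀ x, ϖ x ^ 2 ≤ 1 := fun x => pow_le_one₀ (hc.ϖ0 _).1 (hc.ϖ0 _).2.1
  have ε6 : C.ε * μ ≤ 6 * (K.ρ * μ - μ) := by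
    have : C.ε ≤ 6 * (K.ρ - 1) := by linarith [K.hρ5]
    linarith [mul_le_mul_of_nonneg_right this μ0.le]
  have hSS : ∀ x, S x + C.w * (D * (C.ε * C.t)) ≤ 6 * D * (K.ρ * μ) := fun x => by
    have a1 := h.hS x
    have a2 := mul_le_mul_of_nonneg_left ε6 D0
    have a3 : C.w * (D * (C.ε * C.t)) = D * (C.ε * μ) := by rw [← wt]; ring
    rw [← hμ] at a1
    linarith
  choose! hh h0 hK hpot using h.pot
  rw [← hμ, ← et] at hpot
  obtain ⟨e, he⟩ : ∃ e : W.Z → ℝ, e = fun x => tot P x / C.t - ϖ x ^ 2 := ⟨_, rfl⟩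
  have eN : ∀ x, tot P x = C.t * (e x + ϖ x ^ 2) := fun x => by rw [he]; field_simp; ring
  obtain ⟨hp, hhp⟩ : ∃ hp : W.Z → ℝ, hp = fun x => hh x + 2 * K.il * (μ - ν) * e x ^ 2 := ⟨_, rfl⟩
  have hp0 : ∀ x ∈ W.L, 0 ≤ hp x := fun x hx => by
    rw [hhp]; exact add_nonneg (h0 x hx) (mul_nonneg (mul_nonneg (by linarith) (by linarith))
      (sq_nonneg _))
  have hK' : ∀ x ∈ W.L, S x - C.w * tot P x ≤ 5 * (ϖ x ^ 2 + K.lam) * μ + hp x := fun x hx => by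
    have a1 : (1 / (K.T * ν ^ 4) - C.w) * C.t = (K.ρ ^ 5 - K.ρ) * ν := by
      rw [sub_mul, wt, et, hμ]; field_simp
    have a2 : (K.ρ ^ 5 - K.ρ) * ν ≤ 5 * (μ - ν) := by
      rw [hμ]; linarith [mul_le_mul_of_nonneg_right K.hρ5 hν.le]
    have a3 : 0 ≤ e x + ϖ x ^ 2 := by rw [he]; simpa using div_nonneg (N0 x) ht.le
    have a4 : 5 * (e x + ϖ x ^ 2) ≤ 5 * (ϖ x ^ 2 + K.lam) + 2 * K.il * e x ^ 2 := by
      have b1 : 0 ≤ K.il * (e x - 2 * K.lam) ^ 2 := by positivity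
      have b2 : K.il * (e x - 2 * K.lam) ^ 2 = K.il * e x ^ 2 - 4 * e x + 4 * K.lam := by
        linear_combination (4 * K.lam - 4 * e x) * K.hil
      have b3 : 0 ≤ K.il * e x ^ 2 := by positivity
      linarith
    have a5 := mul_le_mul_of_nonneg_right a2 a3
    have a6 := mul_le_mul_of_nonneg_left a4 (sub_nonneg.2 νμ)
    have a7 : (1 / (K.T * ν ^ 4) - C.w) * tot P x = (K.ρ ^ 5 - K.ρ) * ν * (e x + ϖ x ^ 2) := by
      rw [eN, ← mul_assoc, a1]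
    have a8 := hK x hx
    rw [hhp]
    linarith
  have hs : RStart W C ϖ F P S (fun x => W.E st0 x - η / 4 - k + K.Wo * hp x + w' * C.ε * e x ^ 2
      + u * (C.ε * ∑ g, f g x * P g x)) fun x => K.cx (ϖ x) := by
    refine ⟨h.base.smP, fun g x => ⟨P0' g x, by rw [et, hμ]; exact h.hP g x⟩,
      fun x => (hSS x).trans (mul_le_of_le_one_right (by linarith) hν1), fun x _ => ?_,
      fun x hx Y S' S0 S1 S2 => ?_⟩
    · rw [hF x]
      unfold GC.cx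
      split_ifs
      · exact ⟨by linarith [K.hcm], hC.rb⟩
      · exact ⟨by linarith, hC.ra⟩
    · have a1 := hK' x hx
      have a2 : μ * Y ≤ |Y| := (mul_le_mul_of_nonneg_left (le_abs_self Y) μ0.le).trans
        (mul_le_of_le_one_left (abs_nonneg _) μ1)
      have a3 := K.abs_le Y
      have a4 : μ * (ϖ x ^ 2 + C.ε * D) ≤ ϖ x ^ 2 + C.ε * D :=
        mul_le_of_le_one_left (by positivity) μ1
      have a5 : C.ε * D ≤ K.lam := hC.ε ▸ K.hεD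
      have a6 : 5 * (ϖ x ^ 2 + K.lam) * μ ≤ 5 * (ϖ x ^ 2 + K.lam) :=
        mul_le_of_le_one_right (by positivity) μ1
      have a7 : 0 ≤ K.il * Y ^ 2 := by positivity
      rw [wt] at S2
      have a8 := K.cost_le hδ.le (ϖ2 x) S0 S1 (add_nonneg (hp0 x hx) a7)
        (by linarith [sq_nonneg (ϖ x)])
      have a9 := mul_le_mul_of_nonneg_right w1 (sq_nonneg Y)
      have b1 := mul_nonneg hWo.le (hp0 x hx)
      have b2 := mul_nonneg hWo.le a7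
      have b3 : 0 ≤ w' * C.ε * e x ^ 2 := by positivity
      have b4 : 0 ≤ u * (C.ε * ∑ g, f g x * P g x) := by
        have := M0 x; positivity
      have b5 := hE x hx
      rw [hC.e0, ← hw']
      linarith
  obtain ⟨st', P', S', vs', J', h'⟩ := round hc hs (st := st) (vs := vs) (J := J)
    ⟨h.base, fun _ _ => rfl, fun _ _ => le_rfl,
      fun _ _ => le_add_of_nonneg_right (mul_nonneg hε ht.le), fun _ => rfl, h.hJ, fun x hx => by
      have a1 := hpot x hx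
      have a2 := mul_le_mul_of_nonneg_right (K.Lf_anti hδ hν νμ μ1) ((W.pt st x).nonneg
        (show W.A.Sm (tot P) from Alg.sum _ fun g _ => h.base.smP g))
      have a3 : K.W2 * ((∑ g, f g x * P g x) / C.t) = u * (1 + C.ε) * ∑ g, f g x * P g x := by
        rw [← eu]; field_simp
      have a4 : tot P x / C.t - ϖ x ^ 2 = e x := by rw [he]
      have a5 := congrArg (· * e x ^ 2) ew'
      simp only [Yv, Mv, Finset.sum_empty, sub_zero, Finset.notMem_empty, if_false,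
        Finset.card_empty, Nat.cast_zero, mul_zero]
      rw [a3, a4] at a1
      rw [a4, ← hw', ← hu, ← Finset.mul_sum, hC.A0, hC.L, ← hμ, hhp]
      linarith⟩
  have hN : ∀ x, tot P x ≤ tot P' x := fun x => Finset.sum_le_sum fun g _ => h'.lo g x
  refine ⟨st', P', S', vs', J', hμ ▸ ⟨h'.base, fun g x => ?_, fun x => ?_, h'.hJ, fun x hx =>
    ⟨hp x, hp0 x hx, ?_, ?_⟩⟩⟩
  · have := h.hP g x
    rw [← hμ, ← et] at this
    rw [et']; linarith [h'.hi g x]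
  · have a1 := sum_le_D hc.hD (mul_nonneg hε ht.le) Finset.univ
      (a := fun g => P' g x - P g x) fun g => by linarith [h'.hi g x]
    rw [Finset.sum_sub_distrib] at a1
    have a2 := mul_le_mul_of_nonneg_left a1 C.hw0
    have a3 := h'.K x
    unfold tot at a3
    linarith [hSS x]
  · rw [← ew, h'.K x]; exact hK' x hx
  · have a1 := h'.pot x hx
    simp only [Finset.mem_univ, if_true, Finset.card_univ] at a1
    rw [← hw', ← hu, ← Finset.mul_sum, hC.z, hC.L, hC.e0, ← hμ] at a1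
    obtain ⟨e', he'⟩ : ∃ e', e' = tot P' x / ((1 + C.ε) * C.t) - ϖ x ^ 2 := ⟨_, rfl⟩
    have a2 : (1 + C.ε) * e' - C.ε * e x = (tot P' x - C.ε * tot P x) / C.t - ϖ x ^ 2 := by
      rw [he', he]; field_simp; ring
    have a3 : ((1 + C.ε) * e' - C.ε * e x) ^ 2 ≤
        Yv C.t ϖ (sg C.ε W.om P) Finset.univ P' x ^ 2 := by
      rw [a2]
      unfold Yv
      by_cases h0 : ϖ x = 0
      · have b1 : ∑ g, sg C.ε W.om P g x ≤ C.ε * tot P x := by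
          rw [tot, Finset.mul_sum]
          exact Finset.sum_le_sum fun g _ => (sg_mem hε _ (P0' g x)).2
        have b2 := mul_le_of_le_one_left (N0 x) C.hε1
        simp only [h0, ne_eq, OfNat.ofNat_ne_zero, not_false_eq_true, zero_pow, sub_zero]
        exact pow_le_pow_left₀ (div_nonneg (by linarith [hN x]) ht.le)
          (div_le_div_of_nonneg_right (by linarith) ht.le) 2
      · have b1 : ∑ g, sg C.ε W.om P g x = C.ε * tot P x := by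
          rw [tot, Finset.mul_sum]
          refine Finset.sum_congr rfl fun g _ => ?_
          rw [sg, cut_one (by linarith [(hc.ϖ0 x).2.2 h0])]; ring
        rw [b1]
    have a4 := round_sq (e x) e' w0 hε
    have a5 := mul_le_mul_of_nonneg_left a3 w0
    have a6 : ∑ g, f g x * P' g x - C.ε * ∑ g, f g x * P g x ≤
        Mv f (sg C.ε W.om P) Finset.univ P' x := by
      rw [Mv, Finset.mul_sum]
      refine sub_le_sub_left (Finset.sum_le_sum fun g _ => ?_) _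
      linarith [mul_le_mul_of_nonneg_left (sg_mem hε W.om (P0' g x)).2 (hc.f0 g x).1]
    have a7 := mul_le_mul_of_nonneg_left a6 u0
    have a8 : K.W2 * ((∑ g, f g x * P' g x) / ((1 + C.ε) * C.t)) = u * ∑ g, f g x * P' g x := by
      rw [← eu]; field_simp
    have a9 := mul_le_mul_of_nonneg_left hc.hD (hC.e0 ▸ C.he0)
    rw [ew'] at a4
    rw [et', ← he', a8]
    linarith

end Crest.Agent.N228.A.GL

end
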