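import Crest.Agent.N228.A.GL3

/-! # Row 228, part A*: start, end and constants of `GL` (helper89) -/

set_option autoImplicit false
set_option linter.dupNamespace false
open Filter Set Topology

noncomputable section

namespace Crest.Agent.N228.A.GL

open Crest.Agent.N222.A

/-- a positive function which is the identity near `1` -/
def nrm (s : ℝ) : ℝ := s + cut (1 - 2 * s)

theorem le_nrm (s : ℝ) : s ≤ nrm s := le_add_of_nonneg_right (cut_nonneg _)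

theorem nrm_pos {s : ℝ} (h : 0 ≤ s) : 0 < nrm s := by
  rcases h.eq_or_lt with rfl | h
  · simp [nrm, cut_one]
  · exact h.trans_le (le_nrm s)

theorem nrm_one : nrm 1 = 1 := by rw [nrm, cut_zero (by norm_num)]; ring

theorem hasDerivAt_nrm : HasDerivAt nrm 1 1 := by
  have h := (hasDerivAt_id (1 : ℝ)).add ((hasDerivAt_cut (1 - 2 * 1)).comp (1 : ℝ)
    (((hasDerivAt_id (1 : ℝ)).const_mul 2).const_sub 1))
  rw [cut_deriv_zero (Or.inl (by norm_num))] at h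
  exact h.congr_deriv (by simp)

variable {G : Type} [Fintype G]

/-- the initial masses -/
theorem exists_P0 {Z : Type} {A : Alg Z} {χ : G → Z → ℝ} {ϖ : Z → ℝ} {t : ℝ} (ht : 0 ≤ t)
    (sχ : ∀ g, A.Sm (χ g)) (χ0 : ∀ g x, 0 ≤ χ g x) (sϖ : A.Sm ϖ) (ϖ1 : ∀ x, ϖ x ^ 2 ≤ 1) :
    ∃ P : G → Z → ℝ, (∀ g, A.Sm (P g)) ∧
      (∀ g x, 0 ≤ P g x ∧ P g x ≤ t ∧ (ϖ x = 0 ∨ χ g x = 0 → P g x = 0)) ∧
      ∀ (T : Pt A) (K τ : ℝ), 0 ≤ K → T.Γ ϖ ϖ ≤ τ → (ϖ T.p ≠ 0 → ∑ g, χ g T.p = 1 ∧ T.Fi χ K) →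
        tot P T.p = t * ϖ T.p ^ 2 ∧ T.Fi P (t * (8 * K + 8 * τ)) ∧
          T.Γ (tot P) (tot P) ≤ t ^ 2 * (8 * τ) := by
  have sN : A.Sm (tot χ) := Alg.sum _ fun g _ => sχ g
  have N0 : ∀ x, 0 ≤ tot χ x := fun x => Finset.sum_nonneg fun g _ => χ0 g x
  have sS : A.Sm fun x => nrm (tot χ x) :=
    A.add sN (Alg.cut (Alg.const_sub 1 (Alg.smul 2 sN)))
  have S0 : ∀ x, 0 < nrm (tot χ x) := fun x => nrm_pos (N0 x)
  have sQ : ∀ g, A.Sm fun x => χ g x * (nrm (tot χ x))⁻¹ := fun g => A.mul (sχ g) (Alg.inv sS S0)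
  have Q0 : ∀ g x, 0 ≤ χ g x * (nrm (tot χ x))⁻¹ := fun g x =>
    mul_nonneg (χ0 g x) (inv_nonneg.2 (S0 x).le)
  have s2 := Alg.pow sϖ 2
  have sψ : A.Sm fun x => tot χ x * (nrm (tot χ x))⁻¹ := A.mul sN (Alg.inv sS S0)
  refine ⟨fun g x => t * (ϖ x ^ 2 * (χ g x * (nrm (tot χ x))⁻¹)),
    fun g => Alg.smul t (A.mul s2 (sQ g)), fun g x => ⟨mul_nonneg ht (mul_nonneg (sq_nonneg _)
      (Q0 g x)), mul_le_of_le_one_right ht (mul_le_one₀ (ϖ1 x) (Q0 g x) ?_), ?_⟩,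
    fun T K τ hK hτ h => ?_⟩
  · rw [← div_eq_mul_inv, div_le_one (S0 x)]
    exact (Finset.single_le_sum (f := fun g => χ g x) (fun g _ => χ0 g x)
      (Finset.mem_univ g)).trans (le_nrm _)
  · rintro (h | h) <;> simp [h]
  have e : (tot fun g x => t * (ϖ x ^ 2 * (χ g x * (nrm (tot χ x))⁻¹))) =
      fun x => t * (ϖ x ^ 2 * (tot χ x * (nrm (tot χ x))⁻¹)) := by
    funext x
    simp only [tot, Finset.mul_sum, Finset.sum_mul]
  have τ0 : 0 ≤ τ := (T.nonneg sϖ).trans hτ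
  have g2 := T.chain_self (φ := fun t => t ^ 2) sϖ s2 (by simpa using hasDerivAt_pow 2 (ϖ T.p))
  have gN := T.mul_self_le s2 sψ
  rw [e, gam_smul T t (A.mul s2 sψ)]
  by_cases h0 : ϖ T.p = 0
  · refine ⟨by simp [h0], ⟨fun _ => 0, fun g => ⟨le_rfl, ?_⟩, by simp; positivity⟩,
      mul_le_mul_of_nonneg_left ?_ (sq_nonneg t)⟩
    · have := T.mul_self_le s2 (sQ g)
      rw [gam_smul T t (A.mul s2 (sQ g)), zero_mul]
      rw [g2, h0] at this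
      exact mul_nonpos_of_nonneg_of_nonpos (sq_nonneg t) (by linarith)
    · rw [g2, h0] at gN
      linarith
  obtain ⟨h1, h2⟩ := h h0
  have h1' : tot χ T.p = 1 := h1
  refine ⟨by simp [h1', nrm_one], ?_, mul_le_mul_of_nonneg_left ?_ (sq_nonneg t)⟩
  · have f1 := h2.norm sχ (fun g => χ0 g _) sS S0 (le_nrm _) (by
      rw [T.chain_self (φ := nrm) (c := 1) sN sS (by rw [h1']; exact hasDerivAt_nrm), one_pow,
        one_mul]
      exact h2.total sχ fun g => χ0 g _)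
    have f2 := f1.mul_sq sQ (fun g => Q0 g _) (w := fun _ => ϖ) (fun _ => sϖ) zero_le_one
      (fun _ => ϖ1 _) τ0 fun _ _ => hτ
    rw [← Finset.sum_mul, h1, h1', nrm_one] at f2
    obtain ⟨j, hj, hs⟩ := f2
    refine ⟨fun g => t * j g, fun g => ⟨mul_nonneg ht (hj g).1, ?_⟩, ?_⟩
    · rw [gam_smul T t (A.mul s2 (sQ g))]
      linarith [mul_le_mul_of_nonneg_left (hj g).2 (sq_nonneg t)]
    · rw [← Finset.mul_sum]
      exact mul_le_mul_of_nonneg_left (hs.trans_eq (by ring)) ht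
  · have d : HasDerivAt (fun s => s * (nrm s)⁻¹) 0 (tot χ T.p) := by
      have := (hasDerivAt_id (1 : ℝ)).mul (hasDerivAt_nrm.inv (by rw [nrm_one]; norm_num))
      rw [h1']
      exact this.congr_deriv (by simp [nrm_one])
    rw [T.chain_self (φ := fun s => s * (nrm s)⁻¹) sN sψ d, h1', nrm_one] at gN
    linarith [gam_sq_le T sϖ (ϖ1 _)]

variable {n : ℝ} [DecidableEq G] {W : Wd n} {η δ D τ Fm Bw : ℝ} {st0 : W.St}
  {P0 f : G → W.Z → ℝ} {ϖ F : W.Z → ℝ}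

omit [DecidableEq G] in
theorem ostart (hc : Ctx W δ D τ Fm st0 P0 f ϖ F) (K : GC η δ D) (hδ : 0 < δ) {ν I : ℝ}
    (hν : 0 < ν) (hP : ∀ g x, P0 g x ≤ K.T * (K.ρ * ν) ^ 5)
    (out : ∀ g x, ϖ x = 0 → P0 g x = 0)
    (h : ∀ x ∈ W.L, tot P0 x = K.T * (K.ρ * ν) ^ 5 * ϖ x ^ 2 ∧ (W.pt st0 x).Fi P0 I ∧
      K.Lf ν * (W.pt st0 x).Γ (tot P0) (tot P0) ≤ η / 8 ∧ ∀ g, f g x * P0 g x = 0)
    (hI : δ / (K.T * ν ^ 2) / 4 * I ≤ η / 8) :
    ∃ J, OInv W K Bw st0 P0 f ϖ ν 0 st0 P0 (fun _ => 0) [] J := by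
  have hT := K.hT
  have hρ := K.hρ
  have hlam := K.hlam
  have D0 : 0 ≤ D := (Nat.cast_nonneg _).trans hc.hD
  choose! J hJ hs using fun x hx => (h x hx).2.1
  refine ⟨J, ⟨W.R_refl _, hc.s0, W.A.const 0, fun _ _ => le_rfl, fun _ => le_rfl,
    fun x hx => ⟨rfl, fun g => out g x ?_⟩, by simp, fun T => ?_, fun T => ?_, fun x _ f _ => by simp,
    fun x _ => Bd.nil _ (Real.exp_pos _).le⟩, hP, fun _ => by positivity,
    fun x hx g => by simpa only [W.pt_p] using hJ x hx g, fun x hx => ⟨0, le_rfl, ?_, ?_⟩⟩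
  · by_contra h0
    linarith [(hc.ϖ0 x).2.2 h0]
  · exact ⟨fun _ => 0, fun _ => ⟨le_rfl, by simp [T.const_left 0 (W.A.const 0)]⟩, by simp [Pt.bud]⟩
  · simp [T.const_left 0 (W.A.const 0)]
  · have a1 : 0 ≤ 1 / (K.T * ν ^ 4) * tot P0 x := by rw [(h x hx).1]; positivity
    have a2 : 0 ≤ 5 * (ϖ x ^ 2 + K.lam) * ν := by positivity
    linarith
  · have a1 := mul_le_mul_of_nonneg_left (hs x hx)
      (show 0 ≤ δ / (K.T * ν ^ 2) / 4 by positivity)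
    rw [(h x hx).1, mul_div_cancel_left₀ _ (by positivity)]
    simp only [(h x hx).2.2.2, cost, Finset.sum_const_zero, zero_div, mul_zero, zero_mul, sub_self]
    linarith [(h x hx).2.2.1]

omit [DecidableEq G] in
theorem oend (hc : Ctx W δ D τ Fm st0 P0 f ϖ F) (K : GC η δ D) (hδ : 0 < δ) {ν k : ℝ}
    (hν : K.ρ * ν = 1) (hk : k ≤ η / 4) {st : W.St} {P : G → W.Z → ℝ} {S : W.Z → ℝ}
    {vs : List (W.Z → ℝ)} {J : W.Z → G → ℝ} (h : OInv W K Bw st0 P0 f ϖ ν k st P S vs J)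
    {x : W.Z} (hx : x ∈ W.L) : ∃ r, (tot P x / K.T - ϖ x ^ 2) ^ 2 ≤ r ∧ S x ≤ 14 + r ∧
      W.E st0 x - 3 / 4 * η + K.Wo * r / 2 + K.W2 * ((∑ g, f g x * P g x) / K.T) ≤ W.E st x := by
  have hT := K.hT
  have hρ := K.hρ
  have il1 := K.il1
  have hWo := K.hWo
  have hlam := K.hlam
  have ν0 : 0 < ν := (mul_pos_iff_of_pos_left (by linarith)).1 (hν ▸ one_pos)
  have ν1 : ν ≤ 1 := hν ▸ le_mul_of_one_le_left ν0.le hρ
  obtain ⟨hh, h0, h1, h2⟩ := h.pot x hx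
  have hS := h.hS x
  rw [hν, one_pow, mul_one] at h2
  rw [hν, mul_one] at hS
  obtain ⟨e, he⟩ : ∃ e, e = tot P x / K.T - ϖ x ^ 2 := ⟨_, rfl⟩
  rw [← he] at h2 ⊢
  have ϖ2 : ϖ x ^ 2 ≤ 1 := pow_le_one₀ (hc.ϖ0 _).1 (hc.ϖ0 _).2.1
  have N0 : 0 ≤ tot P x := Finset.sum_nonneg fun g _ => (hc.n0 g x).trans (h.base.ge g x)
  have a1 : 1 / (K.T * ν ^ 4) * tot P x = K.ρ ^ 4 * (e + ϖ x ^ 2) := by
    have : ν = K.ρ⁻¹ := eq_inv_of_mul_eq_one_right hν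
    rw [he, this]; field_simp; ring
  have a2 : K.ρ ^ 4 * (e + ϖ x ^ 2) ≤ 2 * (e + ϖ x ^ 2) :=
    mul_le_mul_of_nonneg_right ((pow_le_pow_right₀ hρ (by norm_num)).trans K.hρ2)
      (by rw [he]; simpa using div_nonneg N0 hT.le)
  have a3 := K.abs_le e
  have a4 : 5 * (ϖ x ^ 2 + K.lam) * ν ≤ 5 * (ϖ x ^ 2 + K.lam) :=
    mul_le_of_le_one_right (by positivity) ν1
  have a5 : 0 ≤ K.il * e ^ 2 := by positivity
  have a6 : S x ≤ 7 * ϖ x ^ 2 + 7 * K.lam + (hh + K.il * e ^ 2) := by linarith [le_abs_self e]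
  have a7 := K.cost_le hδ.le ϖ2 (h.base.nnS x) hS (add_nonneg h0 a5) a6
  have a8 : 0 ≤ δ / (K.T * ν ^ 2) / 4 * ∑ g, J x g :=
    mul_nonneg (by positivity) (Finset.sum_nonneg fun g _ => (h.hJ x hx g).1)
  have a9 : 0 ≤ K.Lf ν * (W.pt st x).Γ (tot P) (tot P) := by
    refine mul_nonneg ?_ ((W.pt st x).nonneg (Alg.sum _ fun g _ => h.base.smP g))
    exact div_nonneg (mul_nonneg (by positivity) (by linarith)) (by positivity)
  have b1 := mul_le_mul_of_nonneg_left ν1 (mul_nonneg hWo.le a5)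
  have b2 := mul_nonneg hWo.le a5
  refine ⟨hh + K.il * e ^ 2, ?_, by linarith [K.hlam1], by linarith⟩
  linarith [le_mul_of_one_le_left (sq_nonneg e) il1]

theorem small (a b : ℝ) {c : ℝ} (hc : 0 < c) : ∀ᶠ u in 𝓝 (0 : ℝ), u * a + u ^ 2 * b ≤ c := by
  have : Continuous fun u : ℝ => u * a + u ^ 2 * b := by fun_prop
  exact (this.continuousAt.eventually_lt continuousAt_const (by simpa using hc)).mono
    fun _ h => h.le

theorem small1 (a : ℝ) {c : ℝ} (hc : 0 < c) : ∀ᶠ u in 𝓝 (0 : ℝ), a * u ≤ c :=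
  (small a 0 hc).mono fun u h => by linarith

theorem exists_pos {p : ℝ → Prop} (h : ∀ᶠ u in 𝓝 (0 : ℝ), p u) : ∃ u, 0 < u ∧ p u :=
  ((h.filter_mono nhdsWithin_le_nhds : ∀ᶠ u in 𝓝[>] (0 : ℝ), p u).and
    self_mem_nhdsWithin).exists.imp fun _ h => ⟨h.2, h.1⟩

theorem exists_fit (K : GC η δ D) {B0 Lm am Fa Fb ν : ℝ} (hδ : 0 < δ) (D0 : 0 ≤ D) (hτ : 0 ≤ τ)
    (hρ : 1 < K.ρ) (he0 : 0 < K.e0) (hν : 0 < ν) (hB : 1 ≤ B0 * ν) (hν1 : K.ρ * ν ≤ 1)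
    (hBw : Bw = B0 ^ 4 / K.T) (hLm : Lm = 128 * K.Wo * K.il * B0 ^ 8 / (δ * K.T))
    (ham : am = Lm * K.T * (2 * D + 1) + 16 * K.W2 * B0 ^ 3 / δ)
    (H1 : am ^ 2 * (5 * K.T) * (K.ρ ^ 5 - 1) ≤ δ / K.T / 8)
    (H2 : am * (5 * K.T) * (K.ρ ^ 5 - 1) ≤ 1 / 8)
    (H3 : Lm * (5 * K.T) * (K.ρ ^ 5 - 1) ≤ δ / K.T / 4)
    (H4 : 4 * K.Wo * K.il * (K.ρ ^ 5 - 1) ^ 2 * (2 * D + 1) ≤ K.e0 / 4)
    (T1 : cw * Real.exp (2 * δ * (6 * D)) * τ ≤ δ / K.T / 32)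
    (T2 : δ * B0 ^ 2 * cc ^ 2 * Real.exp (2 * δ * (6 * D)) * τ ≤ K.e0)
    (T3 : 128 * (Lm * K.T) ^ 2 / (δ / K.T) * τ ≤ η / 672 / K.T)
    (hn : n * δ ^ 2 / K.T ≤ η / 672) (Fa0 : 0 ≤ Fa) (Fb0 : 0 ≤ Fb)
    (hFa : 8192 * K.W2 ^ 2 * K.T ^ 2 * Fa / δ ^ 3 ≤ η / 672)
    (hFb : η / 224 + 8192 * K.W2 ^ 2 * K.T ^ 2 * Fb / δ ^ 3 ≤ K.cm) :
    ∃ C : RC δ D τ Fm (6 * D) Bw, Fit n K C Fa Fb ν := by
  obtain ⟨μ, hμ⟩ : ∃ μ, μ = K.ρ * ν := ⟨_, rfl⟩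
  have hT := K.hT
  have hWo := K.hWo
  have il1 := K.il1
  have hW2 := K.hW2
  have hη := K.hη
  have νμ : ν ≤ μ := hμ ▸ le_mul_of_one_le_left hν.le hρ.le
  have μ0 : 0 < μ := hν.trans_le νμ
  rw [← hμ] at hν1
  have B1 : 0 < B0 := (mul_pos_iff_of_pos_right hν).1 (by linarith)
  have iμ : ∀ k : ℕ, 1 / μ ^ k ≤ B0 ^ k := fun k => by
    rw [div_le_iff₀ (by positivity), ← mul_pow]
    exact one_le_pow₀ (hB.trans (mul_le_mul_of_nonneg_left νμ B1.le))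
  have μk : ∀ k : ℕ, μ ^ k ≤ 1 := fun k => pow_le_one₀ μ0.le hν1
  obtain ⟨ε, hε⟩ : ∃ ε, ε = K.ρ ^ 5 - 1 := ⟨_, rfl⟩
  rw [← hε] at H1 H2 H3 H4
  have ρ5 : 1 < K.ρ ^ 5 := one_lt_pow₀ hρ (by norm_num)
  have ε0 : 0 < ε := by linarith
  have ε1 : ε ≤ 1 := by linarith [K.hρ2]
  obtain ⟨t, ht⟩ : ∃ t, t = K.T * μ ^ 5 := ⟨_, rfl⟩
  have t0 : 0 < t := by rw [ht]; positivity
  have t1 : t ≤ K.T := ht ▸ mul_le_of_le_one_right hT.le (μk 5)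
  obtain ⟨z, hz⟩ : ∃ z, z = δ / (K.T * μ ^ 2) := ⟨_, rfl⟩
  have z0 : 0 < z := by rw [hz]; positivity
  have z1 : δ / K.T ≤ z := hz ▸ div_le_div_of_nonneg_left hδ.le (by positivity)
    (mul_le_of_le_one_right hT.le (μk 2))
  have z2 : z * K.T ≤ δ * B0 ^ 2 := by
    have : z * K.T = δ * (1 / μ ^ 2) := by rw [hz]; field_simp
    rw [this]; exact mul_le_mul_of_nonneg_left (iμ 2) hδ.le
  obtain ⟨w, hw⟩ : ∃ w, w = 1 / (K.T * μ ^ 4) := ⟨_, rfl⟩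
  have w0 : 0 < w := by rw [hw]; positivity
  have w1 : 1 / K.T ≤ w := hw ▸ div_le_div_of_nonneg_left zero_le_one (by positivity)
    (mul_le_of_le_one_right hT.le (μk 4))
  obtain ⟨L, hL⟩ : ∃ L, L = K.Lf μ := ⟨_, rfl⟩
  have L0 : 0 ≤ L := hL ▸ div_nonneg (mul_nonneg (by positivity) (by linarith)) (by positivity)
  have L1 : L ≤ Lm := by
    have e : L = 64 * K.Wo * K.il / (δ * K.T) * ((2 - μ) / K.ρ ^ 5 * (1 / μ ^ 8)) := by
      rw [hL, GC.Lf]; field_simp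
    have a1 : (2 - μ) / K.ρ ^ 5 ≤ 2 := by rw [div_le_iff₀ (by linarith)]; linarith
    have a2 := mul_le_mul_of_nonneg_left (mul_le_mul a1 (iμ 8) (by positivity) (by norm_num))
      (show 0 ≤ 64 * K.Wo * K.il / (δ * K.T) by positivity)
    rw [e, hLm]; exact a2.trans_eq (by ring)
  have Lt : L * t ≤ Lm * K.T := mul_le_mul L1 t1 t0.le (L0.trans L1)
  obtain ⟨l2, hl2⟩ : ∃ l2, l2 = 16 * K.W2 / δ * (1 / μ ^ 3) / K.ρ ^ 5 := ⟨_, rfl⟩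
  have l0 : 0 ≤ l2 := by rw [hl2]; positivity
  have l1 : l2 ≤ 16 * K.W2 / δ * (1 / μ ^ 3) := hl2 ▸ div_le_self (by positivity) ρ5.le
  have rate : ∀ F, 0 ≤ F → n * z ^ 2 + 16 * (8 * (L * t) ^ 2 * τ + 2 * l2 ^ 2 * F) / z ≤
      (η / 336 + 8192 * K.W2 ^ 2 * K.T ^ 2 * F / δ ^ 3) * w := fun F F0 => by
    have a1 : n * z ^ 2 = n * δ ^ 2 / K.T * w := by rw [hz, hw]; field_simp
    have a2 : 128 * (L * t) ^ 2 / z * τ ≤ 128 * (Lm * K.T) ^ 2 / (δ / K.T) * τ :=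
      mul_le_mul_of_nonneg_right (div_le_div₀ (by positivity) (mul_le_mul_of_nonneg_left
        (pow_le_pow_left₀ (by positivity) Lt 2) (by norm_num)) (by positivity) z1) hτ
    have a3 : 32 * l2 ^ 2 * F / z ≤ 32 * (16 * K.W2 / δ * (1 / μ ^ 3)) ^ 2 * F / z :=
      div_le_div_of_nonneg_right (mul_le_mul_of_nonneg_right (mul_le_mul_of_nonneg_left
        (pow_le_pow_left₀ l0 l1 2) (by norm_num)) F0) z0.le
    have a4 : 32 * (16 * K.W2 / δ * (1 / μ ^ 3)) ^ 2 * F / z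
        = 8192 * K.W2 ^ 2 * K.T ^ 2 * F / δ ^ 3 * w := by rw [hz, hw]; field_simp; ring
    have a5 := mul_le_mul_of_nonneg_right hn w0.le
    have a6 := mul_le_mul_of_nonneg_left w1 (show 0 ≤ η / 672 by positivity)
    have a7 : 16 * (8 * (L * t) ^ 2 * τ + 2 * l2 ^ 2 * F) / z
        = 128 * (L * t) ^ 2 / z * τ + 32 * l2 ^ 2 * F / z := by ring
    have a8 : η / 672 / K.T = η / 672 * (1 / K.T) := by ring
    linarith only [a1, a2, a3, a4, a5, a6, a7, a8, T3]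
  obtain ⟨u, u0, u1, u2⟩ := exists_pos ((small 0 1 (mul_pos ε0 hT)).and
    (small (am * (z / 32) * (1 + 5 * K.T * ε)) (L / 4 + 4 *
      (Real.exp (2 * δ * (6 * D)) * (8 * (L * t) ^ 2 * τ + 2 * l2 ^ 2 * Fm)) / z)
      (show 0 < K.e0 / 4 by positivity)))
  have ew : L * t * (z / 32) * t * K.ρ ^ 5 = 2 * K.Wo * K.il * (2 - μ) := by
    rw [hL, hz, ht, GC.Lf]; field_simp; ring
  refine ⟨⟨t, z, δ / (K.T * ν ^ 2) / 4, L, l2, ε, w, K.e0, K.e0 / 4, u, am, 5 * K.T * ε, t0, z0, L0,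
    l0, ε0.le, ε1, u0, by positivity, he0.le, w0.le, ?_, ?_, ?_, ?_, ?_,
    by linarith only [H1, z1], by linarith only [H2], ?_, by linarith only [T1, z1], ?_⟩, hμ ▸ ht, hμ ▸ hz, rfl, hμ ▸ hL, ?_, hε, hμ ▸ hw, rfl, ?_, ?_⟩
  · have : w = 1 / μ ^ 4 / K.T := by rw [hw]; field_simp
    rw [this, hBw]; exact div_le_div_of_nonneg_right (iμ 4) hT.le
  · have e : δ / (K.T * ν ^ 2) = z * K.ρ ^ 2 := by rw [hz, hμ]; field_simp
    have a1 : ε ≤ 4 * (K.ρ ^ 2 - 1) := by linarith only [K.hρ5, hε, hρ, sq_nonneg (K.ρ - 1)]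
    rw [e]; linarith only [mul_le_mul_of_nonneg_left a1 z0.le]
  · have e : z = δ * w * μ ^ 2 := by rw [hz, hw]; field_simp
    rw [e]; exact mul_le_of_le_one_right (by positivity) (μk 2)
  · linarith only [mul_le_mul_of_nonneg_left t1 ε0.le, u1]
  · have a1 := mul_le_mul_of_nonneg_right Lt (show 0 ≤ 2 * D + 1 by positivity)
    have a2 := mul_le_mul_of_nonneg_left (iμ 3) (show 0 ≤ 16 * K.W2 / δ by positivity)
    have a3 : 16 * K.W2 / δ * B0 ^ 3 = 16 * K.W2 * B0 ^ 3 / δ := by ring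
    linarith only [a1, a2, a3, ham, l1]
  · linarith only [mul_le_mul_of_nonneg_right L1 (show 0 ≤ 5 * K.T * ε by positivity), H3, z1]
  · have a1 : L * t * (z / 32) * t ≤ 4 * K.Wo * K.il := by
      have b1 := le_mul_of_one_le_right (show 0 ≤ L * t * (z / 32) * t by positivity) ρ5.le
      have b2 : 0 ≤ K.Wo * K.il * μ := by positivity
      linarith only [b1, b2, ew]
    have a2 := mul_le_mul_of_nonneg_right a1 (show 0 ≤ ε ^ 2 * (2 * D + 1) by positivity)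
    have a3 : ε * t * z ≤ δ * B0 ^ 2 := by
      have b1 := mul_le_mul_of_nonneg_right ((mul_le_of_le_one_left t0.le ε1).trans t1) z0.le
      linarith only [b1, z2]
    have a4 := mul_le_mul_of_nonneg_right a3
      (show 0 ≤ cc ^ 2 * Real.exp (2 * δ * (6 * D)) * τ by positivity)
    have a5 : u ^ 2 * (4 * (Real.exp (2 * δ * (6 * D)) *
        (8 * (L * t) ^ 2 * τ + 2 * l2 ^ 2 * Fm)) / z) = 4 * u ^ 2 * (Real.exp (2 * δ * (6 * D)) *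
        (8 * (L * t) ^ 2 * τ + 2 * l2 ^ 2 * Fm)) / z := by ring
    linarith only [a2, a4, a5, u2, H4, T2]
  · dsimp only
    rw [hl2, hz, ht]; field_simp
  · exact (rate Fa Fa0).trans (mul_le_mul_of_nonneg_right (by linarith only [hFa]) w0.le)
  · exact (rate Fb Fb0).trans (mul_le_mul_of_nonneg_right (by linarith only [hFb, hη]) w0.le)

end Crest.Agent.N228.A.GL

end
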