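import Crest.Agent.N228.A.Basic
import Crest.Agent.N222.A.Out

/-! # Row 228, part A* (helper11): pointwise calculus for one generation -/

set_option autoImplicit false
set_option linter.dupNamespace false
open Set

noncomputable section

namespace Crest.Agent.N228.A.Gn

open Crest.Agent.N222.A

variable {Z : Type} {A : Alg Z} {G : Type} [Fintype G] {T : Pt A}

theorem fi_zero {Q : G → Z → ℝ} {μ : Z → ℝ} (sQ : ∀ g, A.Sm (Q g)) (sμ : A.Sm μ)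
    (h : μ T.p = 0) : T.Fi (fun g x => μ x ^ 2 * Q g x) 0 := by
  refine ⟨fun _ => 0, fun g => ⟨le_rfl, ?_⟩, by simp⟩
  have h1 := T.mul_self_le (Alg.pow sμ 2) (sQ g)
  rw [T.chain_self (φ := fun t => t ^ 2) sμ (Alg.pow sμ 2)
    (by simpa using hasDerivAt_pow 2 (μ T.p)), h] at h1
  simpa using h1

theorem fi_smul {P : G → Z → ℝ} {I a : ℝ} (h : T.Fi P I) (s : ∀ g, A.Sm (P g)) (ha : 0 ≤ a) :
    T.Fi (fun g x => a * P g x) (a * I) := by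
  obtain ⟨j, hj, hs⟩ := h
  refine ⟨fun g => a * j g, fun g => ⟨mul_nonneg ha (hj g).1, ?_⟩, ?_⟩
  · rw [T.smul_left a (s g) (Alg.smul a (s g)), T.smul_right a (s g) (s g)]
    have := mul_le_mul_of_nonneg_left (hj g).2 (mul_nonneg ha ha)
    linarith
  · rw [← Finset.mul_sum]; exact mul_le_mul_of_nonneg_left hs ha

theorem gam_cut {f : Z → ℝ} (hf : A.Sm f) (a b : ℝ) :
    T.Γ (fun z => cut (a * f z + b)) (fun z => cut (a * f z + b)) ≤ cc ^ 2 * a ^ 2 * T.Γ f f := by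
  rw [Out.cut_lin T hf]
  exact mul_le_mul_of_nonneg_right (mul_le_mul_of_nonneg_right (deriv_cut_sq_le _) (sq_nonneg _))
    (T.nonneg hf)

theorem sm_lin {f : Z → ℝ} (hf : A.Sm f) (a b : ℝ) : A.Sm fun z => cut (a * f z + b) :=
  Alg.cut (Alg.add_const (Alg.smul a hf) b)

theorem gam_mul {f h : Z → ℝ} (hf : A.Sm f) (hh : A.Sm h) (f1 : f T.p ^ 2 ≤ 1) (h1 : h T.p ^ 2 ≤ 1) :
    T.Γ (fun z => f z * h z) (fun z => f z * h z) ≤ 2 * T.Γ f f + 2 * T.Γ h h := by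
  have a := T.mul_self_le hf hh
  nlinarith [mul_le_mul_of_nonneg_right f1 (T.nonneg hh),
    mul_le_mul_of_nonneg_right h1 (T.nonneg hf)]

theorem sm_far {d P : G → Z → ℝ} (sd : ∀ g, A.Sm (d g)) (sP : ∀ g, A.Sm (P g)) (r0 Lr : ℝ) :
    A.Sm (far r0 Lr d P) :=
  Alg.sum _ fun g _ => A.mul (Alg.cut (Alg.div_const (Alg.sub_const (sd g) r0) Lr)) (sP g)

/-- the gradient of the far mass -/
theorem gam_far {d P : G → Z → ℝ} (sd : ∀ g, A.Sm (d g)) (sP : ∀ g, A.Sm (P g))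
    (nP : ∀ g, 0 ≤ P g T.p) {r0 Lr I B m : ℝ} (hm : 0 < m) (hN : tot P T.p ≤ m) (hI : T.Fi P I)
    (B0 : 0 ≤ B) (hB : ∀ g, T.Γ (d g) (d g) ≤ B) :
    T.Γ (far r0 Lr d P) (far r0 Lr d P) ≤ 2 * m * I + 2 * m ^ 2 * (cc ^ 2 * Lr⁻¹ ^ 2 * B) := by
  have h1 := Out.wsum (w := fun g z => cut (Lr⁻¹ * d g z + -(r0 / Lr)))
    (fi_smul hI sP (inv_pos.2 hm).le) (fun g => Alg.smul _ (sP g))
    (fun g => mul_nonneg (inv_pos.2 hm).le (nP g))
    (by rw [← Finset.mul_sum, ← div_eq_inv_mul, div_le_one hm]; exact hN)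
    (fun g => sm_lin (sd g) _ _) (fun g => pow_le_one₀ (cut_nonneg _) (cut_le_one _))
    (B := cc ^ 2 * Lr⁻¹ ^ 2 * B) (by positivity) fun g _ =>
      (gam_cut (sd g) _ _).trans (mul_le_mul_of_nonneg_left (hB g) (by positivity))
  have e : (fun z => ∑ g, cut (Lr⁻¹ * d g z + -(r0 / Lr)) * (m⁻¹ * P g z))
      = fun z => m⁻¹ * far r0 Lr d P z := by
    funext z
    rw [far, Finset.mul_sum]
    refine Finset.sum_congr rfl fun g _ => ?_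
    rw [show Lr⁻¹ * d g z + -(r0 / Lr) = (d g z - r0) / Lr by ring]; ring
  have s := sm_far sd sP r0 Lr
  rw [e, T.smul_left _ s (Alg.smul _ s), T.smul_right _ s s] at h1
  have h2 := mul_le_mul_of_nonneg_left h1 (sq_nonneg m)
  have e2 : m ^ 2 * (m⁻¹ * (m⁻¹ * T.Γ (far r0 Lr d P) (far r0 Lr d P)))
      = T.Γ (far r0 Lr d P) (far r0 Lr d P) := by field_simp
  have e3 : m ^ 2 * (2 * (m⁻¹ * I) + 2 * (cc ^ 2 * Lr⁻¹ ^ 2 * B))
      = 2 * m * I + 2 * m ^ 2 * (cc ^ 2 * Lr⁻¹ ^ 2 * B) := by field_simp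
  rwa [e2, e3] at h2

/-- the first badness function -/
def thS (a b : ℝ) (l N ϖ : Z → ℝ) (x : Z) : ℝ := a * l x + 100 * (b * N x - ϖ x ^ 2) ^ 2

theorem sm_e {N ϖ : Z → ℝ} (sN : A.Sm N) (sϖ : A.Sm ϖ) (b : ℝ) :
    A.Sm fun x => b * N x - ϖ x ^ 2 := Alg.sub (Alg.smul b sN) (Alg.pow sϖ 2)

theorem sm_thS {l N ϖ : Z → ℝ} (sl : A.Sm l) (sN : A.Sm N) (sϖ : A.Sm ϖ) (a b : ℝ) :
    A.Sm (thS a b l N ϖ) := A.add (Alg.smul a sl) (Alg.smul 100 (Alg.pow (sm_e sN sϖ b) 2))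

theorem gam_thS {l N ϖ : Z → ℝ} (sl : A.Sm l) (sN : A.Sm N) (sϖ : A.Sm ϖ) {a b m g1 g2 g3 : ℝ}
    (h1 : T.Γ l l ≤ g1) (h2 : T.Γ N N ≤ g2) (h3 : T.Γ ϖ ϖ ≤ g3) (hϖ : ϖ T.p ^ 2 ≤ 1)
    (he : (b * N T.p - ϖ T.p ^ 2) ^ 2 ≤ m) :
    T.Γ (thS a b l N ϖ) (thS a b l N ϖ) ≤ 2 * (a ^ 2 * g1) + 2 * (40000 * m * (2 * (b ^ 2 * g2)
      + 8 * g3)) := by
  have se := sm_e sN sϖ b
  have s2 : A.Sm fun x => 100 * (b * N x - ϖ x ^ 2) ^ 2 := Alg.smul 100 (Alg.pow se 2)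
  have a1 := T.add_self_le (Alg.smul a sl) s2
  have a2 : T.Γ (fun x => a * l x) (fun x => a * l x) ≤ a ^ 2 * g1 := by
    rw [T.smul_left a sl (Alg.smul a sl), T.smul_right a sl sl]
    nlinarith [mul_le_mul_of_nonneg_left h1 (sq_nonneg a)]
  have a3 := T.chain_self (φ := fun t => 100 * t ^ 2) (c := 200 * (b * N T.p - ϖ T.p ^ 2)) se s2
    (((hasDerivAt_pow 2 _).const_mul 100).congr_deriv (by simp; ring))
  have s3 : A.Sm fun x => -ϖ x ^ 2 := Alg.neg (Alg.pow sϖ 2)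
  have a4 := T.add_self_le (Alg.smul b sN) s3
  have a5 : T.Γ (fun x => b * N x) (fun x => b * N x) ≤ b ^ 2 * g2 := by
    rw [T.smul_left b sN (Alg.smul b sN), T.smul_right b sN sN]
    nlinarith [mul_le_mul_of_nonneg_left h2 (sq_nonneg b)]
  have a6 := T.chain_self (φ := fun t => -t ^ 2) (c := -(2 * ϖ T.p)) sϖ s3
    ((hasDerivAt_pow 2 _).neg.congr_deriv (by simp))
  have a7 : T.Γ (fun x => -ϖ x ^ 2) (fun x => -ϖ x ^ 2) ≤ 4 * g3 := by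
    rw [a6]; nlinarith [mul_le_mul_of_nonneg_right hϖ (T.nonneg sϖ)]
  have a8 : T.Γ (fun x => b * N x - ϖ x ^ 2) (fun x => b * N x - ϖ x ^ 2)
      ≤ 2 * (b ^ 2 * g2) + 8 * g3 := by
    simp only [sub_eq_add_neg]; linarith
  have a9 := mul_le_mul he a8 (T.nonneg se) ((sq_nonneg _).trans he)
  change T.Γ (fun x => a * l x + 100 * (b * N x - ϖ x ^ 2) ^ 2)
    (fun x => a * l x + 100 * (b * N x - ϖ x ^ 2) ^ 2) ≤ _
  rw [a3] at a1
  nlinarith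

/-- `1` if one of `u, w` exceeds `t + 1`, `0` if both are below `t` -/
def bad (t : ℝ) (u w : Z → ℝ) (x : Z) : ℝ :=
  1 - (1 - cut (1 * u x + -t)) * (1 - cut (1 * w x + -t))

theorem sm_bad {u w : Z → ℝ} (su : A.Sm u) (sw : A.Sm w) (t : ℝ) : A.Sm (bad t u w) :=
  Alg.const_sub 1 (A.mul (Alg.const_sub 1 (sm_lin su _ _)) (Alg.const_sub 1 (sm_lin sw _ _)))

theorem bad_mem (t : ℝ) (u w : Z → ℝ) (x : Z) : 0 ≤ bad t u w x ∧ bad t u w x ≤ 1 := by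
  have a1 := cut_nonneg (1 * u x + -t)
  have a2 := cut_le_one (1 * u x + -t)
  have a3 := cut_nonneg (1 * w x + -t)
  have a4 := cut_le_one (1 * w x + -t)
  unfold bad
  constructor <;> nlinarith

theorem bad_ne {t : ℝ} {u w : Z → ℝ} {x : Z} (h : bad t u w x ≠ 0) : t < u x ∨ t < w x := by
  by_contra h'
  rw [not_or, not_lt, not_lt] at h'
  exact h (by rw [bad, cut_zero (by linarith [h'.1]), cut_zero (by linarith [h'.2])]; ring)

theorem bad_one {t : ℝ} {u w : Z → ℝ} {x : Z} (h : t + 1 ≤ u x ∨ t + 1 ≤ w x) :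
    bad t u w x = 1 := by
  rcases h with h | h
  · rw [bad, cut_one (s := 1 * u x + -t) (by linarith)]; ring
  · rw [bad, cut_one (s := 1 * w x + -t) (by linarith)]; ring

theorem gam_bad {u w : Z → ℝ} (su : A.Sm u) (sw : A.Sm w) (t : ℝ) {ε : ℝ} (hu : T.Γ u u ≤ ε)
    (hw : T.Γ w w ≤ ε) : T.Γ (bad t u w) (bad t u w) ≤ 4 * cc ^ 2 * ε := by
  have s1 := Alg.const_sub 1 (sm_lin su 1 (-t))
  have s2 := Alg.const_sub 1 (sm_lin sw 1 (-t))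
  have h1 : ∀ s, (1 - cut s) ^ 2 ≤ 1 := fun s =>
    pow_le_one₀ (by linarith [cut_le_one s]) (by linarith [cut_nonneg s])
  have a1 := gam_mul (T := T) s1 s2 (h1 _) (h1 _)
  rw [Out.one_sub T (sm_lin su 1 (-t)), Out.one_sub T (sm_lin sw 1 (-t))] at a1
  have a2 := gam_cut (T := T) su 1 (-t)
  have a3 := gam_cut (T := T) sw 1 (-t)
  have a4 := mul_le_mul_of_nonneg_left hu (sq_nonneg cc)
  have a5 := mul_le_mul_of_nonneg_left hw (sq_nonneg cc)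
  have a6 := Out.one_sub T (A.mul s1 s2)
  change T.Γ (fun x => 1 - (1 - cut (1 * u x + -t)) * (1 - cut (1 * w x + -t)))
    (fun x => 1 - (1 - cut (1 * u x + -t)) * (1 - cut (1 * w x + -t))) ≤ _
  rw [a6]; nlinarith

theorem sm_sin {f : Z → ℝ} (hf : A.Sm f) : A.Sm fun x => Real.sin (Real.pi / 2 * f x) :=
  Alg.comp' Real.contDiff_sin (Alg.smul _ hf)

theorem sm_cos {f : Z → ℝ} (hf : A.Sm f) : A.Sm fun x => Real.cos (Real.pi / 2 * f x) :=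
  Alg.comp' Real.contDiff_cos (Alg.smul _ hf)

theorem pi_sq : (Real.pi / 2) ^ 2 ≤ 5 / 2 := by nlinarith [Real.pi_lt_d2, Real.pi_pos]

theorem gam_sin {f : Z → ℝ} (hf : A.Sm f) :
    T.Γ (fun x => Real.sin (Real.pi / 2 * f x)) (fun x => Real.sin (Real.pi / 2 * f x))
      ≤ 5 / 2 * T.Γ f f := by
  rw [T.chain_self (φ := fun t => Real.sin (Real.pi / 2 * t))
    (c := Real.cos (Real.pi / 2 * f T.p) * (Real.pi / 2)) hf (sm_sin hf)
    (by simpa using ((hasDerivAt_id (f T.p)).const_mul (Real.pi / 2)).sin)]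
  refine mul_le_mul_of_nonneg_right ?_ (T.nonneg hf)
  rw [mul_pow]
  nlinarith [pi_sq, Real.cos_sq_le_one (Real.pi / 2 * f T.p), sq_nonneg (Real.pi / 2)]

theorem gam_cos {f : Z → ℝ} (hf : A.Sm f) :
    T.Γ (fun x => Real.cos (Real.pi / 2 * f x)) (fun x => Real.cos (Real.pi / 2 * f x))
      ≤ 5 / 2 * T.Γ f f := by
  rw [T.chain_self (φ := fun t => Real.cos (Real.pi / 2 * t))
    (c := -Real.sin (Real.pi / 2 * f T.p) * (Real.pi / 2)) hf (sm_cos hf)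
    (by simpa using ((hasDerivAt_id (f T.p)).const_mul (Real.pi / 2)).cos)]
  refine mul_le_mul_of_nonneg_right ?_ (T.nonneg hf)
  rw [mul_pow, neg_sq]
  nlinarith [pi_sq, Real.sin_sq_le_one (Real.pi / 2 * f T.p), sq_nonneg (Real.pi / 2)]

/-- the pruned masses -/
def pr (t Lr : ℝ) (d P : G → Z → ℝ) (g : G) (x : Z) : ℝ :=
  t * (cut (-Lr⁻¹ * d g x + (2 + Lr⁻¹)) ^ 2 * P g x)

/-- the pruned and normalised masses -/
def qq (t Lr : ℝ) (d P : G → Z → ℝ) (g : G) (x : Z) : ℝ :=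
  pr t Lr d P g x * (∑ g, pr t Lr d P g x + cut (-4 * ∑ g, pr t Lr d P g x + 1))⁻¹

variable {t Lr : ℝ} {d P : G → Z → ℝ}

theorem sm_pr (sd : ∀ g, A.Sm (d g)) (sP : ∀ g, A.Sm (P g)) (g : G) : A.Sm (pr t Lr d P g) :=
  Alg.smul t (A.mul (Alg.pow (sm_lin (sd g) _ _) 2) (sP g))

theorem pr_nonneg (ht : 0 ≤ t) (nP : ∀ g x, 0 ≤ P g x) (g : G) (x : Z) : 0 ≤ pr t Lr d P g x :=
  mul_nonneg ht (mul_nonneg (sq_nonneg _) (nP g x))

theorem sm_qq (ht : 0 ≤ t) (sd : ∀ g, A.Sm (d g)) (sP : ∀ g, A.Sm (P g)) (nP : ∀ g x, 0 ≤ P g x)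
    (g : G) : A.Sm (qq t Lr d P g) := by
  have sT : A.Sm fun z => ∑ g, pr t Lr d P g z := Alg.sum _ fun g _ => sm_pr sd sP g
  exact A.mul (sm_pr sd sP g) (Alg.inv (A.add sT (sm_lin sT _ _)) fun z =>
    Out.norm_pos (Finset.sum_nonneg fun g _ => pr_nonneg ht nP g z))

theorem qq_mem (ht : 0 ≤ t) (nP : ∀ g x, 0 ≤ P g x) (g : G) (x : Z) :
    0 ≤ qq t Lr d P g x ∧ qq t Lr d P g x ≤ 1 := by
  have h0 := Out.norm_pos (Finset.sum_nonneg fun g (_ : g ∈ Finset.univ) =>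
    pr_nonneg (Lr := Lr) (d := d) ht nP g x)
  refine ⟨mul_nonneg (pr_nonneg ht nP g x) (inv_pos.2 h0).le, ?_⟩
  rw [qq, ← div_eq_mul_inv, div_le_one h0]
  have := Finset.single_le_sum (f := fun g => pr t Lr d P g x)
    (fun g _ => pr_nonneg ht nP g x) (Finset.mem_univ g)
  linarith [cut_nonneg (-4 * ∑ g, pr t Lr d P g x + 1)]

theorem qq_range (hL : 0 < Lr) {g : G} {x : Z} (h : qq t Lr d P g x ≠ 0) : d g x ≤ 1 + 2 * Lr := by
  by_contra h'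
  refine h ?_
  have : Lr⁻¹ * (1 + 2 * Lr) ≤ Lr⁻¹ * d g x :=
    mul_le_mul_of_nonneg_left (not_le.1 h').le (inv_pos.2 hL).le
  rw [show Lr⁻¹ * (1 + 2 * Lr) = Lr⁻¹ + 2 by field_simp] at this
  rw [qq, pr, cut_zero (by linarith)]; ring

theorem le_sum_pr (hL : 0 < Lr) (ht : 0 ≤ t) (nP : ∀ g x, 0 ≤ P g x) (x : Z) :
    t * (tot P x - far 1 Lr d P x) ≤ ∑ g, pr t Lr d P g x := by
  rw [tot, far, ← Finset.sum_sub_distrib, Finset.mul_sum]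
  refine Finset.sum_le_sum fun g _ => mul_le_mul_of_nonneg_left ?_ ht
  rcases le_total ((d g x - 1) / Lr) 1 with h | h
  · rw [cut_one (s := -Lr⁻¹ * d g x + (2 + Lr⁻¹)) (by rw [div_eq_inv_mul] at h; linarith)]
    linarith [mul_nonneg (cut_nonneg ((d g x - 1) / Lr)) (nP g x)]
  · rw [cut_one h]
    linarith [mul_nonneg (sq_nonneg (cut (-Lr⁻¹ * d g x + (2 + Lr⁻¹)))) (nP g x)]

theorem sum_qq {x : Z} (h : 1 / 3 ≤ ∑ g, pr t Lr d P g x) : ∑ g, qq t Lr d P g x = 1 := by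
  simp only [qq]
  rw [← Finset.sum_mul, cut_zero (by linarith), add_zero, mul_inv_cancel₀ (by linarith)]

theorem fi_qq (ht : 0 ≤ t) (sd : ∀ g, A.Sm (d g)) (sP : ∀ g, A.Sm (P g)) (nP : ∀ g x, 0 ≤ P g x)
    {I B : ℝ} (hI : T.Fi P I) (B0 : 0 ≤ B) (hB : ∀ g, T.Γ (d g) (d g) ≤ B)
    (h : 1 / 3 ≤ ∑ g, pr t Lr d P g T.p) :
    T.Fi (qq t Lr d P) (12 * (t * (2 * 1 * I + 8 * (cc ^ 2 * Lr⁻¹ ^ 2 * B) * tot P T.p))) := by
  have h1 := hI.mul_sq sP (fun g => nP g _) (w := fun g x => cut (-Lr⁻¹ * d g x + (2 + Lr⁻¹)))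
    (fun g => sm_lin (sd g) _ _) (a := 1) (B := cc ^ 2 * Lr⁻¹ ^ 2 * B) zero_le_one
    (fun g => pow_le_one₀ (cut_nonneg _) (cut_le_one _)) (by positivity) fun g _ =>
      (gam_cut (sd g) _ _).trans (by
        rw [neg_sq]; exact mul_le_mul_of_nonneg_left (hB g) (by positivity))
  exact Out.fi_norm (fi_smul h1 (fun g => A.mul (Alg.pow (sm_lin (sd g) _ _) 2) (sP g)) ht)
    (sm_pr sd sP) (pr_nonneg ht nP) h

end Crest.Agent.N228.A.Gn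

end
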