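import Crest.Agent.N228.A.Gen0

/-! # Row 228, part A* (helper11): the generation lemma followed by two buffers -/

set_option autoImplicit false
set_option linter.dupNamespace false
open Set

noncomputable section

namespace Crest.Agent.N228.A.Gn

open Crest.Agent.N222.A

/-- the body of `GLStmt` -/
def GLc (c : ℝ) : Prop := ∀ n T η δ W2 Lr γ r0 : ℝ, 1 ≤ n → 0 < T → 0 < η → 0 < δ →
  4 * c * δ ≤ 1 → 0 ≤ W2 → 0 < Lr → 0 ≤ γ → c * n * δ ^ 2 ≤ η * T →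
  c * W2 ^ 2 * T ^ 2 * γ ≤ η * Lr ^ 2 * δ ^ 3 → ∀ (K0 c1 : ℝ) (D : ℕ), 0 ≤ K0 → 0 ≤ c1 →
  ∃ lm Gm : ℝ, 0 ≤ lm ∧ 0 ≤ Gm ∧ ∀ Φ : ℝ, ∃ τ : ℝ, 0 < τ ∧
  ∀ (W : Wd n) (G : Type) [Fintype G] [DecidableEq G] (st : W.St) (χ d : G → W.Z → ℝ)
    (ϖ : W.Z → ℝ), Fintype.card G ≤ D →
    (∀ g, W.A.Sm (χ g) ∧ W.A.Sm (d g) ∧ ∀ x, 0 ≤ χ g x ∧ χ g x ≤ 1) → W.A.Sm ϖ →
    (∀ x, 0 ≤ ϖ x ∧ ϖ x ≤ 1 ∧ (ϖ x ≠ 0 → W.om x ≤ 0)) →
    (∀ x ∈ W.L, 2 * η ≤ W.E st x ∧ (W.pt st x).Γ W.om W.om ≤ τ ∧ (W.pt st x).Γ ϖ ϖ ≤ τ ∧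
      (∀ g, (W.pt st x).Γ (d g) (d g) ≤ c1) ∧ (ϖ x ≠ 0 → ∑ g, χ g x = 1 ∧ (W.pt st x).Fi χ K0 ∧
        ∀ g, (W.pt st x).Γ (d g) (d g) ≤ γ ∧ (0 < χ g x → d g x ≤ r0))) →
    ∃ (st' : W.St) (P : G → W.Z → ℝ) (l : W.Z → ℝ), W.R st st' ∧ W.A.Sm l ∧
      (∀ g, W.A.Sm (P g) ∧ ∀ x, 0 ≤ P g x ∧ P g x ≤ T) ∧
      (∀ x, 0 ≤ l x ∧ l x ≤ lm ∧ (5 ≤ W.om x → l x = 0 ∧ ∀ g, P g x = 0)) ∧
      ∀ x ∈ W.L, (∀ f, W.A.Sm f → (W.pt st' x).Γ f f ≤ Real.exp (l x) * (W.pt st x).Γ f f) ∧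
        (W.pt st' x).Fi P ((n + 1) * Real.exp (l x)) ∧ (W.pt st' x).Γ l l ≤ Gm ∧
        W.E st x - η + W2 * (far r0 Lr d P x / T) ≤ W.E st' x ∧
        (3 / 2 * c * δ ≤ l x ∨ 1 / 800 ≤ (tot P x / T - ϖ x ^ 2) ^ 2 → Φ ≤ W.E st' x)

/-- bound for the gradient of the second badness function -/
def GR (n T : ℝ) : ℝ := 180000 * n / T

/-- the weight of the far mass -/
def WW (n T s : ℝ) : ℝ := 100 * (17 * s + cb * GR n T)

theorem exp_le_three {t : ℝ} (h : t ≤ 1) : Real.exp t ≤ 3 :=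
  (Real.exp_le_exp.2 h).trans (by linarith [Real.exp_one_lt_d9])

theorem num_k {k n : ℝ} (hk : 1 ≤ k) (hn : 1 ≤ n) : k * (n + 1) + k ^ 2 ≤ k ^ 2 * (3 * n) := by
  have h1 : k ≤ k ^ 2 := by nlinarith
  nlinarith [mul_le_mul_of_nonneg_right h1 (show 0 ≤ n + 1 by linarith),
    mul_le_mul_of_nonneg_left hn (sq_nonneg k)]

theorem rich {Ω lam a b : ℝ} (hl : 0 < lam) (hΩ : lam⁻¹ ≤ Ω) (hb : 0 ≤ b) (h : lam * b ≤ a) :
    b ≤ Ω * a := by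
  have h1 : lam⁻¹ * (lam * b) = b := by field_simp
  have h2 := mul_le_mul hΩ h (by positivity) ((inv_pos.2 hl).le.trans hΩ)
  linarith

set_option maxHeartbeats 1600000 in
theorem gb {c : ℝ} (hc : 1 ≤ c) (H : GLc c) {n T s η δ Lr γ c1 K0 : ℝ} (D : ℕ) (hn : 1 ≤ n)
    (hT : 0 < T) (hη : 0 < η) (hs : 8 * η ≤ s) (hδ : 0 < δ) (hδ1 : 4 * c * δ ≤ 1) (hL : 0 < Lr)
    (hγ : 0 ≤ γ) (hc1 : 0 ≤ c1) (hK : 0 ≤ K0) (h1 : c * n * δ ^ 2 ≤ η * T)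
    (h2 : c * WW n T s ^ 2 * T ^ 2 * γ ≤ η * Lr ^ 2 * δ ^ 3) (h3 : cc ^ 2 * Lr⁻¹ ^ 2 * c1 ≤ T⁻¹) :
    ∃ τ : ℝ, 0 < τ ∧ ∀ ε : ℝ, 0 < ε → ε ≤ τ →
    ∀ (W : Wd n) (G : Type) [Fintype G] [DecidableEq G] (st : W.St) (χ d : G → W.Z → ℝ)
    (ϖ : W.Z → ℝ), Fintype.card G ≤ D →
    (∀ g, W.A.Sm (χ g) ∧ W.A.Sm (d g) ∧ ∀ x, 0 ≤ χ g x ∧ χ g x ≤ 1) → W.A.Sm ϖ →
    (∀ x, 0 ≤ ϖ x ∧ ϖ x ≤ 1 ∧ (ϖ x ≠ 0 → W.om x ≤ 0)) →
    (∀ x ∈ W.L, 2 * η ≤ W.E st x ∧ (W.pt st x).Γ W.om W.om ≤ ε ∧ (W.pt st x).Γ ϖ ϖ ≤ ε ∧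
      (∀ g, (W.pt st x).Γ (d g) (d g) ≤ c1) ∧ (ϖ x ≠ 0 → ∑ g, χ g x = 1 ∧ (W.pt st x).Fi χ K0 ∧
        ∀ g, (W.pt st x).Γ (d g) (d g) ≤ γ ∧ (0 < χ g x → d g x ≤ 1))) →
    ∃ (st' : W.St) (P : G → W.Z → ℝ) (u w F : W.Z → ℝ), W.R st st' ∧ W.A.Sm u ∧ W.A.Sm w ∧
      (∀ g, W.A.Sm (P g) ∧ ∀ x, 0 ≤ P g x) ∧
      ∀ x ∈ W.L, 0 ≤ F x ∧ F x ≤ Real.exp (4 * c * δ) ∧
        (∀ f, W.A.Sm f → (W.pt st' x).Γ f f ≤ F x * (W.pt st x).Γ f f) ∧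
        (1 ≤ u x ∨ 1 ≤ w x → F x ≤ Real.exp (4 * c * δ) / 16) ∧
        (W.pt st' x).Γ u u ≤ ε ∧ (W.pt st' x).Γ w w ≤ ε ∧
        (W.E st x - 2 * η ≤ W.E st' x ∨ s ≤ W.E st' x) ∧
        (u x < 4 → w x < 4 → (W.pt st' x).Fi P (6 * n) ∧
          (T⁻¹ * tot P x - ϖ x ^ 2) ^ 2 ≤ 1 / 100 ∧ T⁻¹ * far 1 Lr d P x ≤ 1 / 50) := by
  have GR0 : 0 ≤ GR n T := by unfold GR; positivity
  have cb0 : 0 ≤ cb := by unfold cb; positivity
  have s0 : 0 < s := by linarith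
  have W0 : 0 ≤ WW n T s := by unfold WW; positivity
  obtain ⟨lm, Gm, lm0, Gm0, H⟩ := H n T η δ (WW n T s) Lr γ 1 hn hT hη hδ hδ1 W0 hL hγ h1 h2
    K0 c1 D hK hc1
  have cδ : 0 < 4 * c * δ := by positivity
  have el1 : 1 ≤ Real.exp lm := Real.one_le_exp lm0
  obtain ⟨m, hm⟩ : ∃ m : ℝ, m = D + 1 := ⟨_, rfl⟩
  have m1 : 1 ≤ m := by rw [hm]; linarith [Nat.cast_nonneg (α := ℝ) D]
  obtain ⟨lam, hlam⟩ : ∃ lam : ℝ, lam = 16 * m ^ 2 * Real.exp lm := ⟨_, rfl⟩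
  have mm : 1 ≤ m ^ 2 := one_le_pow₀ m1
  have lam1 : 16 * Real.exp lm ≤ lam := by
    rw [hlam]; linarith [mul_le_mul_of_nonneg_right mm (Real.exp_pos lm).le]
  have lam0 : 0 < lam := by linarith
  obtain ⟨GS, hGS⟩ : ∃ GS : ℝ, GS = 2 * ((4 * c * δ)⁻¹ ^ 2 * Gm) + 2 * (40000 * m ^ 2 *
    (2 * (T⁻¹ ^ 2 * (m * T * ((n + 1) * Real.exp lm))) + 8 * Real.exp lm)) := ⟨_, rfl⟩
  have GS0 : 0 ≤ GS := by rw [hGS]; positivity
  obtain ⟨τ, τ0, H⟩ := H (lam * (WW n T s / 100) + η + cb * GS)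
  refine ⟨min τ (min 1 (η / 2)), by positivity, fun ε ε0 hε W G _ _ st χ d ϖ hD sχ sϖ hϖ hx => ?_⟩
  have ε1 := hε.trans (min_le_left _ _)
  have ε2 := (hε.trans (min_le_right _ _)).trans (min_le_left _ _)
  have ε3 := (hε.trans (min_le_right _ _)).trans (min_le_right _ _)
  obtain ⟨st1, P, l, r1, sl, hP, hl, H1⟩ := H W G st χ d ϖ hD sχ sϖ hϖ fun x h =>
    ⟨(hx x h).1, (hx x h).2.1.trans ε1, (hx x h).2.2.1.trans ε1, (hx x h).2.2.2⟩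
  have sP : ∀ g, W.A.Sm (P g) := fun g => (hP g).1
  have nP : ∀ g x, 0 ≤ P g x := fun g x => ((hP g).2 x).1
  have sd : ∀ g, W.A.Sm (d g) := fun g => (sχ g).2.1
  have sN : W.A.Sm (tot P) := Alg.sum _ fun g _ => sP g
  have N0 : ∀ x, 0 ≤ tot P x := fun x => Finset.sum_nonneg fun g _ => nP g x
  have N1 : ∀ x, tot P x ≤ (m - 1) * T := fun x => by
    refine (Finset.sum_le_card_nsmul _ _ T fun g _ => ((hP g).2 x).2).trans ?_
    rw [nsmul_eq_mul, Finset.card_univ, hm, add_sub_cancel_right]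
    exact mul_le_mul_of_nonneg_right (Nat.cast_le.2 hD) hT.le
  have ϖ2 : ∀ x, ϖ x ^ 2 ≤ 1 := fun x => pow_le_one₀ (hϖ x).1 (hϖ x).2.1
  have el : ∀ x, Real.exp (l x) ≤ Real.exp lm := fun x => Real.exp_le_exp.2 (hl x).2.1
  have far0 : ∀ x, 0 ≤ far 1 Lr d P x := fun x =>
    Finset.sum_nonneg fun g _ => mul_nonneg (cut_nonneg _) (nP g x)
  have sθ := sm_thS sl sN sϖ (4 * c * δ)⁻¹ T⁻¹
  obtain ⟨u, Ω, st2, r2, su, H2⟩ := W.buf st1 _ GS lam ε sθ GS0 (by linarith) ε0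
    (fun x h => by
      have a1 : ϖ x = 0 := by by_contra a; linarith [(hϖ x).2.2 a]
      simp [thS, tot, a1, ((hl x).2.2 h).1, ((hl x).2.2 h).2])
    (fun x h _ _ => by
      obtain ⟨a1, a2, a3, -⟩ := H1 x h
      have a4 := a2.total sP fun g => nP g _
      rw [W.pt_p] at a4
      have a5 : T⁻¹ * tot P x ≤ m - 1 := by
        rw [← div_eq_inv_mul, div_le_iff₀ hT]; exact N1 x
      have a6 : 0 ≤ T⁻¹ * tot P x := mul_nonneg (inv_pos.2 hT).le (N0 x)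
      rw [hGS]
      refine gam_thS sl sN sϖ a3 (a4.trans ?_) ((a1 _ sϖ).trans ?_) (ϖ2 _) ?_
      · exact mul_le_mul ((N1 x).trans (by linarith)) (mul_le_mul_of_nonneg_left (el x)
          (by linarith)) (by positivity) (by positivity)
      · simpa using mul_le_mul (el x) ((hx x h).2.2.1.trans ε2) ((W.pt st x).nonneg sϖ)
          (Real.exp_pos _).le
      · rw [W.pt_p]
        exact sq_le_sq' (by linarith [ϖ2 x]) (by linarith [sq_nonneg (ϖ x)]))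
  have θ1 : ∀ x, thS (4 * c * δ)⁻¹ T⁻¹ l (tot P) ϖ x ≤ 1 →
      l x ≤ 4 * c * δ ∧ (T⁻¹ * tot P x - ϖ x ^ 2) ^ 2 ≤ 1 / 100 := fun x h => by
    unfold thS at h
    have a1 : 0 ≤ (4 * c * δ)⁻¹ * l x := mul_nonneg (inv_pos.2 cδ).le (hl x).1
    refine ⟨?_, by linarith⟩
    have a2 : (4 * c * δ)⁻¹ * l x ≤ 1 := by linarith [sq_nonneg (T⁻¹ * tot P x - ϖ x ^ 2)]
    rwa [← div_eq_inv_mul, div_le_one cδ] at a2
  have Ω0 : ∀ x ∈ W.L, 0 ≤ Ω x := fun x h => (inv_pos.2 lam0).le.trans (H2 x h).2.2.1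
  have sm' : ∀ x ∈ W.L, 1 ≤ u x → m ^ 2 * Real.exp (l x) * Ω x ≤ 1 / 16 := fun x h hu => by
    rw [(H2 x h).2.2.2.2.1 hu, ← div_eq_mul_inv, div_le_iff₀ lam0, hlam]
    linarith [mul_le_mul_of_nonneg_left (el x) (sq_nonneg m)]
  have ex1 : 1 ≤ Real.exp (4 * c * δ) := Real.one_le_exp cδ.le
  have F1 : ∀ x ∈ W.L, Real.exp (l x) * Ω x ≤ Real.exp (4 * c * δ) := fun x h => by
    rcases le_total (thS (4 * c * δ)⁻¹ T⁻¹ l (tot P) ϖ x) 1 with a | a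
    · exact (mul_le_of_le_one_right (Real.exp_pos _).le (H2 x h).2.2.2.1).trans
        (Real.exp_le_exp.2 (θ1 x a).1)
    · have := sm' x h (by linarith [(H2 x h).1 a])
      linarith [mul_le_mul_of_nonneg_right mm (mul_nonneg (Real.exp_pos (l x)).le (Ω0 x h))]
  have sf := sm_far sd sP 1 Lr
  have sθ' : W.A.Sm fun x => 50 * T⁻¹ * far 1 Lr d P x := Alg.smul _ sf
  obtain ⟨w, Ω', st3, r3, sw, H3⟩ := W.buf st2 _ (GR n T) 16 ε sθ' GR0 (by norm_num) ε0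
    (fun x h => by simp [far, ((hl x).2.2 h).2])
    (fun x h _ _ => by
      obtain ⟨a1, a2, -⟩ := H1 x h
      have key : ∀ k : ℝ, 1 ≤ k → tot P x ≤ k * T → (W.pt st2 x).Γ (far 1 Lr d P) (far 1 Lr d P)
          ≤ k ^ 2 * Real.exp (l x) * Ω x * (6 * n * T) := fun k hk hN => by
        have b1 := gam_far (T := W.pt st1 x) (r0 := 1) (Lr := Lr) sd sP (fun g => nP g _)
          (m := k * T) (by positivity) (by rw [W.pt_p]; exact hN) a2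
          (B := Real.exp (l x) * c1) (by positivity) fun g => (a1 _ (sd g)).trans
            (mul_le_mul_of_nonneg_left ((hx x h).2.2.2.1 g) (Real.exp_pos _).le)
        have b2 := mul_le_mul_of_nonneg_left h3
          (show 0 ≤ 2 * (k * T) ^ 2 * Real.exp (l x) by positivity)
        have b3 : 2 * (k * T) ^ 2 * Real.exp (l x) * T⁻¹ = 2 * k ^ 2 * T * Real.exp (l x) := by
          field_simp
        have b4 : k * (n + 1) + k ^ 2 ≤ k ^ 2 * (3 * n) := num_k hk hn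
        have b5 := mul_le_mul_of_nonneg_left b4
          (show 0 ≤ 2 * T * Real.exp (l x) by positivity)
        have b6 : (W.pt st1 x).Γ (far 1 Lr d P) (far 1 Lr d P)
            ≤ k ^ 2 * Real.exp (l x) * (6 * n * T) := by linarith
        have b7 := ((H2 x h).2.2.2.2.2.1 _ sf).trans (mul_le_mul_of_nonneg_left b6 (Ω0 x h))
        linarith
      have b8 : (W.pt st2 x).Γ (far 1 Lr d P) (far 1 Lr d P) ≤ 12 * (6 * n * T) := by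
        rcases le_total (thS (4 * c * δ)⁻¹ T⁻¹ l (tot P) ϖ x) 1 with a | a
        · refine (key 2 one_le_two ?_).trans (mul_le_mul_of_nonneg_right ?_ (by positivity))
          · have := (abs_le.1 (abs_le_of_sq_le_sq (a := T⁻¹ * tot P x - ϖ x ^ 2) (b := 1)
              (by linarith [(θ1 x a).2]) zero_le_one)).2
            have b : T⁻¹ * tot P x ≤ 2 := by linarith [ϖ2 x]
            rwa [← div_eq_inv_mul, div_le_iff₀ hT] at b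
          · linarith [F1 x h, exp_le_three hδ1]
        · refine (key m m1 ((N1 x).trans (by linarith))).trans
            (mul_le_mul_of_nonneg_right ?_ (by positivity))
          linarith [sm' x h (by linarith [(H2 x h).1 a])]
      rw [(W.pt st2 x).smul_left _ sf sθ', (W.pt st2 x).smul_right _ sf sf]
      have b9 := mul_le_mul_of_nonneg_left b8 (show 0 ≤ (50 * T⁻¹) ^ 2 by positivity)
      have e : (50 * T⁻¹) ^ 2 * (12 * (6 * n * T)) = GR n T := by unfold GR; field_simp; norm_num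
      linarith)
  refine ⟨st3, P, u, w, fun x => Real.exp (l x) * Ω x * Ω' x, W.R_trans r1 (W.R_trans r2 r3),
    su, sw, fun g => ⟨sP g, nP g⟩, fun x h => ?_⟩
  obtain ⟨a1, a2, -, a4, a5⟩ := H1 x h
  obtain ⟨b1, b2, b3, b4, -, b6, b7, b8, b9⟩ := H2 x h
  obtain ⟨c1', c2, c3, c4, c5, c6, c7, c8, c9⟩ := H3 x h
  have d0 : 0 ≤ Ω' x := le_trans (by norm_num) c3
  have d1 : 0 ≤ Real.exp (l x) * Ω x := mul_nonneg (Real.exp_pos _).le (Ω0 x h)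
  have d2 : ∀ f, W.A.Sm f → (W.pt st3 x).Γ f f ≤ (W.pt st1 x).Γ f f := fun f hf =>
    (c6 f hf).trans ((mul_le_of_le_one_left ((W.pt st2 x).nonneg hf) c4).trans
      ((b6 f hf).trans (mul_le_of_le_one_left ((W.pt st1 x).nonneg hf) b4)))
  refine ⟨mul_nonneg d1 d0, (mul_le_of_le_one_right d1 c4).trans (F1 x h), fun f hf => ?_,
    fun hu => ?_, (c6 u su).trans ((mul_le_of_le_one_left ((W.pt st2 x).nonneg su) c4).trans b7),
    c7, ?_, fun hu hw => ?_⟩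
  · have := (c6 f hf).trans (mul_le_mul_of_nonneg_left ((b6 f hf).trans
      (mul_le_mul_of_nonneg_left (a1 f hf) (Ω0 x h))) d0)
    linarith
  · rcases hu with hu | hu
    · have e1 := sm' x h hu
      have e2 := mul_le_mul_of_nonneg_right mm d1
      have e3 := mul_le_of_le_one_right d1 c4
      change Real.exp (l x) * Ω x * Ω' x ≤ _
      linarith
    · change Real.exp (l x) * Ω x * Ω' x ≤ _
      rw [c5 hu]; linarith [F1 x h]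
  · have fin : WW n T s / 100 ≤ W.E st2 x → s ≤ W.E st3 x := fun h' =>
      (rich (by norm_num) c3 s0.le (by unfold WW at h'; linarith)).trans c9
    have E0 := (hx x h).1
    rcases le_or_gt (thS (4 * c * δ)⁻¹ T⁻¹ l (tot P) ϖ x) (1 / 2) with a | a
    · have e1 := b8 a
      have e2 : 0 ≤ WW n T s * (far 1 Lr d P x / T) := mul_nonneg W0 (div_nonneg (far0 x) hT.le)
      rcases le_or_gt (50 * T⁻¹ * far 1 Lr d P x) (1 / 2) with b | b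
      · left; linarith [c8 b]
      · right
        have e3 : 1 / 100 ≤ far 1 Lr d P x / T := by rw [div_eq_inv_mul _ T]; linarith
        exact fin (by linarith [mul_le_mul_of_nonneg_left e3 W0])
    · right
      refine fin ((rich lam0 b3 (by positivity) ?_).trans b9)
      have : 3 / 2 * c * δ ≤ l x ∨ 1 / 800 ≤ (tot P x / T - ϖ x ^ 2) ^ 2 := by
        by_contra e
        rw [not_or, not_le, not_le, div_eq_inv_mul _ T] at e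
        have e4 : (4 * c * δ)⁻¹ * l x ≤ 3 / 8 := by
          rw [← div_eq_inv_mul, div_le_iff₀ cδ]; linarith [e.1]
        unfold thS at a
        linarith [e.2]
      linarith [a5 this]
  · have e1 := θ1 x (not_lt.1 fun a => by linarith [b1 a.le])
    have e2 : 50 * T⁻¹ * far 1 Lr d P x ≤ 1 := not_lt.1 fun a => by linarith [c1' a.le]
    refine ⟨(a2.of_le (by rw [W.pt_p, W.pt_p]) fun g => d2 _ (sP g)).mono ?_, e1.2, by linarith⟩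
    linarith [mul_le_mul_of_nonneg_left (exp_le_three (e1.1.trans hδ1))
      (show 0 ≤ n + 1 by linarith)]

end Crest.Agent.N228.A.Gn

end
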