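import Crest.Agent.N228.A.Gen1

/-! # Row 228, part A* (helper11): one generation -/

set_option autoImplicit false
set_option linter.dupNamespace false
open Set

noncomputable section

namespace Crest.Agent.N228.A.Gn

open Crest.Agent.N222.A

/-- growth of the small gradients -/
def BB : ℝ := 4 + 20 * cc ^ 2

theorem four_le_BB : 4 ≤ BB := by unfold BB; nlinarith [sq_nonneg cc]

/-- the invariant of the generations -/
structure GI {n : ℝ} (W : Wd n) {G : Type} [Fintype G] (st0 st : W.St) (d S : G → W.Z → ℝ)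
    (b ϖ : W.Z → ℝ) (C q s' τ Ks e ρ : ℝ) : Prop where
  R : W.R st0 st
  smb : W.A.Sm b
  smϖ : W.A.Sm ϖ
  smS : ∀ g, W.A.Sm (S g)
  hb : ∀ x, b x ^ 2 ≤ 1 ∧ (b x ≠ 0 → ϖ x = 1 ∧ W.om x ≤ -1)
  hϖ : ∀ x, 0 ≤ ϖ x ∧ ϖ x ≤ 1 ∧ (ϖ x ≠ 0 → W.om x ≤ 0)
  hS : ∀ g x, 0 ≤ S g x ∧ S g x + b x ^ 2 ≤ 1 ∧ (S g x ≠ 0 → W.om x ≤ -1 ∧ d g x ≤ ρ)
  le : ∀ x ∈ W.L, ∀ f, W.A.Sm f → (W.pt st x).Γ f f ≤ C * (W.pt st0 x).Γ f f
  le' : ∀ x ∈ W.L, ϖ x ≠ 0 → ∀ f, W.A.Sm f → (W.pt st x).Γ f f ≤ q * (W.pt st0 x).Γ f f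
  E : ∀ x ∈ W.L, s' ≤ W.E st x
  gam : ∀ x ∈ W.L, (W.pt st x).Γ W.om W.om ≤ τ ∧ (W.pt st x).Γ b b ≤ τ ∧ (W.pt st x).Γ ϖ ϖ ≤ τ
  sum : ∀ x ∈ W.L, ∑ g, S g x = cut (-1 - W.om x) ^ 2 - b x ^ 2
  fi : ∀ x ∈ W.L, (W.pt st x).Fi S (C * (Ks * (1 - b x ^ 2) + e))

set_option maxHeartbeats 1600000 in
theorem gen {c : ℝ} (hc : 1 ≤ c) (H : GLc c) {n T s η δ Lr c1 K0 C q e0 : ℝ} (D : ℕ) (hn : 1 ≤ n)
    (hT : 0 < T) (hη : 0 < η) (hs : 8 * η ≤ s) (hδ : 0 < δ) (hδ1 : 4 * c * δ ≤ 1) (hL : 0 < Lr)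
    (hq : 0 ≤ q) (hc1 : 0 ≤ c1) (hK : 0 ≤ K0) (C1 : 1 ≤ C) (C2 : Real.exp (4 * c * δ) * C ≤ 2)
    (he0 : 0 < e0) (h1 : c * n * δ ^ 2 ≤ η * T)
    (h2 : c * WW n T s ^ 2 * T ^ 2 * (q * c1) ≤ η * Lr ^ 2 * δ ^ 3)
    (h3 : cc ^ 2 * Lr⁻¹ ^ 2 * (2 * c1) ≤ T⁻¹) :
    ∃ τ : ℝ, 0 < τ ∧ ∀ ε : ℝ, 0 < ε → ε ≤ τ →
    ∀ (W : Wd n) (G : Type) [Fintype G] [DecidableEq G] (st0 st : W.St) (χ d S : G → W.Z → ℝ)
      (δ' : G → G → ℝ) (b ϖ : W.Z → ℝ) (τ0 e : ℝ), Fintype.card G ≤ D → 0 ≤ e →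
      Dat W G st0 χ d δ' s c1 K0 τ0 →
      GI W st0 st d S b ϖ C q (s / 2 + 4 * η) ε (700 * n * T⁻¹) e (1 + 2 * Lr) →
      ∃ st' S' b' ϖ', GI W st0 st' d S' b' ϖ' (Real.exp (4 * c * δ) * C)
        (Real.exp (4 * c * δ) / 16 * q) (s / 2 + 2 * η) (BB * ε) (700 * n * T⁻¹) (e + e0)
        (1 + 2 * Lr) := by
  have ex1 : 1 ≤ Real.exp (4 * c * δ) := Real.one_le_exp (by positivity)
  have C3 : C ≤ 2 := by linarith [mul_le_mul_of_nonneg_right ex1 (zero_le_one.trans C1)]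
  have ex2 : Real.exp (4 * c * δ) ≤ 2 := by
    linarith [mul_le_mul_of_nonneg_left C1 (Real.exp_pos (4 * c * δ)).le]
  have B4 := four_le_BB
  obtain ⟨τ, τ0, H⟩ := gb hc H (s := s) (γ := q * c1) (c1 := 2 * c1) (K0 := 2 * K0) D hn hT hη hs
    hδ hδ1 hL (by positivity) (by positivity) (by positivity) h1 h2 h3
  refine ⟨min τ (e0 / (8 * BB)), by positivity,
    fun ε ε0 hε W G _ _ st0 st χ d S δ' b ϖ τ1 e hD he dat gi => ?_⟩
  have ε1 : 8 * (BB * ε) ≤ e0 := by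
    have := (le_div_iff₀ (by positivity)).1 (hε.trans (min_le_right _ _)); linarith
  have sd : ∀ g, W.A.Sm (d g) := fun g => (dat.sm g).2.1
  have d2 : ∀ x ∈ W.L, ∀ g, (W.pt st x).Γ (d g) (d g) ≤ C * c1 := fun x h g =>
    (gi.le x h _ (sd g)).trans (mul_le_mul_of_nonneg_left (dat.lip x h g) (by linarith))
  obtain ⟨st', P, u, w, F, r, su, sw, hP, H⟩ := H ε ε0 (hε.trans (min_le_left _ _)) W G st χ d ϖ
    hD dat.sm gi.smϖ gi.hϖ fun x h => ⟨by linarith [gi.E x h], (gi.gam x h).1, (gi.gam x h).2.2,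
      fun g => (d2 x h g).trans (mul_le_mul_of_nonneg_right C3 hc1), fun h0 => by
        obtain ⟨a1, a2, a3⟩ := dat.par x h ((gi.hϖ x).2.2 h0)
        exact ⟨a1, (fi_scale a2 (by rw [W.pt_p, W.pt_p]) (by linarith) fun g =>
          gi.le x h _ (dat.sm g).1).mono (mul_le_mul_of_nonneg_right C3 hK), fun g =>
          ⟨(gi.le' x h h0 _ (sd g)).trans (mul_le_mul_of_nonneg_left (dat.lip x h g) hq), a3 g⟩⟩⟩
  have sP : ∀ g, W.A.Sm (P g) := fun g => (hP g).1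
  have nP : ∀ g x, 0 ≤ P g x := fun g x => (hP g).2 x
  have T0 : 0 ≤ T⁻¹ := (inv_pos.2 hT).le
  have sβ := sm_bad su sw 3
  have sγ := sm_bad su sw 2
  have sQ := sm_qq (Lr := Lr) T0 sd sP nP
  obtain ⟨μ, hμ⟩ : ∃ μ : W.Z → ℝ, μ = fun x => b x * Real.cos (Real.pi / 2 * bad 3 u w x) :=
    ⟨_, rfl⟩
  obtain ⟨b', hb'⟩ : ∃ b' : W.Z → ℝ, b' = fun x => b x * Real.sin (Real.pi / 2 * bad 3 u w x) :=
    ⟨_, rfl⟩
  have sμ : W.A.Sm μ := hμ ▸ W.A.mul gi.smb (sm_cos sβ)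
  have sb' : W.A.Sm b' := hb' ▸ W.A.mul gi.smb (sm_sin sβ)
  have pyth : ∀ x, μ x ^ 2 + b' x ^ 2 = b x ^ 2 := fun x => by
    rw [hμ, hb']; dsimp only
    rw [mul_pow, mul_pow, ← mul_add, Real.cos_sq_add_sin_sq, mul_one]
  have μb : ∀ x, μ x ≠ 0 → b x ≠ 0 ∧ u x < 4 ∧ w x < 4 := fun x h => by
    rw [hμ] at h
    obtain ⟨a1, a2⟩ := mul_ne_zero_iff.1 h
    refine ⟨a1, ?_⟩
    by_contra a
    rw [not_and_or, not_lt, not_lt] at a
    exact a2 (by rw [bad_one (by norm_num; exact a), mul_one, Real.cos_pi_div_two])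
  have F2 : ∀ x ∈ W.L, ∀ f, W.A.Sm f → (W.pt st x).Γ f f ≤ ε → (W.pt st' x).Γ f f ≤ 2 * ε :=
    fun x h f hf h' => ((H x h).2.2.1 f hf).trans
      (mul_le_mul ((H x h).2.1.trans ex2) h' ((W.pt st x).nonneg hf) zero_le_two)
  have gβ : ∀ t, ∀ x ∈ W.L, (W.pt st' x).Γ (bad t u w) (bad t u w) ≤ 4 * cc ^ 2 * ε :=
    fun t x h => gam_bad su sw t (H x h).2.2.2.2.1 (H x h).2.2.2.2.2.1
  have eB : BB * ε = 4 * ε + 20 * (cc ^ 2 * ε) := by unfold BB; ring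
  have cε : 0 ≤ cc ^ 2 * ε := by positivity
  have good : ∀ x ∈ W.L, μ x ≠ 0 → (W.pt st' x).Fi P (6 * n) ∧ T⁻¹ * tot P x ≤ 11 / 10 ∧
      1 / 3 ≤ ∑ g, pr T⁻¹ Lr d P g x := fun x h h0 => by
    obtain ⟨a1, a2, a3⟩ := μb x h0
    obtain ⟨a4, a5, a6⟩ := (H x h).2.2.2.2.2.2.2 a2 a3
    rw [((gi.hb x).2 a1).1] at a5
    have a7 := abs_le.1 (abs_le_of_sq_le_sq (a := T⁻¹ * tot P x - 1 ^ 2) (b := 1 / 10)
      (by linarith) (by norm_num))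
    have a8 := le_sum_pr (d := d) hL T0 nP x
    exact ⟨a4, by linarith [a7.2], by linarith [a7.1]⟩
  refine ⟨st', fun g x => S g x + μ x ^ 2 * qq T⁻¹ Lr d P g x, b', fun x => ϖ x * bad 2 u w x,
    W.R_trans gi.R r, sb', W.A.mul gi.smϖ sγ, fun g =>
      W.A.add (gi.smS g) (W.A.mul (Alg.pow sμ 2) (sQ g)), fun x => ⟨?_, fun h => ?_⟩,
    fun x => ⟨mul_nonneg (gi.hϖ x).1 (bad_mem _ _ _ _).1,
      mul_le_one₀ (gi.hϖ x).2.1 (bad_mem _ _ _ _).1 (bad_mem _ _ _ _).2,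
      fun h => (gi.hϖ x).2.2 (left_ne_zero_of_mul h)⟩, fun g x => ⟨?_, ?_, fun h => ?_⟩,
    fun x h f hf => ?_, fun x h h0 f hf => ?_, fun x h => ?_, fun x h => ⟨?_, ?_, ?_⟩,
    fun x h => ?_, fun x h => ?_⟩
  · linarith [pyth x, (gi.hb x).1, sq_nonneg (μ x)]
  · rw [hb'] at h
    obtain ⟨a1, a2⟩ := mul_ne_zero_iff.1 h
    have a3 : bad 3 u w x ≠ 0 := fun a => a2 (by rw [a, mul_zero, Real.sin_zero])
    refine ⟨?_, ((gi.hb x).2 a1).2⟩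
    rw [((gi.hb x).2 a1).1, bad_one ((bad_ne a3).imp (fun a => by linarith) fun a => by linarith),
      mul_one]
  · exact add_nonneg (gi.hS g x).1 (mul_nonneg (sq_nonneg _) (qq_mem T0 nP g x).1)
  · linarith [(gi.hS g x).2.1, pyth x,
      mul_le_of_le_one_right (sq_nonneg (μ x)) (qq_mem (Lr := Lr) (d := d) T0 nP g x).2]
  · by_cases a : S g x = 0
    · rw [a, zero_add] at h
      obtain ⟨a1, a2⟩ := mul_ne_zero_iff.1 h
      exact ⟨((gi.hb x).2 (μb x fun a => a1 (by rw [a]; ring)).1).2, qq_range hL a2⟩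
    · exact (gi.hS g x).2.2 a
  · rw [mul_assoc]
    exact ((H x h).2.2.1 f hf).trans (mul_le_mul (H x h).2.1 (gi.le x h f hf)
      ((W.pt st x).nonneg hf) (Real.exp_pos _).le)
  · obtain ⟨a1, a2⟩ := mul_ne_zero_iff.1 h0
    rw [mul_assoc]
    exact ((H x h).2.2.1 f hf).trans (mul_le_mul ((H x h).2.2.2.1
      ((bad_ne a2).imp (fun a => by linarith) fun a => by linarith)) (gi.le' x h a1 f hf)
      ((W.pt st x).nonneg hf) (by positivity))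
  · rcases (H x h).2.2.2.2.2.2.1 with a | a <;> linarith [gi.E x h]
  · linarith [F2 x h _ W.om_sm (gi.gam x h).1]
  · have a1 := gam_mul (T := W.pt st' x) gi.smb (sm_sin sβ) (gi.hb _).1 (Real.sin_sq_le_one _)
    rw [← hb'] at a1
    linarith [F2 x h _ gi.smb (gi.gam x h).2.1, gam_sin (T := W.pt st' x) sβ, gβ 3 x h]
  · have a1 := gam_mul (T := W.pt st' x) gi.smϖ sγ (pow_le_one₀ (gi.hϖ _).1 (gi.hϖ _).2.1)
      (pow_le_one₀ (bad_mem _ _ _ _).1 (bad_mem _ _ _ _).2)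
    linarith [F2 x h _ gi.smϖ (gi.gam x h).2.2, gβ 2 x h]
  · rw [Finset.sum_add_distrib, ← Finset.mul_sum, gi.sum x h]
    by_cases a : μ x = 0
    · have := pyth x
      rw [a] at this ⊢; linarith
    · rw [sum_qq (good x h a).2.2]; linarith [pyth x]
  · have K0' : 0 ≤ 700 * n * T⁻¹ := by positivity
    have f0 := gi.fi x h
    have f1 := (fi_scale f0 (T' := W.pt st' x) (by rw [W.pt_p, W.pt_p]) (H x h).1 fun g =>
      (H x h).2.2.1 _ (gi.smS g)).mono (mul_le_mul_of_nonneg_right (H x h).2.1 f0.nonneg)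
    have f2 : (W.pt st' x).Fi (fun g x => μ x ^ 2 * qq T⁻¹ Lr d P g x)
        (700 * n * T⁻¹ * μ x ^ 2 + e0) := by
      by_cases a : μ x = 0
      · exact (fi_zero sQ sμ (by rw [W.pt_p]; exact a)).mono (by positivity)
      · obtain ⟨a1, a2, a3⟩ := good x h a
        have a4 := fi_qq (T := W.pt st' x) (Lr := Lr) T0 sd sP nP a1 (B := 2 * c1) (by positivity)
          (fun g => ((H x h).2.2.1 _ (sd g)).trans ((mul_le_mul (H x h).2.1 (d2 x h g)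
            ((W.pt st x).nonneg (sd g)) (Real.exp_pos _).le).trans (by
              rw [← mul_assoc]; exact mul_le_mul_of_nonneg_right C2 hc1)))
          (by rw [W.pt_p]; exact a3)
        rw [W.pt_p] at a4
        have a5 := mul_le_mul h3 a2 (mul_nonneg T0 (Finset.sum_nonneg fun g _ => nP g x)) T0
        have a6 := mul_le_mul_of_nonneg_right hn T0
        have a7 := (a4.mono (I' := 350 * n * T⁻¹) (by linarith)).mul_sq sQ
          (fun g => (qq_mem T0 nP g _).1) (w := fun _ => μ) (fun _ => sμ) (a := μ x ^ 2)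
          (B := BB * ε) (sq_nonneg _) (fun _ => by rw [W.pt_p]) (by positivity) fun _ _ => by
            have b1 := gam_mul (T := W.pt st' x) gi.smb (sm_cos sβ) (gi.hb _).1
              (Real.cos_sq_le_one _)
            rw [← hμ] at b1
            linarith [F2 x h _ gi.smb (gi.gam x h).2.1, gam_cos (T := W.pt st' x) sβ, gβ 3 x h]
        rw [W.pt_p, sum_qq a3] at a7
        exact a7.mono (by linarith)
    refine (f1.add f2 gi.smS (fun g => W.A.mul (Alg.pow sμ 2) (sQ g)) (fun g => (gi.hS g _).1)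
      fun g => mul_nonneg (sq_nonneg _) (qq_mem T0 nP g _).1).mono ?_
    have a1 : 1 ≤ Real.exp (4 * c * δ) * C := one_le_mul_of_one_le_of_one_le ex1 C1
    have a2 := mul_le_mul_of_nonneg_right a1
      (show 0 ≤ 700 * n * T⁻¹ * μ x ^ 2 + e0 by positivity)
    rw [← pyth x]
    linarith

end Crest.Agent.N228.A.Gn

end
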