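import Crest.Agent.N228.A.Gen2

/-! # Row 228, part A* (helper11): all generations -/

set_option autoImplicit false
set_option linter.dupNamespace false
open Set

noncomputable section

namespace Crest.Agent.N228.A

open Crest.Agent.N222.A Gn

theorem Gn.exists_min (f : ℕ → ℝ) (hf : ∀ k, 0 < f k) (K : ℕ) :
    ∃ t : ℝ, 0 < t ∧ ∀ k ≤ K, t ≤ f k := by
  induction K with
  | zero => exact ⟨f 0, hf 0, fun k hk => by rw [Nat.le_zero.1 hk]⟩
  | succ K ih =>
    obtain ⟨t, t0, ht⟩ := ih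
    refine ⟨min t (f (K + 1)), lt_min t0 (hf _), fun k hk => ?_⟩
    rcases Nat.of_le_succ hk with h | h
    · exact (min_le_left _ _).trans (ht k h)
    · rw [h]; exact min_le_right _ _

theorem Gn.exists_delta {c a b : ℝ} (hc : 0 < c) (ha : 0 < a) (hb : 0 < b) :
    ∃ δ : ℝ, 0 < δ ∧ 24 * c * δ ≤ 1 ∧ a * δ ^ 2 ≤ b := by
  refine ⟨min (1 / (24 * c)) (min 1 (b / a)), by positivity, ?_, ?_⟩
  · have := (le_div_iff₀ (by positivity)).1 (min_le_left (1 / (24 * c)) (min 1 (b / a)))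
    linarith
  · have h0 : 0 < min (1 / (24 * c)) (min 1 (b / a)) := by positivity
    have h1 := (min_le_right (1 / (24 * c)) (min 1 (b / a))).trans (min_le_left _ _)
    have h2 := (le_div_iff₀ ha).1
      ((min_le_right (1 / (24 * c)) (min 1 (b / a))).trans (min_le_right _ _))
    generalize min (1 / (24 * c)) (min 1 (b / a)) = t at *
    nlinarith [mul_le_mul_of_nonneg_left h1 (mul_pos h0 ha).le]

set_option maxHeartbeats 1600000 in
theorem merge (hG : GLStmt) : MergeStmt := by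
  obtain ⟨c, hc, H⟩ := hG
  replace H : GLc c := H
  intro n hn
  refine ⟨4200 * n, by linarith, fun T s c1 hT hs hc1 => ?_⟩
  have c0 : 0 < c := by linarith
  obtain ⟨δ0, δ0p, δ1, δ2⟩ := exists_delta (a := c * n) (b := s / 8 * T) c0 (by positivity)
    (by positivity)
  obtain ⟨Lr, hLr⟩ : ∃ Lr : ℝ, Lr = 1 + cc ^ 2 * (2 * c1) * T
    + c * WW n T s ^ 2 * T ^ 2 * (2 * c1) / (s / 8 * δ0 ^ 3) := ⟨_, rfl⟩
  have p1 : 0 ≤ cc ^ 2 * (2 * c1) * T := by positivity
  have p2 : 0 ≤ c * WW n T s ^ 2 * T ^ 2 * (2 * c1) / (s / 8 * δ0 ^ 3) := by positivity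
  have L1 : 1 ≤ Lr := by linarith
  have L0 : 0 < Lr := by linarith
  have L2 : Lr ≤ Lr ^ 2 := by nlinarith
  have h3 : cc ^ 2 * Lr⁻¹ ^ 2 * (2 * c1) ≤ T⁻¹ := by
    rw [inv_pow, mul_right_comm, ← div_eq_mul_inv, div_le_iff₀ (by positivity), ← div_eq_inv_mul,
      le_div_iff₀ hT]
    linarith
  have h2 : c * WW n T s ^ 2 * T ^ 2 * (2 * c1) ≤ s / 8 * Lr ^ 2 * δ0 ^ 3 := by
    have : c * WW n T s ^ 2 * T ^ 2 * (2 * c1) / (s / 8 * δ0 ^ 3) ≤ Lr ^ 2 := by linarith
    rw [div_le_iff₀ (by positivity)] at this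
    linarith
  refine ⟨1 + 2 * Lr, by linarith, fun K0 D hK => ?_⟩
  obtain ⟨Ks, hKs⟩ : ∃ Ks : ℝ, Ks = 700 * n * T⁻¹ := ⟨_, rfl⟩
  have Ks0 : 0 < Ks := by rw [hKs]; positivity
  obtain ⟨K, hK'⟩ := pow_unbounded_of_one_lt (4 * K0 / Ks) (by norm_num : (1 : ℝ) < 16)
  obtain ⟨C, hC⟩ : ∃ C : ℕ → ℝ, C = fun k => Real.exp (12 * c * δ0 - 12 * c * (δ0 * (2 / 3) ^ k)) :=
    ⟨_, rfl⟩
  have r1 : ∀ k : ℕ, (2 / 3 : ℝ) ^ k ≤ 1 := fun k => pow_le_one₀ (by norm_num) (by norm_num)
  have cδ : 0 < c * δ0 := by positivity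
  have C1 : ∀ k, 1 ≤ C k := fun k => by
    rw [hC]; exact Real.one_le_exp (by linarith [mul_le_of_le_one_right cδ.le (r1 k)])
  have C2 : ∀ k, C k ≤ 2 := fun k => by
    have a : 0 ≤ c * δ0 * (2 / 3) ^ k := by positivity
    rw [hC]
    refine (Real.exp_le_exp.2 (show _ ≤ 1 / 2 by linarith)).trans ?_
    refine le_of_sq_le_sq ?_ zero_le_two
    rw [← Real.exp_nat_mul]
    norm_num
    linarith [Real.exp_one_lt_d9]
  have Cs : ∀ k, Real.exp (4 * c * (δ0 * (2 / 3) ^ k)) * C k = C (k + 1) := fun k => by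
    rw [hC]; dsimp only
    rw [← Real.exp_add, pow_succ]; congr 1; ring
  have B4 := four_le_BB
  have key := fun k : ℕ => gen hc H (n := n) (T := T) (s := s) (η := s / 8 * (1 / 2) ^ k)
    (δ := δ0 * (2 / 3) ^ k) (Lr := Lr) (c1 := c1) (K0 := K0) (C := C k) (q := C k * (1 / 16) ^ k)
    (e0 := Ks / (K + 1)) D hn hT (by positivity)
    (by
      have a : (1 / 2 : ℝ) ^ k ≤ 1 := pow_le_one₀ (by norm_num) (by norm_num)
      linarith [mul_le_of_le_one_right hs.le a])
    (by positivity) (by linarith [mul_le_of_le_one_right cδ.le (r1 k)]) L0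
    (by have := C1 k; positivity) hc1 hK (C1 k) (by rw [Cs]; exact C2 _) (by positivity)
    (by
      have a1 : ((2 / 3 : ℝ) ^ k) ^ 2 ≤ (1 / 2) ^ k := by
        rw [← pow_mul, mul_comm, pow_mul]
        exact pow_le_pow_left₀ (by norm_num) (by norm_num) k
      have a2 := mul_le_mul δ2 a1 (sq_nonneg _) (by positivity)
      linarith)
    (by
      have a1 : (1 / 16 : ℝ) ^ k ≤ (1 / 2) ^ k * ((2 / 3) ^ k) ^ 3 := by
        rw [← pow_mul, mul_comm k, pow_mul, ← mul_pow]
        exact pow_le_pow_left₀ (by norm_num) (by norm_num) k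
      have a2 := mul_le_mul h2 a1 (by positivity) (by positivity)
      have a3 := mul_le_mul_of_nonneg_left (C2 k)
        (show 0 ≤ c * WW n T s ^ 2 * T ^ 2 * c1 * (1 / 16) ^ k by positivity)
      linarith)
    h3
  choose τ τ0 key using key
  obtain ⟨t, t0, ht⟩ := exists_min (fun k => min (τ k) (Ks / 8) / BB ^ k)
    (fun k => by have := τ0 k; positivity) K
  have ht' : ∀ k ≤ K, BB ^ k * t ≤ min (τ k) (Ks / 8) := fun k hk => by
    have := (le_div_iff₀ (by positivity)).1 (ht k hk); linarith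
  have cc1 : 1 ≤ cc ^ 2 := one_le_pow₀ one_le_cc
  refine ⟨t / cc ^ 2, by positivity, fun W G _ _ st0 χ d δ' hD dat => ?_⟩
  have om1 : ∀ x ∈ W.L, cc ^ 2 * (W.pt st0 x).Γ W.om W.om ≤ t := fun x h => by
    have := (le_div_iff₀ (by positivity)).1 (dat.om x h); linarith
  have ind : ∀ k ≤ K, ∃ st S b ϖ, GI W st0 st d S b ϖ (C k) (C k * (1 / 16) ^ k)
      (s / 2 + 4 * (s / 8 * (1 / 2) ^ k)) (BB ^ k * t) (700 * n * T⁻¹) (k * (Ks / (K + 1)))
      (1 + 2 * Lr) := by
    intro k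
    induction k with
    | zero =>
      intro _
      have e0 : C 0 = 1 := by rw [hC]; simp
      have a0 : ∀ x, cut (-1 * W.om x + -1) ^ 2 ≤ 1 := fun x =>
        pow_le_one₀ (cut_nonneg _) (cut_le_one _)
      refine ⟨st0, fun _ _ => 0, fun x => cut (-1 * W.om x + -1), fun x => cut (-1 * W.om x + 0),
        W.R_refl _, sm_lin W.om_sm _ _, sm_lin W.om_sm _ _, fun _ => W.A.const 0,
        fun x => ⟨a0 x, fun h => ?_⟩, fun x => ⟨cut_nonneg _, cut_le_one _, fun h => ?_⟩,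
        fun g x => ⟨le_rfl, by linarith [a0 x], fun h => absurd rfl h⟩,
        fun x _ f _ => by rw [e0, one_mul], fun x _ _ f _ => by rw [e0]; simp,
        fun x h => by linarith [dat.E x h], fun x h => ⟨?_, ?_, ?_⟩, fun x _ => ?_, fun x _ => ?_⟩
      · have : W.om x ≤ -1 := by by_contra a; exact h (cut_zero (by linarith))
        exact ⟨cut_one (by linarith), this⟩
      · by_contra a; exact h (cut_zero (by linarith))
      · linarith [om1 x h, mul_le_mul_of_nonneg_right cc1 ((W.pt st0 x).nonneg W.om_sm)]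
      · linarith [om1 x h, gam_cut (T := W.pt st0 x) W.om_sm (-1) (-1)]
      · linarith [om1 x h, gam_cut (T := W.pt st0 x) W.om_sm (-1) 0]
      · rw [show -1 * W.om x + -1 = -1 - W.om x by ring]; simp
      · refine ⟨fun _ => 0, fun _ => ⟨le_rfl, by
          rw [(W.pt st0 x).const_left 0 (W.A.const 0)]; simp⟩, ?_⟩
        have := mul_nonneg Ks0.le (sub_nonneg.2 (a0 x))
        rw [e0, ← hKs]; simpa using this
    | succ k ih =>
      intro hk
      obtain ⟨st, S, b, ϖ, gi⟩ := ih (by omega)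
      obtain ⟨st', S', b', ϖ', gi'⟩ := key k _ (by positivity)
        ((ht' k (by omega)).trans (min_le_left _ _)) W G st0 st χ d S δ' b ϖ _ _ hD
        (by positivity) dat gi
      refine ⟨st', S', b', ϖ', ?_⟩
      rw [← Cs]
      convert gi' using 1
      · ring
      · ring
      · ring
      · push_cast; ring
  obtain ⟨st, S, b, ϖ, gi⟩ := ind K le_rfl
  have sχ : ∀ g, W.A.Sm (χ g) := fun g => (dat.sm g).1
  have nχ : ∀ g x, 0 ≤ b x ^ 2 * χ g x := fun g x => mul_nonneg (sq_nonneg _) ((dat.sm g).2.2 x).1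
  have s2 : ∀ g, W.A.Sm fun x => b x ^ 2 * χ g x := fun g => W.A.mul (Alg.pow gi.smb 2) (sχ g)
  refine ⟨st, fun g x => S g x + b x ^ 2 * χ g x, gi.R, fun g => ⟨W.A.add (gi.smS g) (s2 g),
    fun x => ⟨add_nonneg (gi.hS g x).1 (nχ g x), ?_, fun h => ?_⟩⟩, fun x h => ⟨fun f hf =>
      (gi.le x h f hf).trans (mul_le_mul_of_nonneg_right (C2 K) ((W.pt st0 x).nonneg hf)),
      ?_, ?_, ?_, fun g hg => ?_⟩⟩
  · linarith [(gi.hS g x).2.1, mul_le_of_le_one_right (sq_nonneg (b x)) ((dat.sm g).2.2 x).2]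
  · by_cases a : S g x = 0
    · dsimp only at h
      rw [a, zero_add] at h
      exact ((gi.hb x).2 fun a => left_ne_zero_of_mul h (by rw [a]; ring)).2
    · exact ((gi.hS g x).2.2 a).1
  · have : 0 ≤ s / 8 * (1 / 2) ^ K := by positivity
    linarith [gi.E x h]
  · rw [Finset.sum_add_distrib, ← Finset.mul_sum, gi.sum x h]
    by_cases a : b x = 0
    · rw [a]; ring
    · rw [(dat.par x h (by linarith [((gi.hb x).2 a).2])).1]; ring
  · have f2 : (W.pt st x).Fi (fun g x => b x ^ 2 * χ g x) (2 * Ks) := by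
      by_cases a : b x = 0
      · exact (fi_zero sχ gi.smb (by rw [W.pt_p]; exact a)).mono (by positivity)
      · obtain ⟨a1, a2⟩ := (gi.hb x).2 a
        obtain ⟨a3, a4, -⟩ := dat.par x h (by linarith)
        have q0 : 0 ≤ C K * (1 / 16) ^ K := by have := C1 K; positivity
        have a5 := (fi_scale a4 (T' := W.pt st x) (by rw [W.pt_p, W.pt_p]) q0 fun g =>
          gi.le' x h (by rw [a1]; exact one_ne_zero) _ (sχ g)).mul_sq sχ
          (fun g => ((dat.sm g).2.2 _).1) (w := fun _ => b) (fun _ => gi.smb) (a := 1)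
          (B := BB ^ K * t) zero_le_one (fun _ => (gi.hb _).1) (by positivity)
          fun _ _ => (gi.gam x h).2.1
        rw [W.pt_p, a3] at a5
        refine a5.mono ?_
        have a6 := (ht' K le_rfl).trans (min_le_right _ _)
        have a7 : 4 * K0 * (1 / 16) ^ K ≤ Ks := by
          rw [div_lt_iff₀ Ks0] at hK'
          rw [one_div, inv_pow, ← div_eq_mul_inv, div_le_iff₀ (by positivity)]
          linarith
        have a8 := mul_le_mul_of_nonneg_right (C2 K)
          (show 0 ≤ (1 / 16 : ℝ) ^ K * K0 by positivity)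
        linarith
    refine ((gi.fi x h).add f2 gi.smS s2 (fun g => (gi.hS g _).1) fun g => nχ g _).mono ?_
    have a1 : (K : ℝ) * (Ks / (K + 1)) ≤ Ks := by
      rw [← mul_div_assoc, div_le_iff₀ (by positivity)]; linarith
    have a2 : 0 ≤ Ks * b x ^ 2 := by positivity
    have a3 : 0 ≤ Ks * (1 - b x ^ 2) + K * (Ks / (K + 1)) :=
      add_nonneg (mul_nonneg Ks0.le (sub_nonneg.2 (gi.hb x).1)) (by positivity)
    have a4 := mul_le_mul_of_nonneg_right (C2 K) a3
    have a5 : 4200 * n / T = 6 * Ks := by rw [hKs]; ring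
    rw [← hKs]
    linarith
  · by_cases a : S g x = 0
    · dsimp only at hg
      rw [a, zero_add] at hg
      have a1 : b x ≠ 0 := fun a => by rw [a] at hg; simp at hg
      have := (dat.par x h (by linarith [((gi.hb x).2 a1).2])).2.2 g
        ((mul_pos_iff_of_pos_left (by positivity)).1 hg)
      linarith
    · exact ((gi.hS g x).2.2 a).2

end Crest.Agent.N228.A

end
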