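import Crest.Agent.N228.A.Basic
import Crest.Agent.N222.A.Stage

/-! # Row 228, part A*: the stage lemma (helper61; adapted from `N222/A/Stage*` of helper11) -/

set_option autoImplicit false
set_option linter.dupNamespace false
set_option maxHeartbeats 400000
open Set

noncomputable section

namespace Crest.Agent.N228.A

open Crest.Agent.N222.A Crest.Agent.N222.A.Stg

namespace St1

/-- the coefficient of the stage is slow -/
theorem slowQ' {Z : Type} {A : Alg Z} (T : Pt A) {Y : Z → ℝ} (sY : A.Sm Y) {r z Ys ι s : ℝ}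
    (hz : 0 < z) (hzr : z ≤ r) (hYs : 0 < Ys) (hι : 0 < ι) (hs : 0 < s)
    (hL : cc * r / Ys = 1 / (51 * ι * s ^ 3)) (hΓ : Y T.p < Ys → T.Γ Y Y ≤ 4 * ι * s ^ 4) :
    T.Γ (fun x => (Hf r z Ys (Y x) ^ 2)⁻¹ / (2 * ι * s ^ 2))
        (fun x => (Hf r z Ys (Y x) ^ 2)⁻¹ / (2 * ι * s ^ 2)) ≤
      ((Hf r z Ys (Y T.p) ^ 2)⁻¹ / (2 * ι * s ^ 2)) ^ 3 / 81 := by
  have hp : ∀ t, 0 < Hf r z Ys t := fun t => hz.trans_le (le_Hf hzr t)
  have sQ : A.Sm fun x => (Hf r z Ys (Y x) ^ 2)⁻¹ / (2 * ι * s ^ 2) :=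
    Alg.div_const (Alg.inv (Alg.pow (sm_Hf sY) 2) fun x => pow_pos (hp _) 2) _
  have hd := (((hasDerivAt_Hf (r := r) (z := z) (Ys := Ys) (Y T.p)).pow 2).inv
    (pow_pos (hp (Y T.p)) 2).ne').div_const (2 * ι * s ^ 2)
  rw [T.chain_self (φ := fun t => (Hf r z Ys t ^ 2)⁻¹ / (2 * ι * s ^ 2)) sY sQ hd]
  have h0 := hp (Y T.p)
  simp only [Pi.pow_apply]
  rcases lt_or_ge (Y T.p) Ys with h | h
  · have h1 := hΓ h
    have h2 : |(r - z) * -(deriv cut (Y T.p / Ys) * (1 / Ys))| ≤ 1 / (51 * ι * s ^ 3) := by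
      rw [← hL, abs_mul, abs_neg, abs_mul, abs_of_nonneg (sub_nonneg.2 hzr),
        abs_of_pos (one_div_pos.2 hYs)]
      have := mul_le_mul (show r - z ≤ r by linarith)
        (mul_le_mul_of_nonneg_right (abs_deriv_cut_le (Y T.p / Ys)) (one_div_pos.2 hYs).le)
        (by positivity) (by linarith)
      exact this.trans_eq (by ring)
    generalize (r - z) * -(deriv cut (Y T.p / Ys) * (1 / Ys)) = D at *
    generalize Hf r z Ys (Y T.p) = h at *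
    have h3 : D ^ 2 ≤ (1 / (51 * ι * s ^ 3)) ^ 2 := sq_le_sq' (abs_le.1 h2).1 (abs_le.1 h2).2
    have h4 := mul_le_mul h3 h1 (T.nonneg sY) (sq_nonneg _)
    have h5 := mul_le_mul_of_nonneg_left h4
      (show 0 ≤ 1 / (h ^ 6 * ι ^ 2 * s ^ 4) by positivity)
    refine le_of_eq_of_le ?_ (h5.trans ?_)
    · norm_num; field_simp
    · have e1 : 1 / (h ^ 6 * ι ^ 2 * s ^ 4) * ((1 / (51 * ι * s ^ 3)) ^ 2 * (4 * ι * s ^ 4))
          = 4 / 2601 * (1 / (h ^ 6 * ι ^ 3 * s ^ 6)) := by field_simp; norm_num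
      have e2 : ((h ^ 2)⁻¹ / (2 * ι * s ^ 2)) ^ 3 / 81
          = 1 / 648 * (1 / (h ^ 6 * ι ^ 3 * s ^ 6)) := by field_simp; norm_num
      rw [e1, e2]
      exact mul_le_mul_of_nonneg_right (by norm_num) (by positivity)
  · rw [cut_deriv_zero (Or.inr ((one_le_div hYs).2 h))]
    simp only [zero_mul, neg_zero, mul_zero, zero_div, ne_eq, OfNat.ofNat_ne_zero,
      not_false_eq_true, zero_pow]
    positivity

variable {n c : ℝ} (W : Wd n) {G : Type} [Fintype G] [DecidableEq G]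
  (C : Cst (n * c) (Fintype.card G)) (st : W.St) (M σ : G → W.Z → ℝ) (j : W.Z → G → ℝ)

/-- the invariant of a stage -/
def SInv (t : G → ℕ) (a : W.St × (G → W.Z → ℝ) × List (W.Z → ℝ)) : Prop :=
  (∀ g, t g ≤ C.R) ∧ W.R st a.1 ∧ W.Le st a.1 ∧ Ms W c a.1 (fun g x => M g x + a.2.1 g x) a.2.2 ∧
  Ms W c a.1 a.2.1 a.2.2 ∧
  ∀ x ∈ W.L, W.E st x - 2 * (C.r ^ 2)⁻¹ - C.ε * ∑ g, (t g : ℝ) ≤ W.E a.1 x -
    (Hf C.r C.z C.Ys (Yf C.dl (fun g => t g * C.ab) σ a.2.1 x) ^ 2)⁻¹ *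
      (2 - tau C.ι C.s (fun g => t g * C.ab) (j x) fun g => σ g x)

theorem sinv_step (hn : 1 ≤ n) (hc1 : 1 ≤ c)
    (hw : ∀ x ∈ W.L, cw * (W.pt st x).Γ W.om W.om ≤ (C.r ^ 2)⁻¹ / (2 * C.ι * C.s ^ 2))
    (hσ : ∀ g, W.A.Sm (σ g) ∧ ∀ x, 0 ≤ σ g x ∧ σ g x ≤ 1 ∧ (1 ≤ W.om x → σ g x = 0))
    (hj : ∀ x ∈ W.L, ∑ g, σ g x ≤ 1 ∧ ∑ g, j x g ≤ C.ι ∧
      ∀ g, 0 ≤ j x g ∧ (W.pt st x).Γ (σ g) (σ g) ≤ j x g * σ g x)
    (t : G → ℕ) (a : W.St × (G → W.Z → ℝ) × List (W.Z → ℝ)) (g : G) (hg : t g < C.R)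
    (h : SInv W C st M σ j t a) :
    ∃ a', SInv W C st M σ j (Function.update t g (t g + 1)) a' := by
  obtain ⟨st1, Δ, vs⟩ := a
  obtain ⟨ht, hR, le, ok, ms, inv⟩ := h
  dsimp only at hR ok ms le inv
  have hι := C.hι
  have hs := C.hs
  have hab := C.hab
  have hr : 0 < C.r := C.hz.trans_le C.hzr
  have hp : ∀ t, 0 < Hf C.r C.z C.Ys t := fun t => C.hz.trans_le (le_Hf C.hzr t)
  have sY : W.A.Sm (Yf C.dl (fun g => t g * C.ab) σ Δ) := sm_Yf C.hdl (fun g => (hσ g).1) ms.sm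
  have sσ : W.A.Sm fun x => C.ab * σ g x := Alg.smul _ (hσ g).1
  obtain ⟨v, st2, hR2, sv, hv, -, hE⟩ := W.pstep st1
    (fun x => (Hf C.r C.z C.Ys (Yf C.dl (fun g => t g * C.ab) σ Δ x) ^ 2)⁻¹
      / (2 * C.ι * C.s ^ 2)) (fun x => C.ab * σ g x) (fun _ => 0)
    ((C.r ^ 2)⁻¹ / (2 * C.ι * C.s ^ 2)) 0 C.ab C.u0 (C.ε / 2)
    (Alg.div_const (Alg.inv (Alg.pow (sm_Hf sY) 2) fun x => pow_pos (hp _) 2) _) sσ (W.A.const 0)
    (by positivity)
    (fun x => div_le_div_of_nonneg_right (inv_anti₀ (pow_pos (hp _) 2)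
      (pow_le_pow_left₀ (hp _).le (Hf_le C.hzr _) 2)) (by positivity)) le_rfl
    (fun x => ⟨mul_nonneg hab.le ((hσ g).2 x).1, mul_le_of_le_one_right hab.le ((hσ g).2 x).2.1⟩)
    (fun x hx => ⟨by rw [((hσ g).2 x).2.2 hx, mul_zero], le_rfl⟩) C.hu (half_pos C.hε)
    fun x hx => (mul_le_mul_of_nonneg_left (le x hx _ W.om_sm)
      (by unfold cw; positivity)).trans (hw x hx)
  simp only [zero_mul, zero_div, Real.exp_zero] at hE
  have le2 : W.Le st1 st2 := fun x hx f hf => by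
    simpa using step_le zero_le_one sv ((hE x hx).1 f f hf hf)
  have ht' : ∀ g', Function.update t g (t g + 1) g' ≤ C.R := fun g' => by
    by_cases e : g' = g
    · subst e; rw [Function.update_self]; omega
    · rw [Function.update_of_ne e]; exact ht g'
  have hc : ∀ (t : G → ℕ), (∀ g, t g ≤ C.R) → ∀ g, (t g : ℝ) * C.ab ≤ C.s ^ 2 := fun t ht g =>
    C.hR ▸ mul_le_mul_of_nonneg_right (Nat.cast_le.2 (ht g)) hab.le
  refine ⟨(st2, upd Δ g v, v :: vs), ht', W.R_trans hR hR2, le.trans le2, ?_,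
    ms.upd hc1 g sv fun x hx => (hE x hx).1, fun x hx => ?_⟩
  · have := ok.upd hc1 g sv fun x hx => (hE x hx).1
    have e : upd (fun g x => M g x + Δ g x) g v = fun g' x => M g' x + upd Δ g v g' x := by
      funext g' x; simp only [upd, add_assoc]
    rwa [e] at this
  replace inv := inv x hx
  replace hj := hj x hx
  replace hE := (hE x hx).2
  have fi := ms.fi (by linarith) hx
  have hY := Yf_upd C.dl C.ab t σ Δ g v x
  have σ0 : ∀ g, 0 ≤ σ g x := fun g => ((hσ g).2 _).1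
  have τ1 := tau_le hι hs (hc _ ht') (fun g => (hj.2.2 g).1) σ0 hj.2.1 hj.1
  have τ0 := tau_nonneg (s := C.s) hι (c := fun g => t g * C.ab) (fun g => by positivity)
    (fun g => (hj.2.2 g).1) σ0
  have es : ∑ g', ((Function.update t g (t g + 1) g' : ℕ) : ℝ) = ∑ g', (t g' : ℝ) + 1 := by
    rw [sum_off (fun g' => (t g' : ℝ)) _ g (fun g' hg' => by simp [Function.update_of_ne hg'])]
    simp
  dsimp only
  rw [tau_upd] at τ1 ⊢
  rw [es]
  have j0 : 0 ≤ C.ab * j x g := mul_nonneg hab.le (hj.2.2 g).1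
  have s0 : 0 ≤ C.ab * σ g x := mul_nonneg hab.le (σ0 g)
  have hε := C.hε
  have hΓ : Yf C.dl (fun g => t g * C.ab) σ Δ (W.pt st1 x).p < C.Ys →
      (W.pt st1 x).Γ (Yf C.dl (fun g => t g * C.ab) σ Δ) (Yf C.dl (fun g => t g * C.ab) σ Δ)
        ≤ 4 * C.ι * C.s ^ 4 := fun hlt => by
    have fσ : (W.pt st1 x).Fi σ C.ι := ⟨j x, fun g => ⟨(hj.2.2 g).1, by
      rw [W.pt_p]; exact (le x hx _ (hσ g).1).trans (hj.2.2 g).2⟩, hj.2.1⟩
    have h1 := gam_Yf (W.pt st1 x) (c := fun g => t g * C.ab) (B := C.s ^ 2) C.hdl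
      (fun g => (hσ g).1) ms.sm (fun g => ((hσ g).2 _).1) (fun g => ms.nn g _) fi fσ
      (fun g => by rw [abs_of_nonneg (by positivity)]; exact hc t ht g)
    rw [W.pt_p] at h1 hlt
    have h2 := sum_abs_le C.dl (fun g => t g * C.ab) σ Δ x
    have h3 : ∑ g, Δ g x ≤ ∑ g, (|Δ g x - t g * C.ab * σ g x| + C.s ^ 2 * σ g x) :=
      Finset.sum_le_sum fun g _ => by
        have := le_abs_self (Δ g x - t g * C.ab * σ g x)
        have := mul_le_mul_of_nonneg_right (hc t ht g) (σ0 g)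
        linarith
    rw [Finset.sum_add_distrib, ← Finset.mul_sum] at h3
    have h4 := mul_le_mul_of_nonneg_left hj.1 (sq_nonneg C.s)
    have h5 : ∑ g, Δ g x ≤ 2 * C.s ^ 2 := by linarith [C.hk]
    have h6 := mul_le_mul h5 C.hn (by nlinarith) (by positivity)
    have h7 := mul_le_mul_of_nonneg_left hj.1
      (show 0 ≤ (C.s ^ 2) ^ 2 * C.ι by positivity)
    linarith
  have h1 := slowQ' (W.pt st1 x) sY C.hz C.hzr C.hYs hι hs C.hL hΓ
  rw [W.pt_p] at h1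
  have h2 := hE (C.ab * j x g) j0 h1 (by
    rw [(W.pt st1 x).smul_left _ (hσ g).1 sσ, (W.pt st1 x).smul_right _ (hσ g).1 (hσ g).1]
    have := mul_le_mul_of_nonneg_left ((le x hx _ (hσ g).1).trans (hj.2.2 g).2)
      (mul_self_nonneg C.ab)
    linarith)
  rw [(W.pt st1 x).const_right 0 sv, one_mul, show ∀ U V w a : ℝ, zg n 0 U V w a = 0 from
    fun U V w a => by simp [zg], add_zero] at h2
  obtain ⟨v0, v1⟩ := hv x
  have hu := C.hu
  have h3 := le_slow (U := C.u0 + v x) (W := √(1 + (W.pt st1 x).Γ v v))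
    (r := (C.u0 + v x) ^ 2 / 4 - C.u0 ^ 2 / 4 - C.ab * σ g x) (j := C.ab * j x g)
    (by linarith) (Real.one_le_sqrt.2 (by linarith [(W.pt st1 x).nonneg sv]))
    (show 0 ≤ (Hf C.r C.z C.Ys (Yf C.dl (fun g => t g * C.ab) σ Δ x) ^ 2)⁻¹
      / (2 * C.ι * C.s ^ 2) by positivity) s0
  have h4 := Hf_lip C.hz.le C.hzr C.hYs (Yf C.dl (fun g => t g * C.ab) σ Δ x)
    (Yf C.dl (fun g' => (Function.update t g (t g + 1) g' : ℕ) * C.ab) σ (upd Δ g v) x)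
  rw [C.hL] at h4
  have h5 := h4.trans (mul_le_mul_of_nonneg_left hY (by positivity))
  rw [one_div_mul_eq_div] at h5
  obtain ⟨v2, v3, v4⟩ := v_num v0 hu hab v1
  have s1 := mul_le_of_le_one_right hab.le ((hσ g).2 x).2.1
  have h6 : |v x ^ 2 / 4 - C.ab * σ g x| / (51 * C.ι * C.s ^ 3) ≤ C.z / 2 :=
    (div_le_div_of_nonneg_right
      (abs_le.2 ⟨by linarith [sq_nonneg (v x)], by linarith⟩) (by positivity)).trans C.hz2
  have h7 := le_Hf (Ys := C.Ys) C.hzr (Yf C.dl (fun g => t g * C.ab) σ Δ x)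
  have h8 := step_num (p := (C.u0 + v x) ^ 2 / 4) (p0 := C.u0 ^ 2 / 4)
    (w := C.u0 * (1 + C.ab) / 2) hι hs C.hz h7
    ((mul_le_mul_of_nonneg_right (Hf_le C.hzr _) (by positivity)).trans C.hr) (by linarith) h5
    (by positivity) s0 (by positivity) v3 v4 τ0 j0 (by linarith)
  linarith [C.tiny]

end St1

open St1 in
/-- **STAGE** -/
theorem stage : StageStmt := by
  intro n c W G _ _ st M vs ι T y Φ δ σ j hn hc ok hι hT hy hy2 hnι hΦ hδ hw hσ hj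
  obtain ⟨C, e1, e2, e3, e4, e5, e6⟩ := exists_cst (n * c) (Fintype.card G) hι hT hy hy2 hnι hΦ hδ
  subst e1
  have h0 : SInv W C st M σ j (fun _ => 0) (st, fun _ _ => 0, vs) := by
    refine ⟨fun _ => Nat.zero_le _, W.R_refl st, Wd.Le.refl W st, by simpa using ok, ok.zero,
      fun x _ => ?_⟩
    simp [Yf, tau, Real.sqrt_sq C.hdl.le, Hf_zero, mul_comm]
  obtain ⟨⟨st', Δ, vs'⟩, -, hR, le, ok', -, inv⟩ := rounds C.R (SInv W C st M σ j)
    (sinv_step W C st M σ j hn hc (by rwa [e2, e3]) hσ hj) h0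
  refine ⟨st', _, vs', hR, le, ok', fun x hx => ?_⟩
  replace inv := inv x hx
  replace hj := hj x hx
  have σ0 : ∀ g, 0 ≤ σ g x := fun g => ((hσ g).2 _).1
  have τ1 := tau_le (c := fun _ => C.s ^ 2) C.hι C.hs (fun _ => le_rfl) (fun g => (hj.2.2 g).1)
    σ0 hj.2.1 hj.1
  simp only [C.hR, Finset.sum_const, Finset.card_univ, nsmul_eq_mul] at inv
  rw [tau_const _ _ C.hs] at inv τ1
  rw [e2, e3] at inv
  generalize ((∑ g, j x g) / C.ι + ∑ g, σ g x) / 2 = τ at *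
  have h1 : eta C.ι T y ≤ (Hf C.r C.z C.Ys (Yf C.dl (fun _ => T) σ Δ x) ^ 2)⁻¹ := by
    have h2 := C.hz.trans_le (le_Hf (Ys := C.Ys) C.hzr (Yf C.dl (fun _ => T) σ Δ x))
    rw [← e3]
    exact inv_anti₀ (by positivity) (pow_le_pow_left₀ h2.le (Hf_le C.hzr _) 2)
  have h2 := mul_le_mul_of_nonneg_right h1 (show 0 ≤ 2 - τ by linarith)
  have η0 : 0 ≤ eta C.ι T y := by rw [← e3]; positivity
  have h3 := mul_le_mul_of_nonneg_left τ1 η0
  refine ⟨by linarith, ?_⟩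
  rcases lt_or_ge (Yf C.dl (fun _ => T) σ Δ x) C.Ys with h | h
  · left
    have := sum_abs_le C.dl (fun _ => T) σ Δ x
    simp only [add_sub_cancel_left]
    linarith
  · right
    rw [Hf_top C.hYs h, e4] at inv
    have Φ0 : 0 ≤ Φ := by rw [← e4]; positivity
    have := mul_le_mul_of_nonneg_left (show 1 ≤ 2 - τ by linarith) Φ0
    linarith

end Crest.Agent.N228.A

end
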