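import Crest.Agent.N228.A.Merge
import Crest.Agent.N228.A.Stage
import Crest.Agent.N228.A.Boost

/-!
# Row 228, line A*: the run
-/

namespace Crest.Agent.N228.A

/-- The whole abstract run, given the pointwise gain lemma. -/
theorem run (hG : GLStmt) : RunStmt := run_of (merge hG) (boost stage)

end Crest.Agent.N228.A
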